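import Vale.Agent.P027M.B.Defs
import Vale.Agent.P022.H218.L3.Amb

/-! # P027, route M, block B3 : a lower bound for periods. Statements (owner helper49)

Functions are `ℂ → ℂ`, used on `0 < im z`. Paper: `notes/P027/B23.md`. -/

set_option linter.all false

open scoped MatrixGroups ComplexConjugate ModularForm
open Complex

noncomputable section

namespace Vale.Agent.P027M.B3

open Vale.Agent.P022.H218.L3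

/-- integral `2 × 2` matrices -/
abbrev M2 : Type := Matrix (Fin 2) (Fin 2) ℤ

/-- the fractional linear map -/
def mob (A : M2) (z : ℂ) : ℂ := (A 0 0 * z + A 0 1) / (A 1 0 * z + A 1 1)

/-- the height -/
def Ht (A : M2) : ℕ := (A 0 0).natAbs + (A 0 1).natAbs + (A 1 0).natAbs + (A 1 1).natAbs

/-- the period -/
def pd (F : ℂ → ℂ) (γ : SL(2, ℤ)) : ℂ := F (mob γ I) - F I

/-- additive on `Γ` -/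
def Ad {X : Type} [AddCommGroup X] (Γ : Subgroup SL(2, ℤ)) (φ : SL(2, ℤ) → X) : Prop :=
  ∀ γ ∈ Γ, ∀ γ' ∈ Γ, φ (γ * γ') = φ γ + φ γ'

/-- primitives of modular forms of weight two -/
structure MP (Γ : Subgroup SL(2, ℤ)) (F : ℂ → ℂ) : Prop where
  hol : DifferentiableOn ℂ F {z | 0 < z.im}
  per : ∀ γ ∈ Γ, ∀ z : ℂ, 0 < z.im → F (mob γ z) = F z + pd F γ
  gro : ∀ σ : SL(2, ℤ), ∃ (c : ℂ) (C A : ℝ), ∀ z : ℂ, 0 < z.im → A ≤ z.im →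
    ‖F (mob σ z) - c * z‖ ≤ C

/-- primitives of cusp forms of weight two -/
structure CP (Γ : Subgroup SL(2, ℤ)) (F : ℂ → ℂ) : Prop where
  hol : DifferentiableOn ℂ F {z | 0 < z.im}
  per : ∀ γ ∈ Γ, ∀ z : ℂ, 0 < z.im → F (mob γ z) = F z + pd F γ
  bdd : ∀ σ : SL(2, ℤ), ∃ C A : ℝ, ∀ z : ℂ, 0 < z.im → A ≤ z.im → ‖F (mob σ z)‖ ≤ C

/-- **input** (from ESC by `PRIM`): every homomorphism is a sum of periods -/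
def ESCP (Γ : Subgroup SL(2, ℤ)) : Prop := ∀ φ : SL(2, ℤ) → ℂ, Ad Γ φ →
  ∃ F G, MP Γ F ∧ CP Γ G ∧ ∀ γ ∈ Γ, φ γ = pd F γ + conj (pd G γ)

/-- the sum of a `q`-series -/
def Ser (x : ℕ → ℂ) (z : ℂ) : ℂ := B.ev (PowerSeries.mk x) (B.qq z)

/-- `F` has the expansion `x` -/
def Ex (F : ℂ → ℂ) (x : ℕ → ℂ) : Prop :=
  B.Conv 1 (PowerSeries.mk x) ∧ ∀ z : ℂ, 0 < z.im → F z = Ser x z

/-- the group of level `4 M` -/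
structure Lvl (M : ℕ) (Γ : Subgroup SL(2, ℤ)) : Prop where
  pos : 0 < M
  four : 4 ∣ M
  mem : ∀ γ : SL(2, ℤ), γ ∈ Γ ↔
    (4 * M : ℤ) ∣ γ 1 0 ∧ ((M : ℤ) ∣ γ 1 1 - 1 ∨ (M : ℤ) ∣ γ 1 1 + 1)

/-- the coefficients of the primitives of `g1` (`s = true`) and `g3` (`s = false`) -/
def cf (c : ℕ → ℂ) (s : Bool) (n : ℕ) : ℂ := if n % 4 = (if s then 1 else 3) then c n / n else 0

/-- the primitives of `g1`, `g3` -/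
def GG (c : ℕ → ℂ) (s : Bool) : ℂ → ℂ := Ser (cf c s)

/-- **input** (from FORM): the depleted eigenform `g1 + √3 g3` -/
structure Eig (M : ℕ) (Γ : Subgroup SL(2, ℤ)) (ε b c : ℕ → ℂ) : Prop where
  one : c 1 = 1
  bad : ∀ p : ℕ, p.Prime → p ∣ M → ∀ m, c (p * m) = 0
  hec : ∀ p : ℕ, p.Prime → ¬ p ∣ M → ∀ m, c (p * m) + ε p * p * (if p ∣ m then c (m / p) else 0) =
    (if p % 4 = 3 ∧ m % 4 = 3 then 3 else 1) * b p * c m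
  eps : ∀ p : ℕ, p.Prime → ¬ p ∣ M → ‖ε p‖ ≤ 1
  conv : ∀ s, B.Conv 1 (PowerSeries.mk (cf c s))
  cp : ∀ s, CP Γ (GG c s)
  dia : ∀ p : ℕ, p.Prime → ¬ p ∣ M → ∀ δ : SL(2, ℤ), (4 * M : ℤ) ∣ δ 1 0 → δ 1 1 = p → ∀ s,
    ∃ k, ∀ z : ℂ, 0 < z.im → GG c s (mob δ z) = ε p * GG c s z + k

/-! ### the outputs -/

/-- **B3**: nonzero periods are not small -/
def LOWB : Prop := ∃ (C : ℝ) (κ : ℕ), ∀ (M : ℕ) (Γ : Subgroup SL(2, ℤ))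
  (ε b c : ℕ → GaussianInt), Lvl M Γ → ESCP Γ →
  Eig M Γ (fun n => ε n) (fun n => b n) (fun n => c n) → c 11 ≠ 0 → ∀ γ ∈ Γ,
    (pd (GG (fun n => c n) true) γ ≠ 0 ∨ pd (GG (fun n => conj (c n : ℂ)) false) γ ≠ 0) →
    Real.exp (-(C * (M : ℝ) ^ κ)) ≤
      max ‖pd (GG (fun n => c n) true) γ‖ ‖pd (GG (fun n => conj (c n : ℂ)) false) γ‖

/-- **SPAN**: the periods span `ℂ²` over `ℝ` -/
def SPAN : Prop := ∀ (M : ℕ) (Γ : Subgroup SL(2, ℤ)) (ε b c : ℕ → ℂ), Lvl M Γ → Eig M Γ ε b c →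
  c 11 ≠ 0 → Submodule.span ℝ ((fun γ => (pd (GG c true) γ,
    pd (GG (fun n => conj (c n)) false) γ)) '' (Γ : Set SL(2, ℤ))) = ⊤

/-- **RST**: the periods are stable under `(i, -i)` -/
def RST : Prop := ∀ (M : ℕ) (Γ : Subgroup SL(2, ℤ)) (ε b c : ℕ → ℂ), Lvl M Γ → Eig M Γ ε b c →
  ∀ γ ∈ Γ, ∃ γ' ∈ Γ, pd (GG c true) γ' = I * pd (GG c true) γ ∧
    pd (GG (fun n => conj (c n)) false) γ' = -I * pd (GG (fun n => conj (c n)) false) γ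

/-- **BND**: the eigenvalues -/
def BND : Prop := ∀ (M : ℕ) (Γ : Subgroup SL(2, ℤ)) (ε b c : ℕ → ℂ), Lvl M Γ → Eig M Γ ε b c →
  ∀ p : ℕ, p.Prime → ¬ p ∣ M → ‖b p‖ ≤ 3 * p ^ 2

/-- **IDX**: the index, finite generation -/
def IDX : Prop := ∀ (M : ℕ) (Γ : Subgroup SL(2, ℤ)), Lvl M Γ →
  Γ.FiniteIndex ∧ Γ.index ≤ (4 * M) ^ 4 ∧ Γ.FG ∧ -1 ∈ Γ ∧ ModularGroup.T ∈ Γ

/-- **REFL**: the conjugate form -/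
def REFL : Prop := ∀ (M : ℕ) (Γ : Subgroup SL(2, ℤ)) (ε b c : ℕ → ℂ), Lvl M Γ → Eig M Γ ε b c →
  Eig M Γ (fun n => conj (ε n)) (fun n => conj (b n)) (fun n => conj (c n))

/-- **PRIM**: primitives of forms -/
def PRIM : Prop := ∀ (Γ : Subgroup SL(2, ℤ)) [Γ.FiniteIndex] (f : UpperHalfPlane → ℂ) (F : ℂ → ℂ)
  (k : ℂ), IsMF Γ 2 f → (∀ τ : UpperHalfPlane, HasDerivAt F (k * f τ) (τ : ℂ)) →
  MP Γ F ∧ ((∀ σ : SL(2, ℤ), UpperHalfPlane.IsZeroAtImInfty (f ∣[(2 : ℤ)] σ)) → CP Γ F)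

/-- **SERD**: the primitive of a `q`-series -/
def SERD : Prop := ∀ (f : UpperHalfPlane → ℂ) (a : ℕ → ℂ), a 0 = 0 →
  (∀ τ : UpperHalfPlane, HasSum (fun n => a n * B.qq τ ^ n) (f τ)) →
  B.Conv 1 (PowerSeries.mk fun n => a n / n) ∧
    ∀ τ : UpperHalfPlane, HasDerivAt (Ser fun n => a n / n) (2 * Real.pi * I * f τ) (τ : ℂ)

/-! ### group theory -/

/-- words of length at most `k` in `S`, `T` and their inverses -/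
def Wd (k : ℕ) (g : SL(2, ℤ)) : Prop := ∃ l : List SL(2, ℤ),
  (∀ s ∈ l, s = ModularGroup.S ∨ s = ModularGroup.S⁻¹ ∨ s = ModularGroup.T ∨ s = ModularGroup.T⁻¹) ∧
    l.length ≤ k ∧ l.prod = g

/-- **REP**: short representatives, small generators -/
def REP : Prop := ∀ (Γ : Subgroup SL(2, ℤ)) [Γ.FiniteIndex],
  (∀ g : SL(2, ℤ), ∃ γ ∈ Γ, ∃ w, Wd Γ.index w ∧ g = γ * w) ∧
  (∀ k w, Wd k w → Ht w ≤ 2 * 3 ^ k) ∧ (∀ k, {w | Wd k w}.Finite) ∧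
  ∀ P : Subgroup SL(2, ℤ), (∀ γ ∈ Γ, Ht γ ≤ 2 * 3 ^ (2 * Γ.index + 1) → γ ∈ P) → Γ ≤ P

/-- the lower generator of `Γ₁(4)` (the same as `TW.Free.V`) -/
def V4 : SL(2, ℤ) := ⟨!![1, 0; 4, 1], by simp [Matrix.det_fin_two]⟩

/-- **WORD**: the length of a word in the free generators -/
def WORD : Prop := ∀ g : SL(2, ℤ), (4 : ℤ) ∣ g 1 0 → ∃ l : List SL(2, ℤ),
  (∀ s ∈ l, s = V4 ∨ s = V4⁻¹ ∨ s = ModularGroup.T ∨ s = ModularGroup.T⁻¹) ∧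
    l.length ≤ 2 * Ht g ∧ (l.prod = g ∨ l.prod = -g)

/-- **COC**: a universal homomorphism with small values -/
def COC : Prop := ∀ (Γ : Subgroup SL(2, ℤ)) [Γ.FiniteIndex], (∀ γ ∈ Γ, (4 : ℤ) ∣ γ 1 0) → -1 ∈ Γ →
  ∃ (n : ℕ) (κ : SL(2, ℤ) → Fin n → ℤ), n ≤ 2 * Γ.index ∧ Ad Γ κ ∧
    (∀ γ ∈ Γ, ∑ i, (κ γ i).natAbs ≤ 2 * Ht γ) ∧
    ∀ φ : SL(2, ℤ) → ℂ, Ad Γ φ → ∃ v : Fin n → ℂ, ∀ γ ∈ Γ, φ γ = ∑ i, κ γ i * v i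

/-- **SMALL**: small solutions of a linear system -/
def SMALL : Prop := ∀ (R : Subring ℂ) (ι ρ : Type) [Fintype ι] (L : ρ → ι → ℂ) (k v : ι → ℂ)
  (H : ℝ), 1 ≤ H → (∀ r i, L r i ∈ R ∧ ‖L r i‖ ≤ H) → (∀ r, ∑ i, L r i * v i = 0) →
  ∑ i, k i * v i ≠ 0 → ∃ w : ι → ℂ, (∀ i, w i ∈ R ∧
    ‖w i‖ ≤ (Fintype.card ι * H) ^ Fintype.card ι) ∧ (∀ r, ∑ i, L r i * w i = 0) ∧
    ∑ i, k i * w i ≠ 0

/-! ### harmonic functions -/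

/-- **MAXP**: the maximum principle at a cusp -/
def MAXP : Prop := ∀ (G : ℂ → ℂ) (h : ℕ) (C A m : ℝ), 0 < h → DifferentiableOn ℂ G {z | 0 < z.im} →
  (∀ z : ℂ, 0 < z.im → G (z + h) = G z) → (∀ z : ℂ, 0 < z.im → A ≤ z.im → ‖G z‖ ≤ C) →
  (∀ z : ℂ, z.im = 1 → (G z).re ≤ m) → ∀ z : ℂ, 1 ≤ z.im → (G z).re ≤ m

/-- **REDF**: reduction with a small matrix -/
def REDF : Prop := ∀ z : ℂ, 1 / 10 ≤ z.im → z.im ≤ 2 → |z.re| ≤ 2 →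
  ∃ (g : SL(2, ℤ)) (u : ℂ), Ht g ≤ 2000 ∧ |u.re| ≤ 1 / 2 ∧ 6 / 7 ≤ u.im ∧ z = mob g u

/-- **BC**: the Harnack step -/
def BC : Prop := ∀ (G : ℂ → ℂ) (m : ℝ), DifferentiableOn ℂ G {z | 0 < z.im} →
  (∀ z : ℂ, 1 / 10 ≤ z.im → z.im ≤ 2 → |z.re| ≤ 2 → (G z).re ≤ m) →
  ∀ z : ℂ, |z.re| ≤ 1 / 2 → 6 / 7 ≤ z.im → z.im ≤ 1 →
    ‖G z - G I‖ ≤ 9 * (m - (G I).re) ∧ ‖G z - G I‖ ≤ 9 * (m - (G z).re)

/-- **HAR**: the real periods bound the function -/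
def HAR : Prop := ∀ (Γ : Subgroup SL(2, ℤ)) [Γ.FiniteIndex] (G : ℂ → ℂ) (U : ℝ), CP Γ G →
  (∀ γ ∈ Γ, Ht γ ≤ 10 ^ 4 * 27 ^ Γ.index → |(pd G γ).re| ≤ U) →
  ∀ x : ℝ, |x| ≤ 1 / 2 → ‖G (x + I) - G I‖ ≤ 1000 * 100 ^ Γ.index * U

/-- **COEF**: the coefficients, at any height -/
def COEF : Prop := ∀ (G : ℂ → ℂ) (x : ℕ → ℂ) (k : ℂ) (y C : ℝ), Ex G x → 0 < y →
  (∀ t : ℝ, |t| ≤ 1 / 2 → ‖G (t + y * I) - k‖ ≤ C) →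
  ∀ n : ℕ, 1 ≤ n → ‖x n‖ ≤ C * Real.exp (2 * Real.pi * n * y)

/-- **ESU**: uniqueness of the decomposition -/
def ESU : Prop := ∀ (Γ : Subgroup SL(2, ℤ)) [Γ.FiniteIndex] (F G : ℂ → ℂ), MP Γ F → CP Γ G →
  (∀ γ ∈ Γ, pd F γ + conj (pd G γ) = 0) →
  (∀ z : ℂ, 0 < z.im → F z = F I) ∧ ∀ z : ℂ, 0 < z.im → G z = G I

/-- **GROW**: growth of the coefficients -/
def GROW : Prop := ∀ (Γ : Subgroup SL(2, ℤ)) [Γ.FiniteIndex] (G : ℂ → ℂ) (x : ℕ → ℂ), CP Γ G →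
  Ex G x → ∃ C : ℝ, ∀ n : ℕ, 1 ≤ n → ‖x n‖ ≤ C * n

/-! ### expansions -/

/-- **QEX**: existence and uniqueness of the expansion -/
def QEX : Prop :=
  (∀ (F : ℂ → ℂ) (C A : ℝ), DifferentiableOn ℂ F {z | 0 < z.im} →
    (∀ z : ℂ, 0 < z.im → F (z + 1) = F z) → (∀ z : ℂ, 0 < z.im → A ≤ z.im → ‖F z‖ ≤ C) →
    ∃ x, Ex F x) ∧
  (∀ F F' x y, Ex F x → Ex F' y → (∀ z : ℂ, 0 < z.im → F z = F' z) → x = y) ∧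
  (∀ F F' x y (a : ℂ), Ex F x → Ex F' y → Ex (fun z => F z + a * F' z) fun n => x n + a * y n) ∧
  ∀ k : ℂ, Ex (fun _ => k) fun n => if n = 0 then k else 0

/-- **HCO**: the operators on expansions -/
def HCO : Prop := ∀ (F : ℂ → ℂ) (x : ℕ → ℂ), Ex F x →
  Ex (fun z => F (z + 1 / 4)) (fun n => I ^ n * x n) ∧ ∀ p : ℕ, 0 < p →
    Ex (fun z => ∑ j : Fin p, F ((z + (j : ℕ)) / p)) (fun n => p * x (p * n)) ∧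
    Ex (fun z => F (p * z)) fun n => if p ∣ n then x (n / p) else 0

/-- **STU**: the Sturm bound -/
def STU : Prop := ∀ (Γ : Subgroup SL(2, ℤ)) [Γ.FiniteIndex] (F : ℂ → ℂ) (x : ℕ → ℂ), MP Γ F →
  Ex F x → (∀ n, 1 ≤ n → n ≤ Γ.index → x n = 0) → ∀ z : ℂ, 0 < z.im → F z = x 0

/-! ### correspondences and the system of equations -/

/-- a family of matrices permuted by `Γ` -/
def Cor (Γ : Subgroup SL(2, ℤ)) {k : ℕ} (α : Fin k → M2) : Prop :=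
  (∀ i, 0 < (α i).det) ∧ ∀ γ ∈ Γ, ∃ (π : Equiv.Perm (Fin k)) (g : Fin k → SL(2, ℤ)),
    ∀ i, g i ∈ Γ ∧ α i * (γ : M2) = (g i : M2) * α (π i)

/-- **TRA**: the operator of a correspondence -/
def TRA : Prop := ∀ (Γ : Subgroup SL(2, ℤ)) (k : ℕ) (α : Fin k → M2) (F : ℂ → ℂ), Cor Γ α →
  (MP Γ F → MP Γ fun z => ∑ i, F (mob (α i) z)) ∧ (CP Γ F → CP Γ fun z => ∑ i, F (mob (α i) z)) ∧
  (MP Γ F → ∀ (γ : SL(2, ℤ)) (π : Equiv.Perm (Fin k)) (g : Fin k → SL(2, ℤ)),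
    (∀ i, g i ∈ Γ ∧ α i * (γ : M2) = (g i : M2) * α (π i)) →
    pd (fun z => ∑ i, F (mob (α i) z)) γ = ∑ i, pd F (g i))

/-- the matrices of `U_p` -/
def aU (p : ℕ) : Fin p → M2 := fun j => !![1, ((j : ℕ) : ℤ); 0, (p : ℤ)]

/-- the matrices of `T_p` -/
def aT (p : ℕ) (δ : SL(2, ℤ)) : Fin (p + 1) → M2 :=
  Fin.cons ((δ : M2) * !![(p : ℤ), 0; 0, 1]) (aU p)

/-- the translation by `1 / 4` -/
def aR : Fin 1 → M2 := fun _ => !![4, 1; 0, 4]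

/-- **HKT** -/
def HKT : Prop := ∀ (M : ℕ) (Γ : Subgroup SL(2, ℤ)) (p : ℕ) (δ : SL(2, ℤ)), Lvl M Γ → p.Prime →
  ¬ p ∣ M → (4 * M : ℤ) ∣ δ 1 0 → δ 1 1 = p → Cor Γ (aT p δ)

/-- **HKU** -/
def HKU : Prop := ∀ (M : ℕ) (Γ : Subgroup SL(2, ℤ)), Lvl M Γ → Cor Γ aR ∧
  (∀ p : ℕ, p.Prime → p ∣ M → Cor Γ (aU p)) ∧
  (∀ δ : SL(2, ℤ), (4 * M : ℤ) ∣ δ 1 0 → Cor Γ fun _ : Fin 1 => (δ : M2)) ∧
  ∀ p : ℕ, p.Prime → ¬ p ∣ M →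
    ∃ δ : SL(2, ℤ), (4 * M : ℤ) ∣ δ 1 0 ∧ δ 1 1 = p ∧ Ht δ ≤ 2 * (4 * M + p)

/-- an equation `T_α φ_s = lam φ_t` -/
structure Eqn where
  k : ℕ
  α : Fin k → M2
  s : Bool
  t : Bool
  lam : GaussianInt

/-- the equation for functions, with the factor `μ` -/
def Eqn.Sol (e : Eqn) (μ : ℂ) (F : Bool → ℂ → ℂ) : Prop :=
  ∃ k, ∀ z : ℂ, 0 < z.im → ∑ i, F e.s (mob (e.α i) z) = μ * F e.t z + k

/-- **LAT**: a small integral solution -/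
def LAT : Prop := ∀ (Γ : Subgroup SL(2, ℤ)) [Γ.FiniteIndex] (E : Set Eqn) (H : ℕ)
  (F₀ G₀ : Bool → ℂ → ℂ) (γ₀ : SL(2, ℤ)), (∀ γ ∈ Γ, (4 : ℤ) ∣ γ 1 0) → -1 ∈ Γ → ESCP Γ → 1 ≤ H →
  (∀ e ∈ E, Cor Γ e.α ∧ e.k ≤ H ∧ (∀ i, Ht (e.α i) ≤ H) ∧ ‖(e.lam : ℂ)‖ ≤ H) →
  (∀ s, MP Γ (F₀ s) ∧ CP Γ (G₀ s)) →
  (∀ e ∈ E, e.Sol e.lam F₀ ∧ e.Sol (conj (e.lam : ℂ)) G₀) → γ₀ ∈ Γ →
  pd (F₀ true) γ₀ + conj (pd (G₀ true) γ₀) ≠ 0 →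
  ∃ F G : Bool → ℂ → ℂ, (∀ s, MP Γ (F s) ∧ CP Γ (G s)) ∧
    (∀ e ∈ E, e.Sol e.lam F ∧ e.Sol (conj (e.lam : ℂ)) G) ∧
    1 ≤ ‖pd (F true) γ₀ + conj (pd (G true) γ₀)‖ ∧
    ∀ γ ∈ Γ, ‖pd (F true) γ + conj (pd (G true) γ)‖ ≤
      ((H : ℝ) * 3 ^ Γ.index) ^ (30 * Γ.index) * Ht γ

/-- the standard system for the primes up to `P` -/
structure FS (M P : ℕ) (δ : ℕ → SL(2, ℤ)) (ε b : ℕ → ℂ) (F : Bool → ℂ → ℂ) : Prop where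
  r : ∀ s, ∃ k, ∀ z : ℂ, 0 < z.im → F s (z + 1 / 4) = (if s then I else -I) * F s z + k
  u : ∀ p : ℕ, p.Prime → p ≤ P → p ∣ M → ∀ s, ∃ k, ∀ z : ℂ, 0 < z.im →
    ∑ j : Fin p, F s ((z + (j : ℕ)) / p) = k
  d : ∀ p : ℕ, p.Prime → p ≤ P → ¬ p ∣ M → ∀ s, ∃ k, ∀ z : ℂ, 0 < z.im →
    F s (mob (δ p) z) = ε p * F s z + k
  t : ∀ p : ℕ, p.Prime → p ≤ P → ¬ p ∣ M → ∀ s, ∃ k, ∀ z : ℂ, 0 < z.im →
    F s (mob (δ p) (p * z)) + ∑ j : Fin p, F s ((z + (j : ℕ)) / p) =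
      (if p % 4 = 3 ∧ s = true then 3 else 1) * b p * F (if p % 4 = 1 then s else !s) z + k

/-- **SOLV**: the eigenform solves the system -/
def SOLV : Prop := ∀ (M P : ℕ) (Γ : Subgroup SL(2, ℤ)) (δ : ℕ → SL(2, ℤ)) (ε b c : ℕ → ℂ),
  Lvl M Γ → Eig M Γ ε b c →
  (∀ p : ℕ, p.Prime → ¬ p ∣ M → (4 * M : ℤ) ∣ δ p 1 0 ∧ δ p 1 1 = p) → FS M P δ ε b (GG c)

/-- **CLS**: multiplicity one -/
def CLS : Prop := ∀ (M : ℕ) (Γ : Subgroup SL(2, ℤ)) [Γ.FiniteIndex] (δ : ℕ → SL(2, ℤ))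
  (ε b c : ℕ → ℂ) (F : Bool → ℂ → ℂ), Lvl M Γ → Eig M Γ ε b c →
  (∀ p : ℕ, p.Prime → ¬ p ∣ M → (4 * M : ℤ) ∣ δ p 1 0 ∧ δ p 1 1 = p) → (∀ s, MP Γ (F s)) →
  FS M Γ.index δ ε b F → ∃ a : ℂ, ∀ s, ∃ k, ∀ z : ℂ, 0 < z.im → F s z = a * GG c s z + k

end Vale.Agent.P027M.B3
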