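import Vale.Agent.P027M.B3.Har

/-! # P027 route M, block B3: the lower bound for the periods -/

set_option linter.all false

open scoped MatrixGroups ComplexConjugate
open Complex

noncomputable section

namespace Vale.Agent.P027M.B3

namespace Fn

/-- the standard system of equations -/
def EE (M P : ℕ) (δ : ℕ → SL(2, ℤ)) (ε b : ℕ → GaussianInt) : Set Eqn :=
  {e | ∃ s : Bool, e = ⟨1, aR, s, s, if s then ⟨0, 1⟩ else ⟨0, -1⟩⟩ ∨ ∃ p : ℕ, p.Prime ∧ p ≤ P ∧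
    ((p ∣ M ∧ e = ⟨p, aU p, s, s, 0⟩) ∨ (¬ p ∣ M ∧ (e = ⟨1, fun _ => (δ p : M2), s, s, ε p⟩ ∨
      e = ⟨p + 1, aT p (δ p), s, if p % 4 = 1 then s else !s,
        (if p % 4 = 3 ∧ s = true then 3 else 1) * b p⟩)))}

theorem mob_R (i : Fin 1) (z : ℂ) : mob (aR i) z = z + 1 / 4 := by
  simp [mob, aR]; ring

theorem mob_U (p : ℕ) (j : Fin p) (z : ℂ) : mob (aU p j) z = (z + (j : ℕ)) / p := by
  simp [mob, aU]

theorem sum_T {p : ℕ} (hp : 0 < p) (δ : SL(2, ℤ)) (F : ℂ → ℂ) {z : ℂ} (hz : 0 < z.im) :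
    ∑ i, F (mob (aT p δ i) z) = F (mob δ (p * z)) + ∑ j : Fin p, F ((z + (j : ℕ)) / p) := by
  rw [Fin.sum_univ_succ]
  simp only [aT, Fin.cons_zero, Fin.cons_succ, mob_U]
  rw [mob_mul _ (by simpa [Matrix.det_fin_two] using hp) hz]
  congr 3
  simp [mob]

/-- the system with the factors changed by `χ` -/
structure Sys (χ : ℂ →+* ℂ) (M P : ℕ) (δ : ℕ → SL(2, ℤ)) (ε b : ℕ → ℂ) (F : Bool → ℂ → ℂ) :
    Prop where
  r : ∀ s, ∃ k, ∀ z : ℂ, 0 < z.im → F s (z + 1 / 4) = χ (if s then I else -I) * F s z + k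
  u : ∀ p : ℕ, p.Prime → p ≤ P → p ∣ M → ∀ s, ∃ k, ∀ z : ℂ, 0 < z.im →
    ∑ j : Fin p, F s ((z + (j : ℕ)) / p) = k
  d : ∀ p : ℕ, p.Prime → p ≤ P → ¬ p ∣ M → ∀ s, ∃ k, ∀ z : ℂ, 0 < z.im →
    F s (mob (δ p) z) = χ (ε p) * F s z + k
  t : ∀ p : ℕ, p.Prime → p ≤ P → ¬ p ∣ M → ∀ s, ∃ k, ∀ z : ℂ, 0 < z.im →
    F s (mob (δ p) (p * z)) + ∑ j : Fin p, F s ((z + (j : ℕ)) / p) =
      (if p % 4 = 3 ∧ s = true then 3 else 1) * χ (b p) * F (if p % 4 = 1 then s else !s) z + k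

variable {M P : ℕ} {δ : ℕ → SL(2, ℤ)}

theorem sys_iff (χ : ℂ →+* ℂ) {ε b : ℕ → GaussianInt} {F : Bool → ℂ → ℂ} :
    (∀ e ∈ EE M P δ ε b, e.Sol (χ e.lam) F) ↔ Sys χ M P δ (fun n => ε n) (fun n => b n) F := by
  have e1 : ∀ s : Bool, (((if s then ⟨0, 1⟩ else ⟨0, -1⟩ : GaussianInt)) : ℂ) =
      if s then I else -I := fun s => by cases s <;> simp [GaussianInt.toComplex_def']
  have e2 : ∀ (q : Prop) [Decidable q] (x : GaussianInt),
      χ (((if q then 3 else 1) * x : GaussianInt) : ℂ) = (if q then 3 else 1) * χ x := fun q _ x => by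
    rw [map_mul, map_mul]
    split_ifs
    · rw [map_ofNat, map_ofNat]
    · rw [map_one, map_one]
  constructor
  · intro h
    refine ⟨fun s => ?_, fun p a b c s => ?_, fun p a b c s => ?_, fun p a b c s => ?_⟩
    · simpa only [Eqn.Sol, Fin.sum_univ_one, mob_R, e1] using h _ ⟨s, Or.inl rfl⟩
    · simpa only [Eqn.Sol, mob_U, map_zero, zero_mul, zero_add] using
        h _ ⟨s, Or.inr ⟨p, a, b, Or.inl ⟨c, rfl⟩⟩⟩
    · simpa only [Eqn.Sol, Fin.sum_univ_one] using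
        h _ ⟨s, Or.inr ⟨p, a, b, Or.inr ⟨c, Or.inl rfl⟩⟩⟩
    · obtain ⟨k, hk⟩ := h _ ⟨s, Or.inr ⟨p, a, b, Or.inr ⟨c, Or.inr rfl⟩⟩⟩
      exact ⟨k, fun z hz => by rw [← sum_T a.pos _ _ hz, ← e2]; exact hk z hz⟩
  · rintro h e ⟨s, rfl | ⟨p, a, b, ⟨c, rfl⟩ | ⟨c, rfl | rfl⟩⟩⟩
    · simpa only [Eqn.Sol, Fin.sum_univ_one, mob_R, e1] using h.r s
    · simpa only [Eqn.Sol, mob_U, map_zero, zero_mul, zero_add] using h.u p a b c s
    · simpa only [Eqn.Sol, Fin.sum_univ_one] using h.d p a b c s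
    · obtain ⟨k, hk⟩ := h.t p a b c s
      exact ⟨k, fun z hz => (sum_T a.pos _ _ hz).trans (by rw [e2]; exact hk z hz)⟩

variable {ε b : ℕ → ℂ} {F : Bool → ℂ → ℂ}

theorem sys_id : Sys (RingHom.id ℂ) M P δ ε b F ↔ FS M P δ ε b F :=
  ⟨fun h => ⟨h.r, h.u, h.d, h.t⟩, fun h => ⟨h.r, h.u, h.d, h.t⟩⟩

theorem Sys.smul {χ : ℂ →+* ℂ} (h : Sys χ M P δ ε b F) (a : ℂ) :
    Sys χ M P δ ε b fun s z => a * F s z := by
  refine ⟨fun s => ?_, fun p x y w s => ?_, fun p x y w s => ?_, fun p x y w s => ?_⟩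
  · obtain ⟨k, hk⟩ := h.r s
    exact ⟨a * k, fun z hz => by rw [hk z hz]; ring⟩
  · obtain ⟨k, hk⟩ := h.u p x y w s
    exact ⟨a * k, fun z hz => by rw [← Finset.mul_sum, hk z hz]⟩
  · obtain ⟨k, hk⟩ := h.d p x y w s
    exact ⟨a * k, fun z hz => by rw [hk z hz]; ring⟩
  · obtain ⟨k, hk⟩ := h.t p x y w s
    exact ⟨a * k, fun z hz => by rw [← Finset.mul_sum, ← mul_add, hk z hz]; ring⟩

/-- the exchange of the two components -/
def sw (x y : ℂ) (F : Bool → ℂ → ℂ) (s : Bool) (z : ℂ) : ℂ := (if s then x else y) * F (!s) z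

theorem Sys.sw {χ χ' : ℂ →+* ℂ} {ε' b' : ℕ → ℂ} (h : Sys χ M P δ ε b F) (h2 : 2 ∣ M)
    (hI : χ' I = -χ I) (hε : ∀ n, χ' (ε' n) = χ (ε n)) (hb : ∀ n, χ' (b' n) = χ (b n)) (y : ℂ) :
    Sys χ' M P δ ε' b' (sw (3 * y) y F) := by
  refine ⟨fun s => ?_, fun p x v w s => ?_, fun p x v w s => ?_, fun p x v w s => ?_⟩
  · obtain ⟨k, hk⟩ := h.r (!s)
    refine ⟨(if s then 3 * y else y) * k, fun z hz => ?_⟩
    rw [Fn.sw, Fn.sw, hk z hz]
    cases s <;> simp [hI] <;> ring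
  · obtain ⟨k, hk⟩ := h.u p x v w (!s)
    exact ⟨_, fun z hz => by simp only [Fn.sw]; rw [← Finset.mul_sum, hk z hz]⟩
  · obtain ⟨k, hk⟩ := h.d p x v w (!s)
    exact ⟨(if s then 3 * y else y) * k, fun z hz => by
      rw [Fn.sw, Fn.sw, hk z hz, hε]; ring⟩
  · obtain ⟨k, hk⟩ := h.t p x v w (!s)
    refine ⟨(if s then 3 * y else y) * k, fun z hz => ?_⟩
    simp only [Fn.sw]
    rw [← Finset.mul_sum, ← mul_add, hk z hz, hb]
    have o : p % 4 = 1 ∨ p % 4 = 3 := by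
      have := x.eq_two_or_odd.resolve_left fun e => w (e ▸ h2)
      omega
    rcases o with o | o <;> cases s <;> simp [o] <;> ring

theorem num {N d : ℕ} (h1 : 16 ≤ N) (h2 : d ≤ N ^ 4) :
    22 * (1000 * 100 ^ d * ((((9 * N ^ 8 : ℕ) : ℝ) * 3 ^ d) ^ (30 * d) * (10 ^ 4 * 27 ^ d : ℕ)) *
      Real.exp (2 * Real.pi * (11 : ℕ) * 1)) ≤ Real.exp (200 * (N : ℝ) ^ 8) := by
  have ex : ∀ x : ℝ, x ≤ Real.exp x := fun x => by linarith [Real.add_one_le_exp x]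
  have n : (16 : ℝ) ≤ N := by exact_mod_cast h1
  have dd : (d : ℝ) ≤ (N : ℝ) ^ 4 := by exact_mod_cast h2
  have d0 : (0 : ℝ) ≤ d := Nat.cast_nonneg _
  obtain ⟨X, hX⟩ : ∃ X : ℝ, X = (N : ℝ) ^ 4 := ⟨_, rfl⟩
  have X1 : 16 * (N : ℝ) ≤ X := by
    rw [hX]
    nlinarith [mul_le_mul n n (by norm_num) (by linarith), sq_nonneg ((N : ℝ) ^ 2 - N)]
  have pw : ∀ (a x : ℝ) (k : ℕ), 0 ≤ a → a ≤ Real.exp x → a ^ k ≤ Real.exp (k * x) :=
    fun a x k a0 e => by rw [Real.exp_nat_mul]; exact pow_le_pow_left₀ a0 e k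
  have e3 := pw 3 3 d (by norm_num) (ex 3)
  have a1 : ((9 * N ^ 8 : ℕ) : ℝ) * 3 ^ d ≤ Real.exp (4 * X) := by
    have := pw N N 8 (by linarith) (ex N)
    push_cast at this ⊢
    calc 9 * (N : ℝ) ^ 8 * 3 ^ d ≤ Real.exp 9 * Real.exp (8 * N) * Real.exp (d * 3) := by
          gcongr; exact ex 9
      _ ≤ _ := by rw [← Real.exp_add, ← Real.exp_add]; exact Real.exp_le_exp.2 (by linarith)
  have a2 := pw _ _ (30 * d) (by positivity) a1
  have a3 := pw 100 100 d (by norm_num) (ex 100)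
  have a4 := pw 27 27 d (by norm_num) (ex 27)
  have a5 := pw 10 10 9 (by norm_num) (ex 10)
  have pi := Real.pi_le_four
  push_cast at a2 a5 ⊢
  calc _ = 22 * 10 ^ 7 * 100 ^ d * (9 * (N : ℝ) ^ 8 * 3 ^ d) ^ (30 * d) * 27 ^ d *
        Real.exp (2 * Real.pi * 11 * 1) := by ring
    _ ≤ Real.exp (9 * 10) * Real.exp (d * 100) * Real.exp (30 * d * (4 * X)) * Real.exp (d * 27) *
        Real.exp (2 * Real.pi * 11 * 1) := by gcongr; linarith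
    _ ≤ _ := by
      simp only [← Real.exp_add]
      refine Real.exp_le_exp.2 ?_
      rw [show (N : ℝ) ^ 8 = X * X by rw [hX]; ring]
      rw [← hX] at dd
      nlinarith

end Fn

open Fn in
theorem lowb_of (hI : IDX) (hR : REFL) (hB : BND) (hT : HKT) (hU : HKU) (hS : SOLV) (hC : CLS)
    (hL : LAT) (hQ : QEX) (hK : COEF) : LOWB := by
  refine ⟨200 * 4 ^ 8, 8, fun M Γ ε b c lv es eg c11 γ hγ ne => ?_⟩
  obtain ⟨fi, ix, -, m1, -⟩ := hI M Γ lv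
  obtain ⟨cR, cU, cD, exd⟩ := hU M Γ lv
  have ex : ∀ p : ℕ, ∃ δ : SL(2, ℤ), p.Prime → ¬ p ∣ M →
      (4 * M : ℤ) ∣ δ 1 0 ∧ δ 1 1 = p ∧ Ht δ ≤ 2 * (4 * M + p) := fun p => by
    by_cases a : p.Prime ∧ ¬ p ∣ M
    · exact (exd p a.1 a.2).imp fun _ h _ _ => h
    · exact ⟨1, fun x y => absurd ⟨x, y⟩ a⟩
  choose δ hδ using ex
  have hδ' : ∀ p : ℕ, p.Prime → ¬ p ∣ M → (4 * M : ℤ) ∣ δ p 1 0 ∧ δ p 1 1 = p :=
    fun p x y => ⟨(hδ p x y).1, (hδ p x y).2.1⟩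
  have eg' := hR M Γ _ _ _ lv eg
  have Mt : 2 ∣ M := Dvd.dvd.trans (by norm_num) lv.four
  have N16 : 16 ≤ 4 * M := by have := Nat.le_of_dvd lv.pos lv.four; omega
  obtain ⟨N, hN⟩ : ∃ N, N = 4 * M := ⟨_, rfl⟩
  rw [← hN] at N16 ix
  set G₁ := GG (fun n => (c n : ℂ)) with hG₁
  set G₃ := GG (fun n => conj (c n : ℂ)) with hG₃
  have s1 := sys_id.2 (hS M Γ.index Γ δ _ _ _ lv eg hδ')
  have s3 := (sys_id.2 (hS M Γ.index Γ δ _ _ _ lv eg' hδ'))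
  obtain ⟨a₀, a₁, ne'⟩ : ∃ a₀ a₁ : ℂ, a₀ * pd (G₁ true) γ + conj (a₁ * pd (G₃ false) γ) ≠ 0 := by
    rcases ne with ne | ne
    · exact ⟨1, 0, by simpa using ne⟩
    · exact ⟨0, 1, by simpa using ne⟩
  have X4 : 16 * N ≤ N ^ 4 := by
    calc 16 * N ≤ N ^ 3 * N := Nat.mul_le_mul_right _ (N16.trans (Nat.le_self_pow (by norm_num) N))
      _ = N ^ 4 := by ring
  have X8 : N ^ 8 = N ^ 4 * N ^ 4 := by ring
  have LL := hL Γ (EE M Γ.index δ ε b) (9 * N ^ 8)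
    (fun s z => a₀ * G₁ s z) (sw (3 * (a₁ / 3)) (a₁ / 3) G₃) γ
    (fun g hg => (Dvd.intro _ rfl).trans ((lv.mem g).1 hg).1) m1 es (by nlinarith) ?_
    (fun s => ⟨((eg.cp s).smul a₀).mp, (eg'.cp _).smul _⟩)
    (fun e he => ⟨(sys_iff (RingHom.id ℂ)).2 (s1.smul a₀) e he,
      (sys_iff conj).2 (s3.sw (χ' := conj) (ε' := fun n => ε n) (b' := fun n => b n) Mt (by simp)
        (fun _ => rfl) (fun _ => rfl) _) e he⟩) hγ ?_
  · obtain ⟨F, G, mp, sol, one, bd⟩ := LL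
    obtain ⟨a, ha⟩ := hC M Γ δ _ _ _ F lv eg hδ' (fun s => (mp s).1)
      (sys_id.1 ((sys_iff (RingHom.id ℂ)).1 fun e he => (sol e he).1))
    obtain ⟨a', ha'⟩ := hC M Γ δ _ _ _ (sw (3 * 1) 1 G) lv eg' hδ'
      (fun s => ((mp _).2.smul _).mp)
      (sys_id.1 (((sys_iff conj).1 fun e he => (sol e he).2).sw (χ' := RingHom.id ℂ)
        (ε' := fun n => conj (ε n : ℂ)) (b' := fun n => conj (b n : ℂ)) Mt (by simp)
        (fun _ => rfl) (fun _ => rfl) 1))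
    obtain ⟨k, hk⟩ := ha true
    obtain ⟨k', hk'⟩ := ha' false
    have pF : ∀ g, pd (F true) g = a * pd (G₁ true) g := pd_congr hk
    have pG : ∀ g, pd (G true) g = a' * pd (G₃ false) g :=
      pd_congr fun z hz => by simpa [sw] using hk' z hz
    simp only [pF, pG] at one bd
    have cp := ((CP.const (Γ := Γ) 0).lin (eg.cp true) a).lin (eg'.cp false) a'
    have xp := hQ.2.2.1 _ _ _ _ a' (hQ.2.2.1 _ _ _ _ a (hQ.2.2.2 0)
      (⟨eg.conv true, fun _ _ => rfl⟩ : Ex (G₁ true) _))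
      (⟨eg'.conv false, fun _ _ => rfl⟩ : Ex (G₃ false) _)
    have hh := har Γ _ ((((9 * N ^ 8 : ℕ) : ℝ) * 3 ^ Γ.index) ^ (30 * Γ.index) *
      (10 ^ 4 * 27 ^ Γ.index : ℕ)) cp fun g hg ht => by
        rw [pd_lin, pd_lin, pd_const, zero_add, add_re, ← conj_re (a' * _), ← add_re]
        exact (abs_re_le_norm _).trans ((bd g hg).trans
          (mul_le_mul_of_nonneg_left (Nat.cast_le.2 ht) (by positivity)))
    have co := hK _ _ _ 1 _ xp one_pos fun t ht => by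
      rw [ofReal_one, one_mul]; exact hh t ht
    have nm := num N16 ix
    obtain ⟨W, hW⟩ : ∃ W : ℝ, W = 1000 * 100 ^ Γ.index * ((((9 * N ^ 8 : ℕ) : ℝ) * 3 ^ Γ.index) ^
      (30 * Γ.index) * (10 ^ 4 * 27 ^ Γ.index : ℕ)) := ⟨_, rfl⟩
    have W0 : 0 ≤ W := by rw [hW]; positivity
    rw [← hW] at co nm
    have c1 := co 1 le_rfl
    have c2 := co 11 (by norm_num)
    have u1 : (c 1 : ℂ) = 1 := eg.one
    have u2 : 1 ≤ ‖(c 11 : ℂ)‖ := by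
      have := GaussianInt.norm_pos.2 c11
      refine le_of_sq_le_sq ?_ (norm_nonneg _)
      rw [Complex.sq_norm, ← GaussianInt.intCast_real_norm, one_pow]
      exact_mod_cast this
    simp [cf, u1] at c1 c2
    obtain ⟨Z, hZ⟩ : ∃ Z : ℝ, Z = W * Real.exp (2 * Real.pi * 11) := ⟨_, rfl⟩
    have b1 : ‖a‖ ≤ Z := c1.trans (hZ ▸ mul_le_mul_of_nonneg_left
      (Real.exp_le_exp.2 (by linarith [Real.pi_pos])) W0)
    have b2 : ‖a'‖ ≤ 11 * Z := by nlinarith [norm_nonneg a']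
    obtain ⟨m, hm⟩ : ∃ m, m = max ‖pd (G₁ true) γ‖ ‖pd (G₃ false) γ‖ := ⟨_, rfl⟩
    have m1 : ‖pd (G₁ true) γ‖ ≤ m := hm ▸ le_max_left _ _
    have m2 : ‖pd (G₃ false) γ‖ ≤ m := hm ▸ le_max_right _ _
    have m0 := (norm_nonneg _).trans m1
    have Z0 := (norm_nonneg _).trans b1
    have t := one.trans (norm_add_le _ _)
    rw [norm_conj, norm_mul, norm_mul] at t
    have t1 := mul_le_mul b1 m1 (norm_nonneg _) Z0
    have t2 := mul_le_mul b2 m2 (norm_nonneg _) (by linarith)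
    have e : (200 : ℝ) * 4 ^ 8 * (M : ℝ) ^ 8 = 200 * (N : ℝ) ^ 8 := by rw [hN]; push_cast; ring
    rw [← hm, e, Real.exp_neg, inv_le_iff_one_le_mul₀ (Real.exp_pos _)]
    rw [mul_one, Nat.cast_ofNat, ← hZ] at nm
    nlinarith [mul_le_mul_of_nonneg_left nm m0]
  · have cast : ∀ x : ℝ, x ≤ 9 * ((N : ℝ) ^ 4) ^ 2 → x ≤ ((9 * N ^ 8 : ℕ) : ℝ) := fun x h => by
      push_cast; linarith
    have N1 : (1 : ℝ) ≤ ((N : ℝ) ^ 4) ^ 2 :=
      one_le_pow₀ (one_le_pow₀ (by exact_mod_cast (by omega : 1 ≤ N)))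
    have hu : ∀ p : ℕ, p ≤ Γ.index → ∀ j : Fin p, Ht (aU p j) ≤ 9 * N ^ 8 := fun p hp j => by
      have : Ht (aU p j) = 1 + j + p := by simp [Ht, aU]
      have := j.2
      nlinarith
    rintro e ⟨s, rfl | ⟨p, x, y, ⟨w, rfl⟩ | ⟨w, rfl | rfl⟩⟩⟩
    · refine ⟨cR, by show 1 ≤ _; nlinarith, fun i => ?_, cast _ ?_⟩
      · have : Ht (aR i) = 9 := by simp [Ht, aR]
        show Ht (aR i) ≤ _
        nlinarith
      · cases s <;> simp [GaussianInt.toComplex_def'] <;> linarith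
    · exact ⟨cU p x w, by show p ≤ _; nlinarith, hu p y, cast _ (by simp)⟩
    · refine ⟨cD _ (hδ p x w).1, by show 1 ≤ _; nlinarith, fun i => ?_,
        cast _ ((eg.eps p x w).trans (by linarith))⟩
      have := (hδ p x w).2.2
      show Ht (δ p : M2) ≤ _
      nlinarith
    · refine ⟨hT M Γ p _ lv x w (hδ p x w).1 (hδ p x w).2.1, by show p + 1 ≤ _; nlinarith,
        fun i => ?_, cast _ ?_⟩
      · refine Fin.cases ?_ (fun j => hu p y j) i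
        have a := Ht_mul (δ p : M2) !![(p : ℤ), 0; 0, 1]
        have e : Ht !![(p : ℤ), 0; 0, 1] = p + 1 := by simp [Ht]
        have := Nat.mul_le_mul ((hδ p x w).2.2.trans (show _ ≤ 4 * N ^ 4 by omega))
          (show p + 1 ≤ 2 * N ^ 4 by omega)
        rw [e] at a
        show Ht ((δ p : M2) * !![(p : ℤ), 0; 0, 1]) ≤ _
        nlinarith
      · have a := hB M Γ _ _ _ lv eg p x w
        have pp : (p : ℝ) ^ 2 ≤ ((N : ℝ) ^ 4) ^ 2 :=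
          pow_le_pow_left₀ (Nat.cast_nonneg _) (by exact_mod_cast y.trans ix) 2
        have := norm_nonneg (b p : ℂ)
        show ‖(((if p % 4 = 3 ∧ s = true then 3 else 1) * b p : GaussianInt) : ℂ)‖ ≤ _
        rw [map_mul, norm_mul]
        split_ifs
        · rw [map_ofNat, norm_ofNat]; linarith
        · rw [map_one, norm_one]; linarith
  · rw [pd_congr (F := fun z => a₀ * G₁ true z) (G := G₁ true) (a := a₀) (k := 0)
        (fun z _ => by simp),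
      pd_congr (F := sw (3 * (a₁ / 3)) (a₁ / 3) G₃ true) (G := G₃ false) (a := a₁) (k := 0)
        (fun z _ => by simp only [sw, if_true, Bool.not_true]; ring)]
    exact ne'

end Vale.Agent.P027M.B3
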