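import Vale.Agent.P027M.B3.All0
import Vale.Agent.P027M.B3.Fin

/-! # P027, route M, block B3 : the closed lower bound -/

namespace Vale.Agent.P027M.B3

theorem lowb : LOWB := lowb_of idx refl bnd0 hkt hku solv0 cls0 lat0 qex coef

end Vale.Agent.P027M.B3
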