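import Vale.Agent.P027M.B3.Bas

/-! # P027, route M, block B3 : multiplicity one (helper89) -/

set_option linter.all false

open scoped MatrixGroups ComplexConjugate
open Complex

noncomputable section

namespace Vale.Agent.P027M.B3

namespace Cls

theorem coef (hQ : QEX) {F F' : ℂ → ℂ} {x y : ℕ → ℂ} {μ k : ℂ} (h : Ex F x) (h' : Ex F' y)
    (e : ∀ z : ℂ, 0 < z.im → F z = μ * F' z + k) {n : ℕ} (hn : 1 ≤ n) : x n = μ * y n := by
  have a := hQ.2.1 _ _ _ _ h (hQ.2.2.1 _ _ _ _ μ (hQ.2.2.2 k) h') fun z hz => by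
    rw [e z hz, add_comm]
  rw [a]
  simp only [if_neg (by omega : ¬ n = 0), zero_add]

theorem per {F : ℂ → ℂ} {l k : ℂ} (hl : l ^ 2 = -1)
    (e : ∀ z : ℂ, 0 < z.im → F (z + 1 / 4) = l * F z + k) (z : ℂ) (hz : 0 < z.im) :
    F (z + 1) = F z := by
  have i : ∀ w : ℂ, (w + 1 / 4).im = w.im := fun w => by
    rw [show (1 / 4 : ℂ) = ((1 / 4 : ℝ) : ℂ) by push_cast; rfl, add_im, ofReal_im, add_zero]
  have e1 := e z hz
  have e2 := e (z + 1 / 4) (by rwa [i])
  have e3 := e (z + 1 / 4 + 1 / 4) (by rwa [i, i])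
  have e4 := e (z + 1 / 4 + 1 / 4 + 1 / 4) (by rwa [i, i, i])
  rw [show z + 1 = z + 1 / 4 + 1 / 4 + 1 / 4 + 1 / 4 by ring, e4, e3, e2, e1]
  linear_combination ((l ^ 2 - 1) * F z + (l + 1) * k) * hl

theorem ex (hQ : QEX) {Γ : Subgroup SL(2, ℤ)} {F : ℂ → ℂ} (h : MP Γ F)
    (hp : ∀ z : ℂ, 0 < z.im → F (z + 1) = F z) : ∃ x, Ex F x := by
  obtain ⟨c, C, A, g⟩ := h.gro 1
  simp only [mob_one] at g
  have i0 : ∀ n : ℕ, (((max A 1 : ℝ) : ℂ) * I + n * 1).im = max A 1 := fun n => by simp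
  have i1 : (0 : ℝ) < max A 1 := lt_max_of_lt_right one_pos
  have c0 : -c = 0 := per_zero (u := fun z => F z - c * z) (z := ((max A 1 : ℝ) : ℂ) * I) (h := 1)
    (C := C) (fun n => by
      rw [hp _ (by rwa [i0])]
      ring) fun n => g _ (by rwa [i0]) (by rw [i0]; exact le_max_left _ _)
  rw [neg_eq_zero.1 c0] at g
  exact hQ.1 F C A h.hol hp (by simpa using g)

/-- the relations between the coefficients -/
structure Rel (M P : ℕ) (ε b : ℕ → ℂ) (x : Bool → ℕ → ℂ) : Prop where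
  r : x false 1 = 0
  u : ∀ p : ℕ, p.Prime → p ≤ P → p ∣ M → ∀ s m, 1 ≤ m → x s (p * m) = 0
  t : ∀ p : ℕ, p.Prime → p ≤ P → ¬ p ∣ M → ∀ s m, 1 ≤ m →
    p * x s (p * m) + ε p * (if p ∣ m then x s (m / p) else 0) =
      (if p % 4 = 3 ∧ s = true then 3 else 1) * b p * x (if p % 4 = 1 then s else !s) m

theorem rel (hQ : QEX) (hH : HCO) {M P : ℕ} {δ : ℕ → SL(2, ℤ)} {ε b : ℕ → ℂ}
    {F : Bool → ℂ → ℂ} {x : Bool → ℕ → ℂ} (h : FS M P δ ε b F) (hx : ∀ s, Ex (F s) (x s)) :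
    Rel M P ε b x := by
  refine ⟨?_, fun p hp hP hM s m hm => ?_, fun p hp hP hM s m hm => ?_⟩
  · obtain ⟨k, e⟩ := h.r false
    have a := coef hQ (hH _ _ (hx false)).1 (hx false) e le_rfl
    simp only [pow_one, Bool.false_eq_true, if_false] at a
    linear_combination (-I / 2) * a + x false 1 * I_mul_I
  · obtain ⟨k, e⟩ := h.u p hp hP hM s
    have a := coef (μ := 0) (k := k) hQ ((hH _ _ (hx s)).2 p hp.pos).1 (hx s)
      (fun z hz => by rw [e z hz, zero_mul, zero_add]) hm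
    rw [zero_mul] at a
    exact (mul_eq_zero.1 a).resolve_left (Nat.cast_ne_zero.2 hp.ne_zero)
  · obtain ⟨k, e⟩ := h.t p hp hP hM s
    obtain ⟨k', e'⟩ := h.d p hp hP hM s
    obtain ⟨a1, a2⟩ := (hH _ _ (hx s)).2 p hp.pos
    exact coef (k := k - k') hQ (hQ.2.2.1 _ _ _ _ (ε p) a1 a2) (hx _) (fun z hz => by
      have i : 0 < ((p : ℂ) * z).im := by
        rw [mul_im, natCast_re, natCast_im, zero_mul, add_zero]
        exact mul_pos (Nat.cast_pos.2 hp.pos) hz
      linear_combination e z hz - e' _ i) hm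

theorem Rel.lin {M P : ℕ} {ε b : ℕ → ℂ} {x y : Bool → ℕ → ℂ} (h : Rel M P ε b x)
    (h' : Rel M P ε b y) (a : ℂ) : Rel M P ε b fun s n => x s n + a * y s n := by
  refine ⟨by rw [h.r, h'.r, mul_zero, add_zero], fun p hp hP hM s m hm => ?_,
    fun p hp hP hM s m hm => ?_⟩
  · rw [h.u p hp hP hM s m hm, h'.u p hp hP hM s m hm, mul_zero, add_zero]
  · have e := h.t p hp hP hM s m hm
    have e' := h'.t p hp hP hM s m hm
    by_cases c : p ∣ m
    · simp only [if_pos c] at e e' ⊢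
      linear_combination e + a * e'
    · simp only [if_neg c] at e e' ⊢
      linear_combination e + a * e'

theorem Rel.zero {M P : ℕ} {ε b : ℕ → ℂ} {x : Bool → ℕ → ℂ} (h : Rel M P ε b x)
    (h1 : x true 1 = 0) (n : ℕ) : 1 ≤ n → n ≤ P → ∀ s, x s n = 0 := by
  induction n using Nat.strong_induction_on with
  | _ n ih =>
    intro n1 nP s
    by_cases c : n = 1
    · subst c
      cases s
      exacts [h.r, h1]
    obtain ⟨p, hp, m, rfl⟩ := Nat.exists_prime_and_dvd c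
    have m1 : 1 ≤ m := Nat.pos_of_mul_pos_left n1
    have p2 := hp.two_le
    have mn : m < p * m := by nlinarith
    have pP : p ≤ P := (Nat.le_mul_of_pos_right p m1).trans nP
    by_cases d : p ∣ M
    · exact h.u p hp pP d s m m1
    have e := h.t p hp pP d s m m1
    rw [ih m mn m1 (mn.le.trans nP), mul_zero] at e
    have z : (if p ∣ m then x s (m / p) else 0) = 0 := by
      split_ifs with f
      · exact ih _ ((Nat.div_le_self _ _).trans_lt mn) (Nat.div_pos (Nat.le_of_dvd m1 f) hp.pos)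
          ((Nat.div_le_self _ _).trans (mn.le.trans nP)) s
      · rfl
    rw [z, mul_zero, add_zero] at e
    exact (mul_eq_zero.1 e).resolve_left (Nat.cast_ne_zero.2 hp.ne_zero)

end Cls

open Cls in
theorem cls (hQ : QEX) (hH : HCO) (hS : STU) (hV : SOLV) : CLS := by
  intro M Γ _ δ ε b c F hL hE hδ hF hFS
  have hx : ∀ s, ∃ x, Ex (F s) x := fun s => by
    obtain ⟨k, e⟩ := hFS.r s
    exact ex hQ (hF s) (per (by cases s <;> simp) e)
  choose x hx using hx
  have hy : ∀ s, Ex (GG c s) (cf c s) := fun s => ⟨hE.conv s, fun _ _ => rfl⟩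
  have r := (rel hQ hH hFS hx).lin (rel hQ hH (hV M Γ.index Γ δ ε b c hL hE hδ) hy) (-x true 1)
  have z := r.zero (by simp [cf, hE.one])
  refine ⟨x true 1, fun s => ⟨x s 0 + -x true 1 * cf c s 0, fun w hw => ?_⟩⟩
  have := hS Γ _ _ ((hF s).lin (hE.cp s).mp (-x true 1)) (hQ.2.2.1 _ _ _ _ _ (hx s) (hy s))
    (fun n a b => z n a b s) w hw
  linear_combination this

end Vale.Agent.P027M.B3
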