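import Vale.Agent.P027M.B3.Defs
import Vale.Agent.P027M.TW.Free

/-! # P027, route M, block B3, row COC : a universal homomorphism with small values -/

set_option linter.all false

open scoped MatrixGroups

noncomputable section

namespace Vale.Agent.P027M.B3

namespace Coc

section gen

variable {G X ι A : Type} [Group G] [MulAction G X] [AddCommGroup A] (g : ι → G)

/-- cocycles on the free group -/
def Co (z : FreeGroup ι → X → A) : Prop :=
  ∀ u u' x, z (u * u') x = z u (FreeGroup.lift g u' • x) + z u' x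

variable {g}

theorem Co.one {z : FreeGroup ι → X → A} (h : Co g z) (x : X) : z 1 x = 0 := by
  have := h 1 1 x
  rw [mul_one, map_one, one_smul] at this
  exact left_eq_add.1 this

theorem Co.inv {z : FreeGroup ι → X → A} (h : Co g z) (u : FreeGroup ι) (x : X) :
    z u⁻¹ x = -z u (FreeGroup.lift g u⁻¹ • x) := by
  have := h u u⁻¹ x
  rw [mul_inv_cancel, h.one] at this
  exact eq_neg_of_add_eq_zero_right this.symm

theorem Co.ext {z z' : FreeGroup ι → X → A} (h : Co g z) (h' : Co g z')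
    (e : ∀ s x, z (.of s) x = z' (.of s) x) (u : FreeGroup ι) : ∀ x, z u x = z' u x := by
  induction u using FreeGroup.induction_on with
  | C1 => exact fun x => (h.one x).trans (h'.one x).symm
  | of s => exact e s
  | inv_of s _ => exact fun x => by rw [h.inv, h'.inv, e]
  | mul u u' i j => exact fun x => by rw [h, h', i, j]

variable (g)

/-- the move of a generator -/
def step (v : X → ι → A) (s : ι) : Equiv.Perm (X × A) where
  toFun p := (g s • p.1, v p.1 s + p.2)
  invFun p := ((g s)⁻¹ • p.1, -v ((g s)⁻¹ • p.1) s + p.2)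
  left_inv p := by simp
  right_inv p := by simp

theorem ex (v : X → ι → A) :
    ∃ z : FreeGroup ι → X → A, Co g z ∧ ∀ s x, z (.of s) x = v x s := by
  have a : ∀ u : FreeGroup ι, ∃ z : X → A, ∀ x a,
      FreeGroup.lift (step g v) u (x, a) = (FreeGroup.lift g u • x, z x + a) := fun u => by
    induction u using FreeGroup.induction_on with
    | C1 => exact ⟨0, fun x a => by simp⟩
    | of s => exact ⟨fun x => v x s, fun x a => by
        rw [FreeGroup.lift_apply_of, FreeGroup.lift_apply_of]; rfl⟩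
    | inv_of s _ => exact ⟨fun x => -v ((g s)⁻¹ • x) s, fun x a => by
        rw [map_inv, map_inv, FreeGroup.lift_apply_of, FreeGroup.lift_apply_of]; rfl⟩
    | mul u u' i j =>
      obtain ⟨z, i⟩ := i
      obtain ⟨z', j⟩ := j
      exact ⟨fun x => z (FreeGroup.lift g u' • x) + z' x, fun x a => by
        rw [map_mul, map_mul, Equiv.Perm.mul_apply, j, i, mul_smul, add_assoc]⟩
  choose z hz using a
  refine ⟨z, fun u u' x => ?_, fun s x => ?_⟩
  · have := hz (u * u') x 0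
    rw [map_mul, Equiv.Perm.mul_apply, hz, hz, add_zero, add_zero] at this
    exact (congrArg Prod.snd this).symm
  · have := hz (.of s) x 0
    rw [FreeGroup.lift_apply_of] at this
    exact add_right_cancel (congrArg Prod.snd this).symm

end gen

open TW.Free

theorem uq {u u' : FreeGroup Bool} {γ : SL(2, ℤ)}
    (h : FreeGroup.lift gn u = γ ∨ FreeGroup.lift gn u = -γ)
    (h' : FreeGroup.lift gn u' = γ ∨ FreeGroup.lift gn u' = -γ) : u = u' := by
  refine inj (uniq (range_eq ▸ ⟨u, rfl⟩) (range_eq ▸ ⟨u', rfl⟩) ?_)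
  rcases h with a | a <;> rcases h' with b | b <;> simp [a, b]

theorem single_sum {n : ℕ} (i : Fin n) :
    ∑ j, ((Pi.single i 1 : Fin n → ℤ) j).natAbs = 1 := by
  rw [Finset.sum_eq_single i (fun j _ h => by simp [h]) (by simp)]
  simp

theorem word {X : Type} [MulAction SL(2, ℤ) X] {n : ℕ} {z : FreeGroup Bool → X → Fin n → ℤ}
    (h : Co gn z) (h1 : ∀ s x, ∑ i, (z (.of s) x i).natAbs ≤ 1) (l : List SL(2, ℤ))
    (hl : ∀ s ∈ l, s = V4 ∨ s = V4⁻¹ ∨ s = ModularGroup.T ∨ s = ModularGroup.T⁻¹) :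
    ∃ u, FreeGroup.lift gn u = l.prod ∧ ∀ x, ∑ i, (z u x i).natAbs ≤ l.length := by
  induction l with
  | nil => exact ⟨1, map_one _, fun x => by simp [h.one]⟩
  | cons s l ih =>
    obtain ⟨u, a, b⟩ := ih fun t ht => hl t (List.mem_cons_of_mem _ ht)
    have h2 : ∀ s x, ∑ i, (z (FreeGroup.of s)⁻¹ x i).natAbs ≤ 1 := fun s x => by
      rw [h.inv]
      simpa using h1 s _
    obtain ⟨w, c, d⟩ : ∃ w, FreeGroup.lift gn w = s ∧ ∀ x, ∑ i, (z w x i).natAbs ≤ 1 := by
      rcases hl s List.mem_cons_self with rfl | rfl | rfl | rfl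
      · exact ⟨.of false, FreeGroup.lift_apply_of, h1 _⟩
      · exact ⟨(FreeGroup.of false)⁻¹, by rw [map_inv, FreeGroup.lift_apply_of]; rfl, h2 _⟩
      · exact ⟨.of true, FreeGroup.lift_apply_of, h1 _⟩
      · exact ⟨(FreeGroup.of true)⁻¹, by rw [map_inv, FreeGroup.lift_apply_of]; rfl, h2 _⟩
    refine ⟨w * u, by rw [map_mul, a, c, List.prod_cons], fun x => ?_⟩
    rw [h, List.length_cons, add_comm l.length]
    refine le_trans (Finset.sum_le_sum fun i _ => Int.natAbs_add_le _ _) ?_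
    rw [Finset.sum_add_distrib]
    exact add_le_add (d _) (b x)

end Coc

open Coc TW.Free in
/-- row COC -/
theorem coc (hW : WORD) : COC := by
  intro Γ _ h4 h1
  classical
  letI : Fintype (SL(2, ℤ) ⧸ Γ) := Fintype.ofFinite _
  let e := Fintype.equivFin ((SL(2, ℤ) ⧸ Γ) × Bool)
  obtain ⟨z, hz, zs⟩ := ex (X := SL(2, ℤ) ⧸ Γ) gn
    fun x s => (Pi.single (e (x, s)) 1 : Fin _ → ℤ)
  have wd : ∀ γ : SL(2, ℤ), ∃ u, γ ∈ Γ →
      (FreeGroup.lift gn u = γ ∨ FreeGroup.lift gn u = -γ) ∧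
        ∀ x, ∑ i, (z u x i).natAbs ≤ 2 * Ht γ := fun γ => by
    by_cases hγ : γ ∈ Γ
    · obtain ⟨l, a, b, c⟩ := hW γ (h4 γ hγ)
      obtain ⟨u, d, f⟩ := word hz (fun s x => by rw [zs, single_sum]) l a
      exact ⟨u, fun _ => ⟨d ▸ c, fun x => (f x).trans b⟩⟩
    · exact ⟨1, fun c => absurd c hγ⟩
  choose w hw using wd
  have mem : ∀ γ ∈ Γ, FreeGroup.lift gn (w γ) ∈ Γ := fun γ hγ => by
    rcases (hw γ hγ).1 with a | a <;> rw [a]
    · exact hγ
    · rw [← neg_one_mul]
      exact Γ.mul_mem h1 hγ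
  have fix : ∀ γ ∈ Γ, γ • ((1 : SL(2, ℤ)) : SL(2, ℤ) ⧸ Γ) = ((1 : SL(2, ℤ)) : SL(2, ℤ) ⧸ Γ) :=
    fun γ hγ => by
      rw [MulAction.Quotient.smul_mk, smul_eq_mul, mul_one, QuotientGroup.eq, mul_one]
      exact Γ.inv_mem hγ
  refine ⟨_, fun γ => z (w γ) ((1 : SL(2, ℤ)) : SL(2, ℤ) ⧸ Γ), ?_, fun γ hγ γ' hγ' => ?_,
    fun γ hγ => (hw γ hγ).2 _, fun φ hφ => ?_⟩
  · rw [Fintype.card_prod, Fintype.card_bool, mul_comm, Subgroup.index, Nat.card_eq_fintype_card]
  · have : w (γ * γ') = w γ * w γ' := uq (hw _ (Γ.mul_mem hγ hγ')).1 (by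
      rw [map_mul]
      rcases (hw γ hγ).1 with a | a <;> rcases (hw γ' hγ').1 with b | b <;> simp [a, b])
    simp only
    rw [this, hz, fix _ (mem γ' hγ')]
  · have m : ∀ (g : SL(2, ℤ)) (x : SL(2, ℤ) ⧸ Γ), (g • x).out⁻¹ * g * x.out ∈ Γ := fun g x => by
      rw [mul_assoc, ← QuotientGroup.eq, QuotientGroup.out_eq', ← smul_eq_mul,
        ← MulAction.Quotient.smul_mk, QuotientGroup.out_eq']
    have c1 : Co gn fun u (x : SL(2, ℤ) ⧸ Γ) =>
        φ ((FreeGroup.lift gn u • x).out⁻¹ * FreeGroup.lift gn u * x.out) := fun u u' x => by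
      simp only
      rw [← hφ _ (m _ _) _ (m _ _), map_mul, mul_smul]
      congr 1
      group
    let v : Fin _ → ℂ := fun i =>
      φ ((gn (e.symm i).2 • (e.symm i).1).out⁻¹ * gn (e.symm i).2 * (e.symm i).1.out)
    have c2 : Co gn fun u (x : SL(2, ℤ) ⧸ Γ) => ∑ i, (z u x i : ℂ) * v i := fun u u' x => by
      simp only
      rw [hz, ← Finset.sum_add_distrib]
      exact Finset.sum_congr rfl fun i _ => by rw [Pi.add_apply, Int.cast_add, add_mul]
    refine ⟨v, fun γ hγ => ?_⟩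
    have key := c1.ext c2 (fun s x => by
      rw [zs, Finset.sum_eq_single (e (x, s)) (fun j _ h => by simp [h]) (by simp),
        FreeGroup.lift_apply_of]
      simp [v]) (w γ) ((1 : SL(2, ℤ)) : SL(2, ℤ) ⧸ Γ)
    rw [← key, fix _ (mem γ hγ)]
    have r : ((1 : SL(2, ℤ)) : SL(2, ℤ) ⧸ Γ).out ∈ Γ := by
      have := QuotientGroup.eq.1 (QuotientGroup.out_eq' ((1 : SL(2, ℤ)) : SL(2, ℤ) ⧸ Γ)).symm
      rwa [inv_one, one_mul] at this
    have p1 : φ 1 = 0 := by
      have := hφ 1 Γ.one_mem 1 Γ.one_mem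
      rw [mul_one] at this
      exact left_eq_add.1 this
    have p2 : φ (-1) = 0 := by
      have := hφ _ h1 _ h1
      rw [neg_mul_neg, mul_one, p1] at this
      linear_combination -this / 2
    have p3 := hφ _ (Γ.inv_mem r) _ r
    rw [inv_mul_cancel, p1] at p3
    have p4 : φ (FreeGroup.lift gn (w γ)) = φ γ := by
      rcases (hw γ hγ).1 with a | a <;> rw [a]
      rw [← neg_one_mul, hφ _ h1 _ hγ, p2, zero_add]
    rw [hφ _ (Γ.mul_mem (Γ.inv_mem r) (mem γ hγ)) _ r, hφ _ (Γ.inv_mem r) _ (mem γ hγ), p4]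
    linear_combination p3

end Vale.Agent.P027M.B3
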