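import Vale.Agent.P027M.B3.Defs
import Vale.Agent.P027M.B.Hol
import Vale.Agent.P027M.B.Gain

/-! # P027, route M, block B3 : row COEF -/

set_option linter.all false

open Complex Metric
open scoped PowerSeries

noncomputable section

namespace Vale.Agent.P027M.B3

namespace CoefP

open Vale.Agent.P027M.B

theorem cauchy {f : ℂ⟦X⟧} (hf : Conv 1 f) {ρ C : ℝ} (h0 : 0 < ρ) (h1 : ρ < 1)
    (hC : ∀ q : ℂ, ‖q‖ = ρ → ‖ev f q‖ ≤ C) (n : ℕ) : ‖PowerSeries.coeff n f‖ ≤ C / ρ ^ n := by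
  have hd := Hol.differentiableOn hf
  obtain ⟨g1, g2⟩ := Hol.of_hasSum (r := 1) (φ := ev f)
    (f := PowerSeries.mk fun n => (n.factorial : ℂ)⁻¹ * iteratedDeriv n (ev f) 0) fun q hq => by
      refine HasSum.congr_fun
        (Complex.hasSum_taylorSeries_on_ball hd (mem_ball_zero_iff.2 hq)) fun n => ?_
      simp only [PowerSeries.coeff_mk, sub_zero, smul_eq_mul]
      ring
  have e := congrArg (PowerSeries.coeff n) (Hol.ext one_pos hf g1 fun q hq => (g2 q hq).symm)
  rw [PowerSeries.coeff_mk] at e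
  have h2 := Complex.norm_iteratedDeriv_le_of_forall_mem_sphere_norm_le (c := 0) (C := C) n h0
    (DifferentiableOn.diffContOnCl (f := ev f) (hd.mono (by
      rw [closure_ball (0 : ℂ) h0.ne']
      exact closedBall_subset_ball h1))) fun z hz => hC z (by simpa using hz)
  have h3 : (0 : ℝ) < n.factorial := by exact_mod_cast n.factorial_pos
  rw [e, norm_mul, norm_inv, Complex.norm_natCast, inv_mul_le_iff₀ h3, ← mul_div_assoc]
  exact h2

theorem ex_t {y : ℝ} {q : ℂ} (hq : ‖q‖ = Real.exp (-(2 * Real.pi * y))) :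
    ∃ t : ℝ, |t| ≤ 1 / 2 ∧ qq (t + y * I) = q := by
  have hp := Real.pi_pos
  refine ⟨q.arg / (2 * Real.pi), ?_, ?_⟩
  · rw [abs_div, abs_of_pos (by positivity : 0 < 2 * Real.pi), div_le_iff₀ (by positivity)]
    linarith [Complex.abs_arg_le_pi q]
  · have hp' : (Real.pi : ℂ) ≠ 0 := by exact_mod_cast hp.ne'
    have e : 2 * Real.pi * I * (((q.arg / (2 * Real.pi) : ℝ) : ℂ) + y * I) =
        ((-(2 * Real.pi * y) : ℝ) : ℂ) + q.arg * I := by
      push_cast
      field_simp
      linear_combination (2 * Real.pi * y : ℂ) * I_sq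
    rw [qq, e, Complex.exp_add, ← Complex.ofReal_exp, ← hq, Complex.norm_mul_exp_arg_mul_I]

end CoefP

open CoefP Vale.Agent.P027M.B in
theorem coef : COEF := by
  intro G x k y C hG hy hC n hn
  have hp := Real.pi_pos
  have h1 : Real.exp (-(2 * Real.pi * y)) < 1 := Real.exp_lt_one_iff.2 (by nlinarith)
  obtain ⟨a1, a2⟩ := Hol.add hG.1 (Hol.const 1 (-k)).1
  have h2 := cauchy a1 (Real.exp_pos _) h1 (C := C) (fun q hq => by
    obtain ⟨t, ht, rfl⟩ := ex_t hq
    rw [a2 _ (hq ▸ h1), (Hol.const 1 (-k)).2, ← sub_eq_add_neg]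
    have h3 := hC t ht
    rwa [hG.2 _ (by simpa using hy)] at h3) n
  rw [map_add, PowerSeries.coeff_mk, PowerSeries.coeff_C, if_neg (by omega), add_zero,
    ← Real.exp_nat_mul, div_eq_mul_inv, ← Real.exp_neg] at h2
  convert h2 using 3
  ring

end Vale.Agent.P027M.B3
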