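import Vale.Agent.P027M.B3.Bas

/-! # P027, route M, block B3 : uniqueness of the decomposition -/

open scoped MatrixGroups ComplexConjugate
open Complex Filter Topology

noncomputable section

namespace Vale.Agent.P027M.B3

namespace Esu

theorem const_of_seg {H : ℂ → ℂ} (hH : DifferentiableOn ℂ H {z | 0 < z.im})
    (h : ∀ x : ℝ, |x| ≤ 1 / 2 → H (x + I) = H I) (z : ℂ) (hz : 0 < z.im) : H z = H I := by
  have o : IsOpen {z : ℂ | 0 < z.im} := isOpen_lt continuous_const continuous_im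
  have t : Tendsto (fun x : ℝ => (x : ℂ) + I) (𝓝[≠] 0) (𝓝[≠] I) := by
    refine tendsto_nhdsWithin_iff.2 ⟨?_, ?_⟩
    · have c : Continuous fun x : ℝ => (x : ℂ) + I := by fun_prop
      simpa using (c.tendsto 0).mono_left nhdsWithin_le_nhds
    · filter_upwards [self_mem_nhdsWithin] with x hx
      simpa using hx
  have e : ∀ᶠ x : ℝ in 𝓝[≠] 0, H (x + I) = H I := by
    have : ∀ᶠ x : ℝ in 𝓝 0, |x| ≤ 1 / 2 :=
      (continuous_abs.tendsto' 0 0 abs_zero).eventually (ge_mem_nhds (by norm_num))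
    exact (this.filter_mono nhdsWithin_le_nhds).mono h
  exact (hH.analyticOnNhd o).eqOn_of_preconnected_of_frequently_eq (g := fun _ => H I)
    analyticOnNhd_const (convex_halfSpace_im_gt 0).isPreconnected (z₀ := I) (by simp)
    (t.frequently e.frequently) hz

theorem cp_of {Γ : Subgroup SL(2, ℤ)} [Γ.FiniteIndex] {F : ℂ → ℂ} (hF : MP Γ F)
    (h : ∀ (σ : SL(2, ℤ)) (j : ℤ), σ * ModularGroup.T ^ j * σ⁻¹ ∈ Γ →
      pd F (σ * ModularGroup.T ^ j * σ⁻¹) = 0) : CP Γ F := by
  refine ⟨hF.hol, hF.per, fun σ => ?_⟩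
  obtain ⟨c, C, A, x⟩ := hF.gro σ
  obtain ⟨j, j0, -, hj⟩ := exists_width (Γ := Γ) σ
  have i0 : ∀ n : ℕ, (((max A 1 : ℝ) : ℂ) * I + n * ((j : ℤ) : ℂ)).im = max A 1 := fun n => by simp
  have i1 : (0 : ℝ) < max A 1 := lt_max_of_lt_right one_pos
  have e := per_zero (u := fun z => F (mob σ z) - c * z) (z := ((max A 1 : ℝ) : ℂ) * I)
    (h := ((j : ℤ) : ℂ)) (C := C) (a := -(c * ((j : ℤ) : ℂ)))
    (fun n => by rw [hF.shift hj (by rwa [i0]), h σ _ hj]; ring)
    fun n => x _ (by rwa [i0]) (by rw [i0]; simp)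
  have c0 : c = 0 := (mul_eq_zero.1 (neg_eq_zero.1 e)).resolve_right (by exact_mod_cast j0.ne')
  exact ⟨C, A, by simpa only [c0, zero_mul, sub_zero] using x⟩

end Esu

open Esu

theorem esu (har : HAR) : ESU := by
  intro Γ _ F G hF hG h
  have cF : CP Γ F := cp_of hF fun σ j hj => by simpa [hG.par hj] using h _ hj
  have key : ∀ H : ℂ → ℂ, CP Γ H → (∀ γ ∈ Γ, (pd H γ).re = 0) →
      ∀ z : ℂ, 0 < z.im → H z = H I := fun H hH h0 =>
    const_of_seg hH.hol fun x hx => by
      have := har Γ H 0 hH (fun γ hγ _ => by rw [h0 γ hγ, abs_zero]) x hx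
      rw [mul_zero] at this
      exact sub_eq_zero.1 (norm_le_zero_iff.1 this)
  have k1 := key _ (cF.lin hG 1) fun γ hγ => by
    have := congrArg re (h γ hγ)
    rw [pd_lin]
    simpa using this
  have k2 := key _ ((cF.smul I).lin hG (-I)) fun γ hγ => by
    have := congrArg im (h γ hγ)
    rw [pd_lin, pd_congr (F := fun z => I * F z) (G := F) (a := I) (k := 0) fun _ _ => by simp]
    simp only [add_im, conj_im, zero_im] at this
    simp
    linarith
  refine ⟨fun z hz => ?_, fun z hz => ?_⟩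
  · have a := k1 z hz
    have b := k2 z hz
    linear_combination (1 / 2 : ℂ) * a - (I / 2) * b +
      (1 / 2 : ℂ) * (F z - G z - F I + G I) * I_mul_I
  · have a := k1 z hz
    have b := k2 z hz
    linear_combination (1 / 2 : ℂ) * a + (I / 2) * b -
      (1 / 2 : ℂ) * (F z - G z - F I + G I) * I_mul_I

end Vale.Agent.P027M.B3
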