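import Vale.Agent.P027M.B3.Bas

/-! # P027, route M, row B3.GROW : growth of the coefficients -/

set_option linter.all false

open scoped MatrixGroups ComplexConjugate
open Complex Filter Topology

noncomputable section

namespace Vale.Agent.P027M.B3

namespace Grow

theorem opn : IsOpen {z : ℂ | 0 < z.im} := isOpen_lt continuous_const continuous_im

theorem psi_comp {G : ℂ → ℂ} (hG : DifferentiableOn ℂ G {z | 0 < z.im}) (g : SL(2, ℤ)) {z : ℂ}
    (hz : 0 < z.im) :
    ‖deriv G (mob g z)‖ * (mob g z).im = ‖deriv (fun w => G (mob g w)) z‖ * z.im := by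
  have h1 := (hG.differentiableAt (opn.mem_nhds (mob_sl_im g hz))).hasDerivAt.comp z
    (mob_deriv (sl_pos g) hz)
  have h2 : deriv (fun w => G (mob g w)) z = _ := h1.deriv
  rw [h2, mob_im_eq, g.det_coe, norm_mul, norm_div, norm_pow, normSq_eq_norm_sq]
  simp only [Int.cast_one, norm_one]
  ring

theorem cauchy {H : ℂ → ℂ} (hH : DifferentiableOn ℂ H {z | 0 < z.im}) {C A : ℝ}
    (h : ∀ z : ℂ, 0 < z.im → A ≤ z.im → ‖H z‖ ≤ C) {z : ℂ} (hz : 0 < z.im) (hA : 2 * A ≤ z.im) :
    ‖deriv H z‖ * z.im ≤ 2 * C := by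
  have h1 : ∀ w ∈ Metric.closedBall z (z.im / 2), z.im / 2 ≤ w.im := fun w hw => by
    have a := (abs_im_le_norm (w - z)).trans (mem_closedBall_iff_norm.1 hw)
    rw [sub_im] at a
    linarith [(abs_le.1 a).1]
  have h2 := norm_deriv_le_of_forall_mem_sphere_norm_le (c := z) (half_pos hz)
    (hH.diffContOnCl_ball fun w hw => (half_pos hz).trans_le (h1 w hw)) fun w hw =>
      h w ((half_pos hz).trans_le (h1 w (Metric.sphere_subset_closedBall hw)))
        (by linarith [h1 w (Metric.sphere_subset_closedBall hw)])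
  rw [le_div_iff₀ (half_pos hz)] at h2
  linarith

/-- the derivative is `O (1 / y)` -/
theorem deriv_le {Γ : Subgroup SL(2, ℤ)} [Γ.FiniteIndex] {G : ℂ → ℂ} (hG : CP Γ G) :
    ∃ C : ℝ, ∀ z : ℂ, 0 < z.im → ‖deriv G z‖ * z.im ≤ C := by
  have hc : Continuous fun τ : UpperHalfPlane => ‖deriv G τ‖ * (τ : ℂ).im :=
    ((hG.hol.deriv opn).continuousOn.comp_continuous UpperHalfPlane.continuous_coe
      fun τ => τ.2).norm.mul (continuous_im.comp UpperHalfPlane.continuous_coe)
  obtain ⟨C, hC⟩ := ModularGroup.exists_bound_of_subgroup_invariant_of_isBigO hc (t := 0) le_rfl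
    (fun g => by
      obtain ⟨C, A, h⟩ := hG.bdd g
      refine Asymptotics.IsBigO.of_bound (2 * C) ?_
      rw [UpperHalfPlane.atImInfty, eventually_comap]
      filter_upwards [eventually_ge_atTop (2 * A)] with y hy τ hτ
      rw [← mob_smul, psi_comp hG.hol g τ.2, Real.rpow_zero, norm_one, mul_one,
        Real.norm_of_nonneg (mul_nonneg (norm_nonneg _) τ.2.le)]
      exact cauchy (hol_comp hG.hol (sl_pos g)) h τ.2 (le_trans hy hτ.ge))
    (Γ := Γ) (fun g hg τ => by
      rw [← mob_smul, psi_comp hG.hol g τ.2]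
      have : (fun w => G (mob g w)) =ᶠ[𝓝 (τ : ℂ)] fun w => G w + pd G g :=
        eventually_of_mem (opn.mem_nhds τ.2) fun w hw => hG.per g hg w hw
      rw [this.deriv_eq, deriv_add_const])
  refine ⟨C, fun z hz => ?_⟩
  have := hC ⟨z, hz⟩
  rw [Real.rpow_zero, mul_one] at this
  exact (le_abs_self _).trans this

end Grow

theorem grow (hC : COEF) : GROW := by
  intro Γ _ G x hG hx
  obtain ⟨C, h⟩ := Grow.deriv_le hG
  have C0 : 0 ≤ C := (mul_nonneg (norm_nonneg _) (by simp)).trans (h I (by simp))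
  refine ⟨2 * C * Real.exp (2 * Real.pi), fun n hn => ?_⟩
  have n1 : (1 : ℝ) ≤ n := by exact_mod_cast hn
  have n0 : (0 : ℝ) < n := one_pos.trans_le n1
  have y0 : (0 : ℝ) < (n : ℝ)⁻¹ := inv_pos.2 n0
  have y1 : (n : ℝ)⁻¹ ≤ 1 := inv_le_one_of_one_le₀ n1
  have key := hC G x (G I) (n : ℝ)⁻¹ (C * n * 2) hx y0 (fun t ht => by
    have a := (convex_halfSpace_im_ge (n : ℝ)⁻¹).norm_image_sub_le_of_norm_deriv_le (𝕜 := ℂ)
      (f := G) (C := C * n) (x := I) (y := t + ((n : ℝ)⁻¹ : ℝ) * I)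
      (fun z hz => hG.hol.differentiableAt (Grow.opn.mem_nhds (y0.trans_le hz)))
      (fun z hz => by
        have b := (mul_le_mul_of_nonneg_left hz (norm_nonneg (deriv G z))).trans
          (h z (y0.trans_le hz))
        rwa [mul_inv_le_iff₀ n0] at b) (show _ ≤ I.im by simpa using y1)
      (show _ ≤ im _ by simp [-ofReal_inv])
    refine a.trans (mul_le_mul_of_nonneg_left ?_ (by positivity))
    refine (norm_le_abs_re_add_abs_im _).trans ?_
    have b : |(n : ℝ)⁻¹ - 1| ≤ 1 := abs_le.2 ⟨by linarith, by linarith⟩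
    simp only [sub_re, add_re, ofReal_re, mul_re, I_re, mul_zero, ofReal_im, I_im, mul_one,
      sub_self, add_zero, sub_zero, sub_im, add_im, mul_im, zero_add]
    linarith) n hn
  rw [mul_assoc (2 * Real.pi), mul_inv_cancel₀ n0.ne', mul_one] at key
  linarith

end Vale.Agent.P027M.B3
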