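import Vale.Agent.P027M.B3.Defs

/-! # P027, route M, block B3 : small lemmas -/

set_option linter.all false

open scoped MatrixGroups ComplexConjugate
open Complex

noncomputable section

namespace Vale.Agent.P027M.B3

theorem mul_ent (A B : M2) (i j : Fin 2) : (A * B) i j = A i 0 * B 0 j + A i 1 * B 1 j := by
  simp [Matrix.mul_apply, Fin.sum_univ_two]

theorem sl_det (g : SL(2, ℤ)) : g 0 0 * g 1 1 - g 0 1 * g 1 0 = 1 := by
  have := g.det_coe
  rwa [Matrix.det_fin_two] at this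

theorem sl_pos (g : SL(2, ℤ)) : 0 < (g : M2).det := by
  rw [g.det_coe]
  exact one_pos

theorem den_ne {A : M2} (hA : 0 < A.det) {z : ℂ} (hz : 0 < z.im) :
    (A 1 0 : ℂ) * z + A 1 1 ≠ 0 := by
  intro h
  have h1 := congrArg im h
  have h2 := congrArg re h
  simp only [add_im, mul_im, intCast_re, intCast_im, zero_mul, add_zero, zero_im, add_re, mul_re,
    sub_zero, zero_re] at h1 h2
  have c0 : A 1 0 = 0 := by exact_mod_cast (mul_eq_zero.1 h1).resolve_right hz.ne'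
  have d0 : A 1 1 = 0 := by simpa [c0] using h2
  rw [Matrix.det_fin_two, c0, d0] at hA
  simp at hA

theorem mob_im_eq (A : M2) (z : ℂ) :
    (mob A z).im = A.det * z.im / normSq ((A 1 0 : ℂ) * z + A 1 1) := by
  rw [mob, div_im, Matrix.det_fin_two, ← sub_div]
  congr 1
  simp only [add_im, mul_im, intCast_re, intCast_im, add_re, mul_re]
  push_cast
  ring

theorem mob_im {A : M2} (hA : 0 < A.det) {z : ℂ} (hz : 0 < z.im) : 0 < (mob A z).im := by
  rw [mob_im_eq]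
  exact div_pos (mul_pos (by exact_mod_cast hA) hz) (normSq_pos.2 (den_ne hA hz))

theorem mob_sl_im (g : SL(2, ℤ)) {z : ℂ} (hz : 0 < z.im) : 0 < (mob g z).im :=
  mob_im (sl_pos g) hz

theorem mob_mul (A : M2) {B : M2} (hB : 0 < B.det) {z : ℂ} (hz : 0 < z.im) :
    mob (A * B) z = mob A (mob B z) := by
  have h := den_ne hB hz
  have e : ∀ a b : ℂ, a * mob B z + b =
      (a * (B 0 0 * z + B 0 1) + b * (B 1 0 * z + B 1 1)) / (B 1 0 * z + B 1 1) := fun a b => by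
    rw [mob, add_div (a * _), mul_div_assoc a, mul_div_assoc b, div_self h, mul_one]
  rw [mob, mob, e, e, div_div_div_cancel_right₀ h]
  simp only [mul_ent]
  push_cast
  congr 1 <;> ring

theorem mob_sl_mul (g g' : SL(2, ℤ)) {z : ℂ} (hz : 0 < z.im) :
    mob (g * g' : SL(2, ℤ)) z = mob g (mob g' z) := mob_mul (g : M2) (sl_pos g') hz

theorem mob_one (z : ℂ) : mob (1 : SL(2, ℤ)) z = z := by simp [mob]

theorem mob_neg (g : SL(2, ℤ)) (z : ℂ) : mob (-g : SL(2, ℤ)) z = mob g z := by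
  have e : ∀ i j, (-g : SL(2, ℤ)) i j = -g i j := fun i j => by simp
  simp only [mob, e]
  push_cast
  rw [← neg_div_neg_eq]
  congr 1 <;> ring

theorem mob_T_zpow (j : ℤ) (z : ℂ) : mob (ModularGroup.T ^ j : SL(2, ℤ)) z = z + j := by
  simp [mob, ModularGroup.coe_T_zpow]

theorem mob_T (z : ℂ) : mob (ModularGroup.T : SL(2, ℤ)) z = z + 1 := by
  simpa using mob_T_zpow 1 z

theorem mob_smul (g : SL(2, ℤ)) (τ : UpperHalfPlane) :
    mob g τ = ((g • τ : UpperHalfPlane) : ℂ) := by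
  rw [UpperHalfPlane.specialLinearGroup_apply]
  simp [mob]

theorem mob_deriv {A : M2} (hA : 0 < A.det) {z : ℂ} (hz : 0 < z.im) :
    HasDerivAt (mob A) (A.det / ((A 1 0 : ℂ) * z + A 1 1) ^ 2) z := by
  have h := (((hasDerivAt_id z).const_mul (A 0 0 : ℂ)).add_const (A 0 1 : ℂ)).div
    (((hasDerivAt_id z).const_mul (A 1 0 : ℂ)).add_const (A 1 1 : ℂ)) (den_ne hA hz)
  refine h.congr_deriv ?_
  rw [Matrix.det_fin_two]
  push_cast
  simp only [id]
  congr 1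
  ring

theorem hol_comp {F : ℂ → ℂ} (hF : DifferentiableOn ℂ F {z | 0 < z.im}) {A : M2}
    (hA : 0 < A.det) : DifferentiableOn ℂ (fun z => F (mob A z)) {z | 0 < z.im} :=
  hF.comp (fun _ hz => (mob_deriv hA hz).differentiableAt.differentiableWithinAt)
    fun _ hz => mob_im hA hz

theorem Ht_mul (A B : M2) : Ht (A * B) ≤ Ht A * Ht B := by
  have e : ∀ i j, ((A * B) i j).natAbs ≤
      (A i 0).natAbs * (B 0 j).natAbs + (A i 1).natAbs * (B 1 j).natAbs := fun i j => by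
    rw [mul_ent, ← Int.natAbs_mul, ← Int.natAbs_mul]
    exact Int.natAbs_add_le _ _
  unfold Ht
  nlinarith [e 0 0, e 0 1, e 1 0, e 1 1, Nat.zero_le ((A 0 0).natAbs * (B 1 0).natAbs),
    Nat.zero_le ((A 0 0).natAbs * (B 1 1).natAbs), Nat.zero_le ((A 0 1).natAbs * (B 0 0).natAbs),
    Nat.zero_le ((A 0 1).natAbs * (B 0 1).natAbs), Nat.zero_le ((A 1 0).natAbs * (B 1 0).natAbs),
    Nat.zero_le ((A 1 0).natAbs * (B 1 1).natAbs), Nat.zero_le ((A 1 1).natAbs * (B 0 0).natAbs),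
    Nat.zero_le ((A 1 1).natAbs * (B 0 1).natAbs)]

theorem Ht_sl_mul (g g' : SL(2, ℤ)) : Ht (g * g' : SL(2, ℤ)) ≤ Ht g * Ht g' := Ht_mul (g : M2) g'

theorem Ht_adj (A : M2) : Ht A.adjugate = Ht A := by
  simp [Ht, Matrix.adjugate_fin_two]
  omega

theorem Ht_inv (g : SL(2, ℤ)) : Ht (g⁻¹ : SL(2, ℤ)) = Ht g := Ht_adj (g : M2)

theorem Ht_T_zpow (j : ℤ) : Ht (ModularGroup.T ^ j : SL(2, ℤ)) = 2 + j.natAbs := by
  simp [Ht, ModularGroup.coe_T_zpow]
  omega

/-- the height of the matrices of a correspondence -/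
theorem Ht_cor {A B : M2} {γ g : SL(2, ℤ)} (hB : 0 < B.det) (h : A * (γ : M2) = (g : M2) * B) :
    Ht g ≤ Ht A * Ht γ * Ht B := by
  have e : A * (γ : M2) * B.adjugate = B.det • (g : M2) := by
    rw [h, mul_assoc, Matrix.mul_adjugate, Matrix.mul_smul, mul_one]
  have a : Ht g ≤ Ht (B.det • (g : M2)) := by
    have : 1 ≤ B.det.natAbs := by omega
    simp only [Ht, Matrix.smul_apply, smul_eq_mul, Int.natAbs_mul]
    gcongr <;> exact Nat.le_mul_of_pos_left _ this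
  rw [← e] at a
  exact a.trans ((Ht_mul _ _).trans (Nat.mul_le_mul (Ht_mul _ _) (Ht_adj B).le))

variable {Γ : Subgroup SL(2, ℤ)} {F G : ℂ → ℂ}

theorem CP.mp (h : CP Γ F) : MP Γ F :=
  ⟨h.hol, h.per, fun σ => let ⟨C, A, a⟩ := h.bdd σ; ⟨0, C, A, by simpa using a⟩⟩

theorem MP.ad (h : MP Γ F) : Ad Γ (pd F) := fun γ hγ γ' _ => by
  have := h.per γ hγ _ (mob_sl_im γ' (by simp : 0 < I.im))
  rw [pd, mob_sl_mul γ γ' (by simp), this, pd, pd]
  ring

theorem pd_lin (a : ℂ) (γ : SL(2, ℤ)) :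
    pd (fun z => F z + a * G z) γ = pd F γ + a * pd G γ := by
  simp only [pd]
  ring

theorem pd_const (k : ℂ) (γ : SL(2, ℤ)) : pd (fun _ => k) γ = 0 := sub_self _

theorem pd_congr {a k : ℂ} (h : ∀ z : ℂ, 0 < z.im → F z = a * G z + k) (γ : SL(2, ℤ)) :
    pd F γ = a * pd G γ := by
  rw [pd, pd, h _ (mob_sl_im γ (by simp)), h _ (by simp)]
  ring

theorem MP.lin (h : MP Γ F) (h' : MP Γ G) (a : ℂ) : MP Γ fun z => F z + a * G z := by
  refine ⟨h.hol.add (h'.hol.const_mul a), fun γ hγ z hz => ?_, fun σ => ?_⟩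
  · rw [pd_lin, h.per γ hγ z hz, h'.per γ hγ z hz]
    ring
  · obtain ⟨c, C, A, x⟩ := h.gro σ
    obtain ⟨c', C', A', y⟩ := h'.gro σ
    refine ⟨c + a * c', C + ‖a‖ * C', max A A', fun z hz hA => ?_⟩
    rw [show F (mob σ z) + a * G (mob σ z) - (c + a * c') * z =
      F (mob σ z) - c * z + a * (G (mob σ z) - c' * z) by ring]
    refine (norm_add_le _ _).trans (add_le_add (x z hz ((le_max_left _ _).trans hA)) ?_)
    rw [norm_mul]
    exact mul_le_mul_of_nonneg_left (y z hz ((le_max_right _ _).trans hA)) (norm_nonneg _)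

theorem CP.lin (h : CP Γ F) (h' : CP Γ G) (a : ℂ) : CP Γ fun z => F z + a * G z := by
  refine ⟨(h.mp.lin h'.mp a).hol, (h.mp.lin h'.mp a).per, fun σ => ?_⟩
  obtain ⟨C, A, x⟩ := h.bdd σ
  obtain ⟨C', A', y⟩ := h'.bdd σ
  refine ⟨C + ‖a‖ * C', max A A', fun z hz hA => ?_⟩
  refine (norm_add_le _ _).trans (add_le_add (x z hz ((le_max_left _ _).trans hA)) ?_)
  rw [norm_mul]
  exact mul_le_mul_of_nonneg_left (y z hz ((le_max_right _ _).trans hA)) (norm_nonneg _)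

theorem CP.const (k : ℂ) : CP Γ fun _ => k :=
  ⟨differentiableOn_const k, fun γ _ z _ => by simp [pd], fun _ => ⟨‖k‖, 0, fun _ _ _ => le_rfl⟩⟩

theorem CP.smul (h : CP Γ F) (a : ℂ) : CP Γ fun z => a * F z := by
  simpa using (CP.const (Γ := Γ) 0).lin h a

/-- the width of a cusp -/
theorem exists_width [Γ.FiniteIndex] (σ : SL(2, ℤ)) :
    ∃ h : ℕ, 0 < h ∧ h ≤ Γ.index ∧ σ * ModularGroup.T ^ (h : ℤ) * σ⁻¹ ∈ Γ := by
  obtain ⟨h, h0, h1, h2⟩ :=
    Γ.exists_pow_mem_of_index_ne_zero Subgroup.FiniteIndex.index_ne_zero (σ * ModularGroup.T * σ⁻¹)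
  exact ⟨h, h0, h1, by rwa [conj_pow, ← zpow_natCast] at h2⟩

theorem MP.shift (h : MP Γ F) {σ : SL(2, ℤ)} {j : ℤ} (hj : σ * ModularGroup.T ^ j * σ⁻¹ ∈ Γ)
    {z : ℂ} (hz : 0 < z.im) :
    F (mob σ (z + j)) = F (mob σ z) + pd F (σ * ModularGroup.T ^ j * σ⁻¹) := by
  rw [← h.per _ hj _ (mob_sl_im σ hz), ← mob_sl_mul _ _ hz, inv_mul_cancel_right,
    mob_sl_mul _ _ hz, mob_T_zpow]

/-- a function with a constant period which is bounded on a horizontal line has period zero -/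
theorem per_zero {u : ℂ → ℂ} {z h a : ℂ} {C : ℝ} (hp : ∀ n : ℕ, u (z + n * h + h) = u (z + n * h) + a)
    (hb : ∀ n : ℕ, ‖u (z + n * h)‖ ≤ C) : a = 0 := by
  have e : ∀ n : ℕ, u (z + n * h) = u z + n * a := fun n => by
    induction n with
    | zero => simp
    | succ n ih =>
      rw [Nat.cast_succ, add_mul, one_mul, ← add_assoc, hp, ih]
      ring
  by_contra h0
  obtain ⟨n, hn⟩ := exists_nat_gt ((C + ‖u z‖) / ‖a‖)
  rw [div_lt_iff₀ (norm_pos_iff.2 h0)] at hn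
  have := norm_sub_le (u (z + n * h)) (u z)
  rw [e n, add_sub_cancel_left, norm_mul, Complex.norm_natCast, ← e n] at this
  linarith [hb n]

/-- the parabolic periods of a cusp form vanish -/
theorem CP.par (h : CP Γ F) {σ : SL(2, ℤ)} {j : ℤ} (hj : σ * ModularGroup.T ^ j * σ⁻¹ ∈ Γ) :
    pd F (σ * ModularGroup.T ^ j * σ⁻¹) = 0 := by
  obtain ⟨C, A, x⟩ := h.bdd σ
  have i0 : ∀ n : ℕ, (((max A 1 : ℝ) : ℂ) * I + n * j).im = max A 1 := fun n => by simp
  have i1 : (0 : ℝ) < max A 1 := lt_max_of_lt_right one_pos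
  exact per_zero (u := fun z => F (mob σ z)) (z := ((max A 1 : ℝ) : ℂ) * I) (h := j) (C := C)
    (fun n => h.mp.shift hj (by rwa [i0])) fun n => x _ (by rwa [i0]) (by rw [i0]; simp)

end Vale.Agent.P027M.B3
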