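import Vale.Agent.P027M.B3.Har1
import Vale.Agent.P027M.B3.Bas

/-! # P027 route M, block B3: the real periods bound the function -/

set_option linter.all false

open scoped MatrixGroups
open Complex ModularGroup

noncomputable section

namespace Vale.Agent.P027M.B3

theorem Har.Sm.ht {B : ℕ} {g : SL(2, ℤ)} (h : Har.Sm B g) : Ht g ≤ 4 * B := by
  have e : ∀ i j, (g i j).natAbs ≤ B := fun i j => by
    have := h i j
    rwa [← Int.natCast_natAbs, Nat.cast_le] at this
  have := e 0 0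
  have := e 0 1
  have := e 1 0
  have := e 1 1
  show (g 0 0).natAbs + (g 0 1).natAbs + (g 1 0).natAbs + (g 1 1).natAbs ≤ _
  omega

theorem mob_S (z : ℂ) : mob (S : SL(2, ℤ)) z = -1 / z := by simp [mob, S]

theorem Har.maxp : MAXP := fun G h C A m h0 hG hp hb hm z hz =>
  Har.cusp hG h0 hp ⟨C, max A 1, fun z a => (re_le_norm _).trans
    (hb z (lt_of_lt_of_le one_pos ((le_max_right _ _).trans a)) ((le_max_left _ _).trans a))⟩
    one_pos hm hz

open Har in
theorem har : HAR := by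
  intro Γ _ G U hG hU x hx
  classical
  let : Fintype (SL(2, ℤ) ⧸ Γ) := Fintype.ofFinite _
  obtain ⟨r, r1, r2, r3⟩ := reps Γ
  have jump : ∀ s, Sm 1 s → ∀ c, ∀ z ∈ Hp,
      |(G (mob (r c) (mob s z))).re - (G (mob (r (s⁻¹ • c)) z)).re| ≤ U := fun s hs c z hz => by
    have m : r c * s * (r (s⁻¹ • c))⁻¹ ∈ Γ := by
      have := QuotientGroup.eq.1 ((show (((r c * s)⁻¹ : SL(2, ℤ)) : SL(2, ℤ) ⧸ Γ) = s⁻¹ • c by
        conv_rhs => rw [← r1 c]
        rw [mul_inv_rev]; rfl).trans (r1 _).symm)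
      rwa [inv_inv] at this
    have a := hU _ m ((((r2 c).mul hs).mul (r2 _).inv).ht.trans (by
      have : 2 ^ Γ.index * 2 ^ Γ.index ≤ 27 ^ Γ.index := by
        rw [← mul_pow]; exact Nat.pow_le_pow_left (by norm_num) _
      nlinarith))
    have b := hG.per _ m _ (mob_sl_im (r (s⁻¹ • c)) hz)
    rw [← mob_sl_mul _ _ hz, inv_mul_cancel_right, mob_sl_mul _ _ hz] at b
    rwa [b, add_re, add_sub_cancel_left]
  have L : Lnk (fun c z => G (mob (r c) z)) (fun c => S⁻¹ • c) (fun c => T⁻¹ • c) Γ.index U := by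
    refine ⟨fun c => hol_comp hG.hol (sl_pos _), fun c z hz => ?_, fun c z hz => ?_,
      MulAction.surjective _, fun c => ?_, fun c => ?_, conn Γ⟩
    · simpa only [mob_S] using jump S sm_S c z hz
    · simpa only [mob_T] using jump T sm_T c z hz
    · obtain ⟨h, h0, h1, h2⟩ := exists_width (Γ := Γ) (r c)
      refine ⟨h, h0, h1, fun z hz => ?_⟩
      have := hG.mp.shift h2 hz
      rwa [hG.par h2, add_zero, Int.cast_natCast] at this
    · obtain ⟨C, A, h⟩ := hG.bdd (r c)
      exact ⟨C, max A 1, fun z a => (re_le_norm _).trans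
        (h z (lt_of_lt_of_le one_pos ((le_max_right _ _).trans a)) ((le_max_left _ _).trans a))⟩
  have k := L.osc (1 : SL(2, ℤ)) x hx
  rw [← Nat.card_eq_fintype_card, ← Subgroup.index_eq_card, r3] at k
  simp only [mob_one] at k
  have U0 : 0 ≤ U := (abs_nonneg _).trans (L.jS (1 : SL(2, ℤ)) I (by simp [Hp]))
  refine k.trans (mul_le_mul_of_nonneg_right ?_ U0)
  have d : (Γ.index : ℝ) + 1 ≤ 2 ^ Γ.index := by exact_mod_cast Nat.lt_two_pow_self
  have d1 : (1 : ℝ) ≤ Γ.index := by exact_mod_cast Nat.pos_of_ne_zero Subgroup.FiniteIndex.index_ne_zero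
  have e : (40 : ℝ) ^ Γ.index * 2 ^ Γ.index ≤ 100 ^ Γ.index := by
    rw [← mul_pow]; exact pow_le_pow_left₀ (by norm_num) (by norm_num) _
  have p : (0 : ℝ) ≤ 40 ^ Γ.index := by positivity
  have := mul_le_mul_of_nonneg_left (show 56 * ((Γ.index : ℝ) + 4) + 1 ≤ 200 * 2 ^ Γ.index by
    linarith) p
  linarith

end Vale.Agent.P027M.B3
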