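import Vale.Agent.P027M.B3.Defs

/-! # P027, route M, row B3.HCO : the operators on expansions -/

set_option linter.all false

open Complex

noncomputable section

namespace Vale.Agent.P027M.B3

namespace Hco

theorem norm_q (τ : ℂ) : ‖B.qq τ‖ = Real.exp (-(2 * Real.pi * τ.im)) := by
  rw [B.qq, norm_exp]
  simp

theorem hasSum {F : ℂ → ℂ} {x : ℕ → ℂ} (h : Ex F x) {z : ℂ} (hz : 0 < z.im) :
    HasSum (fun n => x n * B.qq z ^ n) (F z) := by
  have h1 := h.1 ‖B.qq z‖ (norm_nonneg _) (by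
    rw [norm_q, Real.exp_lt_one_iff]
    have := Real.pi_pos
    nlinarith [mul_pos this hz])
  rw [h.2 z hz, Ser, B.ev]
  simp only [PowerSeries.coeff_mk] at h1 ⊢
  exact (Summable.of_norm (by simpa using h1)).hasSum

theorem ex_of {F : ℂ → ℂ} {x : ℕ → ℂ}
    (h : ∀ z : ℂ, 0 < z.im → HasSum (fun n => x n * B.qq z ^ n) (F z)) : Ex F x := by
  refine ⟨fun ρ h0 h1 => ?_, fun z hz => ?_⟩
  · have h2 : 0 < max ρ (1 / 2) := lt_max_of_lt_right (by norm_num)
    have h3 : max ρ (1 / 2) < 1 := max_lt h1 (by norm_num)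
    have hp := Real.pi_pos
    have h4 : 0 < -Real.log (max ρ (1 / 2)) / (2 * Real.pi) :=
      div_pos (neg_pos.2 (Real.log_neg h2 h3)) (by positivity)
    have h5 : (((-Real.log (max ρ (1 / 2)) / (2 * Real.pi) : ℝ) : ℂ) * I).im =
        -Real.log (max ρ (1 / 2)) / (2 * Real.pi) := by
      rw [mul_I_im, ofReal_re]
    have h6 := (h _ (by rwa [h5])).summable.norm
    simp only [norm_mul, norm_pow, norm_q, h5] at h6
    rw [mul_div_cancel₀ _ (by positivity), neg_neg, Real.exp_log h2] at h6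
    refine h6.of_nonneg_of_le (fun n => by positivity) fun n => ?_
    rw [PowerSeries.coeff_mk]
    gcongr
    exact le_max_left _ _
  · rw [Ser, B.ev]
    simp only [PowerSeries.coeff_mk]
    exact (h z hz).tsum_eq.symm

theorem q_add (a b : ℂ) : B.qq (a + b) = B.qq a * B.qq b := by
  rw [B.qq, B.qq, B.qq, ← exp_add, mul_add]

theorem q_mul (n : ℕ) (a : ℂ) : B.qq (n * a) = B.qq a ^ n := by
  rw [B.qq, B.qq, ← exp_nat_mul]
  congr 1
  ring

theorem q_four : B.qq (1 / 4) = I := by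
  rw [B.qq, show 2 * Real.pi * I * (1 / 4) = Real.pi / 2 * I by ring, exp_pi_div_two_mul_I]

theorem geom {p : ℕ} (hp : 0 < p) (n : ℕ) :
    ∑ j : Fin p, (B.qq (1 / p) ^ (j : ℕ)) ^ n = if p ∣ n then (p : ℂ) else 0 := by
  have h : IsPrimitiveRoot (B.qq (1 / p)) p := by
    have := isPrimitiveRoot_exp p hp.ne'
    rwa [B.qq, mul_one_div]
  simp only [← pow_mul, mul_comm _ n]
  simp only [pow_mul]
  rw [Fin.sum_univ_eq_sum_range fun j => (B.qq (1 / p) ^ n) ^ j]
  split_ifs with h1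
  · rw [(h.pow_eq_one_iff_dvd n).2 h1]
    simp
  · rw [geom_sum_eq (mt (h.pow_eq_one_iff_dvd n).1 h1), ← pow_mul, mul_comm, pow_mul,
      h.pow_eq_one, one_pow, sub_self, zero_div]

theorem out {p n : ℕ} (h : n ∉ Set.range fun m : ℕ => p * m) : ¬ p ∣ n :=
  fun ⟨m, e⟩ => h ⟨m, e.symm⟩

end Hco

open Hco in
theorem hco : HCO := by
  intro F x h
  refine ⟨ex_of fun z hz => ?_, fun p hp => ⟨ex_of fun z hz => ?_, ex_of fun z hz => ?_⟩⟩
  · have h3 : ∀ n : ℕ, I ^ n * x n * B.qq z ^ n = x n * B.qq (z + 1 / 4) ^ n := fun n => by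
      rw [q_add, q_four, mul_pow]
      ring
    simp only [h3]
    exact hasSum h (by simpa using hz)
  · have hp' : (p : ℂ) ≠ 0 := Nat.cast_ne_zero.2 hp.ne'
    have h1 := hasSum_sum (s := Finset.univ) fun (j : Fin p) _ =>
      hasSum h (z := (z + (j : ℕ)) / p) (by
        rw [div_natCast_im]
        exact div_pos (by simpa using hz) (Nat.cast_pos.2 hp))
    have h2 : ∀ n : ℕ, ∑ j : Fin p, x n * B.qq ((z + (j : ℕ)) / p) ^ n =
        x n * B.qq (z / p) ^ n * if p ∣ n then (p : ℂ) else 0 := fun n => by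
      rw [← geom hp, Finset.mul_sum]
      refine Finset.sum_congr rfl fun j _ => ?_
      rw [add_div, q_add, div_eq_mul_one_div ((j : ℕ) : ℂ), q_mul, mul_pow, mul_assoc]
    simp only [h2] at h1
    rw [← (mul_right_injective₀ hp.ne').hasSum_iff fun n hn => by
      rw [if_neg (out hn), mul_zero]] at h1
    have h3 : ∀ n : ℕ, (p : ℂ) * x (p * n) * B.qq z ^ n =
        x (p * n) * B.qq (z / p) ^ (p * n) * if p ∣ p * n then (p : ℂ) else 0 := fun n => by
      rw [if_pos (dvd_mul_right p n), pow_mul, ← q_mul p, mul_div_cancel₀ _ hp']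
      ring
    simp only [h3]
    exact h1
  · have h1 := hasSum h (z := p * z) (by simpa using mul_pos (Nat.cast_pos.2 hp) hz)
    rw [← (mul_right_injective₀ hp.ne').hasSum_iff fun n hn => by
      rw [if_neg (out hn), zero_mul]]
    have h3 : ∀ n : ℕ, x n * B.qq (p * z) ^ n =
        (if p ∣ p * n then x (p * n / p) else 0) * B.qq z ^ (p * n) := fun n => by
      rw [if_pos (dvd_mul_right p n), Nat.mul_div_cancel_left n hp, q_mul, pow_mul]
    simp only [h3] at h1
    exact h1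

end Vale.Agent.P027M.B3
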