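import Vale.Agent.P027M.B3.Bas
import Vale.Agent.P027M.M.Step

/-! # P027, route M, block B3 : the Hecke correspondences -/

set_option linter.all false

open scoped MatrixGroups

noncomputable section

namespace Vale.Agent.P027M.B3

open Vale.Agent.P022.H231.L3

namespace Hk

variable {M : ℕ} {Γ : Subgroup SL(2, ℤ)}

theorem mem_of (h : Lvl M Γ) {γ g : SL(2, ℤ)} (hγ : γ ∈ Γ) (h1 : (4 * M : ℤ) ∣ g 1 0)
    (h2 : (M : ℤ) ∣ g 1 1 - γ 1 1) : g ∈ Γ := by
  refine (h.mem g).2 ⟨h1, ((h.mem γ).1 hγ).2.imp (fun e => ?_) fun e => ?_⟩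
  · simpa using dvd_add h2 e
  · have := dvd_add h2 e
    rwa [← add_assoc, sub_add_cancel] at this

theorem not_dvd (h : Lvl M Γ) {p : ℕ} (hp : p.Prime) (hM : ¬ p ∣ M) : ¬ p ∣ 4 * M := fun e =>
  hM (((Nat.Prime.dvd_mul hp).1 e).elim (fun c => c.trans h.four) id)

theorem al_some (p : ℕ) (δ : SL(2, ℤ)) (j : Fin p) : al 1 p δ (some j) = aU p j := by
  simp [al, aU]

theorem aT_eq (p : ℕ) (δ : SL(2, ℤ)) (i : Fin (p + 1)) :
    aT p δ i = al 1 p δ (finSuccEquiv p i) := by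
  induction i using Fin.cases with
  | zero => rfl
  | succ j => rw [finSuccEquiv_succ, al_some]; rfl

theorem four (M : ℕ) : ((4 * M : ℕ) : ℤ) = 4 * M := by push_cast; rfl

end Hk

open Hk in
theorem hkt : HKT := by
  intro M Γ p δ h hp hM h1 h2
  refine ⟨fun i => by rw [aT_eq, det_al]; exact_mod_cast hp.pos, fun γ hγ => ?_⟩
  obtain ⟨π, g, e⟩ := (Vale.Agent.P027M.M.step (4 * M) p (by have := h.pos; omega) hp).1 (not_dvd h hp hM) δ
    ⟨four M ▸ h1, one_dvd _, by rw [h2, sub_self]; exact dvd_zero _⟩ γ (four M ▸ ((h.mem γ).1 hγ).1)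
  rw [four] at e
  refine ⟨(finSuccEquiv p).trans (π.trans (finSuccEquiv p).symm), fun i => g (finSuccEquiv p i),
    fun i => ⟨mem_of h hγ (e _).2.1 ((Dvd.intro_left 4 rfl).trans (e _).2.2), ?_⟩⟩
  rw [aT_eq, aT_eq, Equiv.trans_apply, Equiv.trans_apply, Equiv.apply_symm_apply]
  exact (e _).1

open Hk in
theorem hku : HKU := by
  intro M Γ h
  refine ⟨⟨fun i => by simp [aR, Matrix.det_fin_two], fun γ hγ => ?_⟩, fun p hp hM => ?_,
    fun δ hδ => ⟨fun _ => sl_pos δ, fun γ hγ => ?_⟩, fun p hp hM => ?_⟩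
  · obtain ⟨⟨c, hc⟩, h2⟩ := (h.mem γ).1 hγ
    obtain ⟨m, hm⟩ := Int.natCast_dvd_natCast.2 h.four
    have hd := sl_det γ
    push_cast at hm
    obtain ⟨u, hu⟩ : (4 : ℤ) ∣ γ 1 1 - γ 0 0 := by
      rcases h2 with ⟨e, he⟩ | ⟨e, he⟩
      · exact ⟨m * e + γ 0 0 * m * e - γ 0 1 * M * c, by
          linear_combination (1 + γ 0 0) * he - hd - γ 0 1 * hc + (e + γ 0 0 * e) * hm⟩
      · exact ⟨m * e - γ 0 0 * m * e + γ 0 1 * M * c, by
          linear_combination (1 - γ 0 0) * he + hd + γ 0 1 * hc + (e - γ 0 0 * e) * hm⟩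
    let g : SL(2, ℤ) := ⟨!![γ 0 0 + M * c, γ 0 1 + u - m * c; γ 1 0, γ 1 1 - M * c], by
      rw [Matrix.det_fin_two_of]
      linear_combination hd + M * c * hu - (u - m * c) * hc - M * c * c * hm⟩
    refine ⟨1, fun _ => g, fun i => ⟨mem_of h hγ ⟨c, hc⟩ ⟨-c, ?_⟩, ?_⟩⟩
    · show γ 1 1 - M * c - γ 1 1 = _
      ring
    · ext a b
      fin_cases a <;> fin_cases b <;> simp [aR, g, Matrix.mul_apply, Fin.sum_univ_two]
      · linear_combination hc
      · linear_combination hu - c * hm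
      · ring
      · linear_combination -hc
  · refine ⟨fun i => by rw [← al_some p 1, det_al]; exact_mod_cast hp.pos, fun γ hγ => ?_⟩
    obtain ⟨π, g, e⟩ := (Vale.Agent.P027M.M.step (4 * M) p (by have := h.pos; omega) hp).2 (hM.mul_left 4) γ
      (four M ▸ ((h.mem γ).1 hγ).1)
    rw [four] at e
    refine ⟨π, g, fun i => ⟨mem_of h hγ (e _).2.1 ((Dvd.intro_left 4 rfl).trans (e _).2.2), ?_⟩⟩
    rw [← al_some p 1, ← al_some p 1]
    exact (e _).1
  · have hd : IsDel 1 (4 * M) (δ 1 1) δ := ⟨hδ, one_dvd _, by simp⟩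
    have hγR : RR 1 (4 * M) (γ : M2) (γ 0 0) (γ 1 1) :=
      ⟨one_dvd _, ((h.mem γ).1 hγ).1, by simp, by simp⟩
    have hR := (hd.rr.mul hγR).mul hd.rr.inv
    rw [← Matrix.SpecialLinearGroup.coe_mul δ, ← Matrix.SpecialLinearGroup.coe_mul (δ * γ)] at hR
    refine ⟨1, fun _ => δ * γ * δ⁻¹, fun _ => ⟨mem_of h hγ hR.h10
      ((Dvd.intro_left 4 rfl).trans ?_), ?_⟩⟩
    · have := dvd_add hR.h11 (hd.mul_sub.mul_left (γ 1 1))
      rwa [show ∀ x : ℤ, x - δ 1 1 * γ 1 1 * δ 0 0 + γ 1 1 * (δ 0 0 * δ 1 1 - 1) = x - γ 1 1 from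
        fun x => by ring] at this
    · rw [← Matrix.SpecialLinearGroup.coe_mul δ, ← Matrix.SpecialLinearGroup.coe_mul (δ * γ * δ⁻¹),
        inv_mul_cancel_right]
  · have h0 := h.pos
    obtain ⟨a, a1, a2⟩ := Nat.exists_mul_mod_eq_one_of_coprime
      ((Nat.Prime.coprime_iff_not_dvd hp).2 (not_dvd h hp hM)) (by omega : 1 < 4 * M)
    have e := Nat.div_add_mod (p * a) (4 * M)
    have b1 : p * a / (4 * M) ≤ p := Nat.div_le_of_le_mul (by nlinarith)
    generalize p * a / (4 * M) = b at e b1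
    rw [a2] at e
    have e' : (4 * M * b + 1 : ℤ) = p * a := by exact_mod_cast e
    refine ⟨⟨!![(a : ℤ), (b : ℤ); 4 * M, (p : ℤ)], by
      rw [Matrix.det_fin_two_of]; linear_combination -e'⟩, dvd_rfl, rfl, ?_⟩
    show (a : ℤ).natAbs + (b : ℤ).natAbs + (4 * M : ℤ).natAbs + (p : ℤ).natAbs ≤ _
    omega

end Vale.Agent.P027M.B3
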