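import Vale.Agent.P027M.B3.Defs

/-! # P027, route M, block B3 : the index and finite generation -/

set_option linter.all false

open scoped MatrixGroups

noncomputable section

namespace Vale.Agent.P027M.B3

namespace IdxAux

theorem index_Gamma (N : ℕ) [NeZero N] : (CongruenceSubgroup.Gamma N).index ≤ N ^ 4 := by
  unfold CongruenceSubgroup.Gamma
  rw [Subgroup.index_ker]
  have h1 := Nat.card_le_card_of_injective
    (fun g : (Matrix.SpecialLinearGroup.map (n := Fin 2) (Int.castRingHom (ZMod N))).range =>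
      ((g : SL(2, ZMod N)) : Fin 2 → Fin 2 → ZMod N))
    (fun g h e => Subtype.ext (Subtype.ext e))
  refine h1.trans (le_of_eq ?_)
  show Nat.card (Fin 2 → Fin 2 → ZMod N) = _
  rw [Nat.card_fun, Nat.card_fun, Nat.card_zmod, Nat.card_eq_fintype_card, Fintype.card_fin,
    ← pow_mul]

theorem fg_SL : Group.FG SL(2, ℤ) := by
  classical
  refine ⟨⟨{ModularGroup.S, ModularGroup.T}, ?_⟩⟩
  rw [Finset.coe_insert, Finset.coe_singleton]
  exact SpecialLinearGroup.SL2Z_generators

end IdxAux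

open IdxAux in
theorem idx : IDX := by
  intro M Γ h
  haveI : NeZero (4 * M) := ⟨by have := h.pos; omega⟩
  have hle : CongruenceSubgroup.Gamma (4 * M) ≤ Γ := by
    intro γ hγ
    rw [CongruenceSubgroup.Gamma_mem] at hγ
    obtain ⟨-, -, h1, h2⟩ := hγ
    rw [ZMod.intCast_zmod_eq_zero_iff_dvd] at h1
    have h3 : (((γ 1 1 - 1 : ℤ)) : ZMod (4 * M)) = 0 := by
      rw [Int.cast_sub, h2, Int.cast_one, sub_self]
    rw [ZMod.intCast_zmod_eq_zero_iff_dvd] at h3
    push_cast at h1 h3
    exact (h.mem γ).2 ⟨h1, Or.inl ((Dvd.intro_left 4 rfl).trans h3)⟩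
  haveI hfi : Γ.FiniteIndex := Subgroup.finiteIndex_of_le hle
  haveI := fg_SL
  refine ⟨hfi, (Subgroup.index_antitone hle).trans (index_Gamma _),
    (Group.fg_iff_subgroup_fg Γ).1 inferInstance, (h.mem _).2 ?_, (h.mem _).2 ?_⟩
  · simp
  · simp [ModularGroup.T]

end Vale.Agent.P027M.B3
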