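import Vale.Agent.P027M.B3.Bas

/-! # P027, route M, block B3, row LAT : a small integral solution -/

set_option linter.all false

open scoped MatrixGroups ComplexConjugate
open Complex

noncomputable section

namespace Vale.Agent.P027M.B3

namespace Lat

/-- the Gaussian integers -/
def GI : Subring ℂ := GaussianInt.toComplex.range

theorem one_le {z : ℂ} (h : z ∈ GI) (h0 : z ≠ 0) : 1 ≤ ‖z‖ := by
  obtain ⟨x, rfl⟩ := h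
  have a : 0 < x.norm := GaussianInt.norm_pos.2 fun e => h0 (by simp [e])
  have b : (1 : ℝ) ≤ normSq (GaussianInt.toComplex x) := by
    rw [← GaussianInt.intCast_real_norm]
    exact_mod_cast a
  rw [normSq_eq_norm_sq] at b
  exact (one_le_sq_iff₀ (norm_nonneg _)).1 b

/-- the defect of an equation -/
def DF (e : Eqn) (μ : ℂ) (F : Bool → ℂ → ℂ) : ℂ → ℂ :=
  fun z => ∑ i, F e.s (mob (e.α i) z) + -μ * F e.t z

/-- the homomorphism of a pair -/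
def Ph (F G : Bool → ℂ → ℂ) (s : Bool) (γ : SL(2, ℤ)) : ℂ := pd (F s) γ + conj (pd (G s) γ)

variable {Γ : Subgroup SL(2, ℤ)} {F G : Bool → ℂ → ℂ} {e : Eqn}

theorem Ph_ad (h : ∀ s, MP Γ (F s) ∧ CP Γ (G s)) (s : Bool) : Ad Γ (Ph F G s) :=
  fun γ a γ' b => by
  rw [Ph, Ph, Ph, (h s).1.ad γ a γ' b, (h s).2.mp.ad γ a γ' b, map_add]
  ring

theorem psi (ht : TRA) (h : ∀ s, MP Γ (F s) ∧ CP Γ (G s)) (hc : Cor Γ e.α) {γ : SL(2, ℤ)}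
    {π : Equiv.Perm (Fin e.k)} {g : Fin e.k → SL(2, ℤ)}
    (hg : ∀ i, g i ∈ Γ ∧ e.α i * (γ : M2) = (g i : M2) * e.α (π i)) (μ : ℂ) :
    pd (DF e μ F) γ + conj (pd (DF e (conj μ) G) γ) =
      ∑ i, Ph F G e.s (g i) - μ * Ph F G e.t γ := by
  have a := (ht Γ _ _ _ hc).2.2 (h e.s).1 γ π g hg
  have b := (ht Γ _ _ _ hc).2.2 (h e.s).2.mp γ π g hg
  unfold DF
  rw [pd_lin (F := fun z => ∑ i, F e.s (mob (e.α i) z)),
    pd_lin (F := fun z => ∑ i, G e.s (mob (e.α i) z)), a, b]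
  simp only [Ph, map_add, map_mul, map_neg, map_sum, conj_conj, Finset.sum_add_distrib]
  ring

theorem pd_of_sol {μ : ℂ} (h : e.Sol μ F) (γ : SL(2, ℤ)) : pd (DF e μ F) γ = 0 := by
  obtain ⟨k, h⟩ := h
  rw [pd, DF, DF, h _ (mob_sl_im γ (by simp)), h _ (by simp)]
  ring

theorem sol_of {μ : ℂ} (h : ∀ z : ℂ, 0 < z.im → DF e μ F z = DF e μ F I) : e.Sol μ F :=
  ⟨DF e μ F I, fun z hz => by rw [← h z hz, DF]; ring⟩

/-- the rows of the system -/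
def row {n : ℕ} (κ : SL(2, ℤ) → Fin n → ℤ) (e : Eqn) (γ : SL(2, ℤ)) (g : Fin e.k → SL(2, ℤ))
    (x : Bool × Fin n) : ℂ :=
  (if x.1 = e.s then ∑ j, (κ (g j) x.2 : ℂ) else 0) -
    if x.1 = e.t then (e.lam : ℂ) * κ γ x.2 else 0

theorem sum_ite {n : ℕ} (s : Bool) (a : Fin n → ℂ) (w : Bool × Fin n → ℂ) :
    ∑ x : Bool × Fin n, (if x.1 = s then a x.2 else 0) * w x = ∑ i, a i * w (s, i) := by
  rw [Fintype.sum_prod_type]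
  cases s <;> simp

theorem sum_row {n : ℕ} (κ : SL(2, ℤ) → Fin n → ℤ) (e : Eqn) (γ : SL(2, ℤ))
    (g : Fin e.k → SL(2, ℤ)) (w : Bool × Fin n → ℂ) :
    ∑ x, row κ e γ g x * w x = ∑ j, ∑ i, (κ (g j) i : ℂ) * w (e.s, i) -
      (e.lam : ℂ) * ∑ i, (κ γ i : ℂ) * w (e.t, i) := by
  simp only [row, sub_mul, Finset.sum_sub_distrib]
  rw [sum_ite e.s (fun i => ∑ j, (κ (g j) i : ℂ)), sum_ite e.t (fun i => (e.lam : ℂ) * κ γ i),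
    Finset.sum_comm, Finset.mul_sum]
  simp only [Finset.sum_mul, mul_assoc]

theorem num {d n H : ℕ} (d1 : 1 ≤ d) (H1 : 1 ≤ H) (hn : n ≤ 2 * d) :
    2 * (2 * n * (4 * H ^ 3 * (2 * 3 ^ (2 * d + 1)))) ^ (2 * n) ≤ (H * 3 ^ d) ^ (30 * d) := by
  have a0 : 1 + d * 2 ≤ 3 ^ d := by
    have := one_add_mul_le_pow (a := (2 : ℤ)) (by norm_num) d
    exact_mod_cast this
  have a3 : 3 ≤ 3 ^ d := Nat.le_self_pow (by omega) 3
  have e : 3 ^ (2 * d + 1) = 3 * (3 ^ d) ^ 2 := by rw [pow_succ, mul_comm 2, pow_mul, mul_comm]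
  rw [e]
  generalize 3 ^ d = x at *
  have x1 : 1 ≤ H * x := Nat.mul_pos H1 (by omega)
  have a1 : 2 * n * (4 * H ^ 3 * (2 * (3 * x ^ 2))) ≤ (H * x) ^ 7 := by
    have b : 3 ^ 4 ≤ x ^ 4 := Nat.pow_le_pow_left a3 4
    have c : H ^ 3 ≤ H ^ 7 := Nat.pow_le_pow_right H1 (by norm_num)
    have b2 : 48 * n ≤ x ^ 5 := by nlinarith
    calc _ = 48 * n * x ^ 2 * H ^ 3 := by ring
      _ ≤ x ^ 5 * x ^ 2 * H ^ 7 := by gcongr
      _ = _ := by ring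
  calc _ ≤ (H * x) ^ (2 * d) * ((H * x) ^ 7) ^ (4 * d) := by
        refine Nat.mul_le_mul ?_ ((Nat.pow_le_pow_left a1 _).trans
          (Nat.pow_le_pow_right (Nat.pow_pos x1) (by omega)))
        exact le_trans (by nlinarith) (Nat.le_self_pow (by omega) _)
    _ = _ := by rw [← pow_mul, ← pow_add]; ring_nf

theorem vanish {ψ : SL(2, ℤ) → ℂ} {Q : SL(2, ℤ) → Prop} (ad : Ad Γ ψ)
    (gen : ∀ P : Subgroup SL(2, ℤ), (∀ γ ∈ Γ, Q γ → γ ∈ P) → Γ ≤ P)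
    (h : ∀ γ ∈ Γ, Q γ → ψ γ = 0) : ∀ γ ∈ Γ, ψ γ = 0 := by
  have z1 : ψ 1 = 0 := by simpa using ad 1 Γ.one_mem 1 Γ.one_mem
  let P : Subgroup SL(2, ℤ) :=
    { carrier := {γ | γ ∈ Γ ∧ ψ γ = 0}
      one_mem' := ⟨Γ.one_mem, z1⟩
      mul_mem' := fun {x y} a b =>
        ⟨Γ.mul_mem a.1 b.1, by rw [ad x a.1 y b.1, a.2, b.2, add_zero]⟩
      inv_mem' := fun {x} a => ⟨Γ.inv_mem a.1, by
        have := ad x a.1 x⁻¹ (Γ.inv_mem a.1)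
        rw [mul_inv_cancel, z1, a.2, zero_add] at this
        exact this.symm⟩ }
  exact fun γ a => (gen P (fun γ a b => ⟨a, h γ a b⟩) a).2

theorem sol_all [Γ.FiniteIndex] (ht : TRA) (hu : ESU) (h : ∀ s, MP Γ (F s) ∧ CP Γ (G s))
    (c : Cor Γ e.α) {Q : SL(2, ℤ) → Prop}
    (gen : ∀ P : Subgroup SL(2, ℤ), (∀ γ ∈ Γ, Q γ → γ ∈ P) → Γ ≤ P)
    (hz : ∀ γ ∈ Γ, Q γ → pd (DF e e.lam F) γ + conj (pd (DF e (conj (e.lam : ℂ)) G) γ) = 0) :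
    e.Sol e.lam F ∧ e.Sol (conj (e.lam : ℂ)) G := by
  have m1 : MP Γ (DF e e.lam F) := ((ht Γ _ _ _ c).1 (h e.s).1).lin (h e.t).1 _
  have m2 : CP Γ (DF e (conj (e.lam : ℂ)) G) := ((ht Γ _ _ _ c).2.1 (h e.s).2).lin (h e.t).2 _
  obtain ⟨u1, u2⟩ := hu Γ _ _ m1 m2 (vanish (Ph_ad (F := fun _ => DF e e.lam F)
    (G := fun _ => DF e (conj (e.lam : ℂ)) G) (fun _ => ⟨m1, m2⟩) true) gen hz)
  exact ⟨sol_of u1, sol_of u2⟩

theorem row_mem {n : ℕ} (κ : SL(2, ℤ) → Fin n → ℤ) (e : Eqn) (γ : SL(2, ℤ))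
    (g : Fin e.k → SL(2, ℤ)) (x : Bool × Fin n) : row κ e γ g x ∈ GI := by
  unfold row
  refine GI.sub_mem ?_ ?_
  · split_ifs
    exacts [sum_mem fun j _ => intCast_mem _ _, zero_mem _]
  · split_ifs
    exacts [mul_mem ⟨_, rfl⟩ (intCast_mem _ _), zero_mem _]

theorem row_bd {n H Hg : ℕ} {κ : SL(2, ℤ) → Fin n → ℤ} {γ : SL(2, ℤ)} {g : Fin e.k → SL(2, ℤ)}
    {π : Equiv.Perm (Fin e.k)} (H1 : 1 ≤ H) (κ1 : ∀ γ ∈ Γ, ∀ i, ‖(κ γ i : ℂ)‖ ≤ 2 * Ht γ)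
    (hc : Cor Γ e.α ∧ e.k ≤ H ∧ (∀ i, Ht (e.α i) ≤ H) ∧ ‖(e.lam : ℂ)‖ ≤ H) (hγ : γ ∈ Γ)
    (hH : Ht γ ≤ Hg) (hg : ∀ i, g i ∈ Γ ∧ e.α i * (γ : M2) = (g i : M2) * e.α (π i))
    (x : Bool × Fin n) : ‖row κ e γ g x‖ ≤ 4 * H ^ 3 * Hg := by
  obtain ⟨c1, c2, c3, c4⟩ := hc
  have H3 : (H : ℝ) ≤ H ^ 3 := le_self_pow₀ (by exact_mod_cast H1) (by norm_num)
  have a0 : (Ht γ : ℝ) ≤ Hg := by exact_mod_cast hH
  have a1 : ∀ j, ‖(κ (g j) x.2 : ℂ)‖ ≤ 2 * (H * Hg * H) := fun j => by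
    refine (κ1 _ (hg j).1 _).trans (mul_le_mul_of_nonneg_left ?_ zero_le_two)
    exact_mod_cast (Ht_cor (c1.1 _) (hg j).2).trans
      (Nat.mul_le_mul (Nat.mul_le_mul (c3 _) hH) (c3 _))
  have a2 : ‖∑ j, (κ (g j) x.2 : ℂ)‖ ≤ 2 * H ^ 3 * Hg := by
    refine (norm_sum_le _ _).trans ((Finset.sum_le_card_nsmul _ _ _ fun j _ => a1 j).trans ?_)
    rw [Finset.card_univ, Fintype.card_fin, nsmul_eq_mul]
    calc _ ≤ (H : ℝ) * (2 * (H * Hg * H)) := by gcongr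
      _ = _ := by ring
  have a3 : ‖(e.lam : ℂ) * κ γ x.2‖ ≤ 2 * H ^ 3 * Hg := by
    rw [norm_mul]
    calc _ ≤ (H : ℝ) ^ 3 * (2 * Hg) := mul_le_mul (c4.trans H3)
          ((κ1 _ hγ _).trans (by linarith)) (norm_nonneg _) (by positivity)
      _ = _ := by ring
  have a4 : (0 : ℝ) ≤ 2 * H ^ 3 * Hg := by positivity
  refine (norm_sub_le _ _).trans ?_
  split_ifs <;> (try rw [norm_zero]) <;> linarith

theorem val_bd {n : ℕ} {k : Fin n → ℤ} {w : Fin n → ℂ} {X : ℝ} {h : ℕ} (X0 : 0 ≤ X)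
    (hk : ∑ i, (k i).natAbs ≤ 2 * h) (hw : ∀ i, 2 * ‖w i‖ ≤ X) :
    ‖∑ i, (k i : ℂ) * w i‖ ≤ X * h := by
  have b2 : ∑ i, ‖(k i : ℂ)‖ ≤ 2 * h := by
    simp only [Complex.norm_intCast, ← Int.cast_abs, Int.abs_eq_natAbs]
    exact_mod_cast hk
  refine (norm_sum_le _ _).trans ?_
  calc _ ≤ ∑ i, ‖(k i : ℂ)‖ * (X / 2) := Finset.sum_le_sum fun i _ => by
        rw [norm_mul]
        exact mul_le_mul_of_nonneg_left (by linarith [hw i]) (norm_nonneg _)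
    _ ≤ 2 * h * (X / 2) := by
        rw [← Finset.sum_mul]
        exact mul_le_mul_of_nonneg_right b2 (by linarith)
    _ = _ := by ring

theorem row_eq (ht : TRA) (h : ∀ s, MP Γ (F s) ∧ CP Γ (G s)) (hc : Cor Γ e.α) {γ : SL(2, ℤ)}
    {π : Equiv.Perm (Fin e.k)} {g : Fin e.k → SL(2, ℤ)} (hγ : γ ∈ Γ)
    (hg : ∀ i, g i ∈ Γ ∧ e.α i * (γ : M2) = (g i : M2) * e.α (π i)) {n : ℕ}
    {κ : SL(2, ℤ) → Fin n → ℤ} {w : Bool × Fin n → ℂ}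
    (hv : ∀ s, ∀ γ ∈ Γ, Ph F G s γ = ∑ i, (κ γ i : ℂ) * w (s, i)) :
    pd (DF e e.lam F) γ + conj (pd (DF e (conj (e.lam : ℂ)) G) γ) = ∑ x, row κ e γ g x * w x := by
  rw [psi ht h hc hg, sum_row, hv _ _ hγ, Finset.sum_congr rfl fun j _ => hv _ _ (hg j).1]

end Lat

open Lat in
theorem lat (hrep : REP) (hcoc : COC) (hsm : SMALL) (ht : TRA) (hu : ESU) : LAT := by
  intro Γ _ E H F₀ G₀ γ₀ h4 h1 hE H1 hC h0 hS hγ hne
  obtain ⟨n, κ, hn, κa, κs, κu⟩ := hcoc Γ h4 h1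
  obtain ⟨-, -, -, gen⟩ := hrep Γ
  have d1 : 1 ≤ Γ.index := Nat.pos_of_ne_zero Subgroup.FiniteIndex.index_ne_zero
  have nm := num d1 H1 hn
  have g1 : 1 ≤ 2 * 3 ^ (2 * Γ.index + 1) := Nat.succ_le_of_lt (by positivity)
  generalize 2 * 3 ^ (2 * Γ.index + 1) = Hg at gen nm g1
  have κ1 : ∀ γ ∈ Γ, ∀ i, ‖(κ γ i : ℂ)‖ ≤ 2 * Ht γ := fun γ a i => by
    have := (Finset.single_le_sum (f := fun i => (κ γ i).natAbs) (fun _ _ => Nat.zero_le _)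
      (Finset.mem_univ i)).trans (κs γ a)
    rw [Complex.norm_intCast, ← Int.cast_abs, Int.abs_eq_natAbs]
    exact_mod_cast this
  choose v hv using fun s => κu _ (Ph_ad h0 s)
  have ex : ∀ r : {x : Eqn × SL(2, ℤ) // x.1 ∈ E ∧ x.2 ∈ Γ ∧ Ht x.2 ≤ Hg},
      ∃ (π : Equiv.Perm (Fin r.1.1.k)) (g : Fin r.1.1.k → SL(2, ℤ)),
        ∀ i, g i ∈ Γ ∧ r.1.1.α i * (r.1.2 : M2) = (g i : M2) * r.1.1.α (π i) :=
    fun r => (hC _ r.2.1).1.2 _ r.2.2.1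
  choose π g hπ using ex
  have b0 : (1 : ℝ) ≤ 4 * H ^ 3 * Hg := by
    exact_mod_cast Nat.mul_pos (Nat.mul_pos (by norm_num) (Nat.pow_pos H1)) g1
  refine (hsm GI (Bool × Fin n) _ (fun r => row κ r.1.1 r.1.2 (g r))
    (fun x => if x.1 = true then (κ γ₀ x.2 : ℂ) else 0) (fun x => v x.1 x.2) (4 * H ^ 3 * Hg) b0
    (fun r x => ⟨row_mem _ _ _ _ _, row_bd H1 κ1 (hC _ r.2.1) r.2.2.1 r.2.2.2 (hπ r) x⟩)
    (fun r => ?_) ?_).elim fun w ⟨w1, w2, w3⟩ => ?_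
  · rw [← row_eq ht h0 (hC _ r.2.1).1 r.2.2.1 (hπ r) (w := fun x => v x.1 x.2) hv,
      pd_of_sol (hS _ r.2.1).1, pd_of_sol (hS _ r.2.1).2, map_zero, add_zero]
  · rw [sum_ite true (fun i => (κ γ₀ i : ℂ)), ← hv _ _ hγ]
    exact hne
  have ad : ∀ s, Ad Γ fun γ => ∑ i, (κ γ i : ℂ) * w (s, i) := fun s γ a γ' b => by
    simp only [κa γ a γ' b, Pi.add_apply, Int.cast_add, add_mul, Finset.sum_add_distrib]
  choose F G hF hG hφ using fun s => hE _ (ad s)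
  have hFG : ∀ s, MP Γ (F s) ∧ CP Γ (G s) := fun s => ⟨hF s, hG s⟩
  rw [sum_ite true (fun i => (κ γ₀ i : ℂ))] at w3
  refine ⟨F, G, hFG, fun e he => sol_all ht hu hFG (hC e he).1 gen fun γ a b => ?_, ?_,
    fun γ a => ?_⟩
  · exact (row_eq ht hFG (hC e he).1 a (hπ ⟨(e, γ), he, a, b⟩)
      fun s γ a => (hφ s γ a).symm).trans (w2 ⟨(e, γ), he, a, b⟩)
  · rw [← hφ _ _ hγ]
    exact one_le (sum_mem fun i _ => mul_mem (intCast_mem _ _) (w1 _).1) w3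
  · rw [← hφ _ _ a]
    refine val_bd (by positivity) (κs γ a) fun i => ?_
    refine (mul_le_mul_of_nonneg_left (w1 _).2 zero_le_two).trans ?_
    simp only [Fintype.card_prod, Fintype.card_bool, Fintype.card_fin]
    exact_mod_cast nm

end Vale.Agent.P027M.B3
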