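import Vale.Agent.P027M.B3.Defs
import Vale.Agent.P027M.B.Hol

/-! # P027, route M, block B3 : existence and uniqueness of `q`-expansions -/

set_option linter.all false

open Complex Filter Topology Function Function.Periodic

noncomputable section

namespace Vale.Agent.P027M.B3

namespace Qex

open B B.Hol

theorem qq_eq (z : ℂ) : qq z = qParam 1 z := by simp [qq, qParam]

theorem qq_lt {z : ℂ} (hz : 0 < z.im) : ‖qq z‖ < 1 := by
  rw [qq_eq]; exact norm_qParam_lt_one one_pos hz

theorem onto {q : ℂ} (h0 : q ≠ 0) (h1 : ‖q‖ < 1) : ∃ z : ℂ, 0 < z.im ∧ qq z = q := by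
  have e := qParam_right_inv (h := 1) one_ne_zero h0
  refine ⟨invQParam 1 q, (norm_qParam_lt_iff one_pos 0 _).1 ?_, by rw [qq_eq, e]⟩
  rw [e]; simpa using h1

theorem mk_coeff (f : PowerSeries ℂ) : PowerSeries.mk (fun n => PowerSeries.coeff n f) = f := by
  ext n; simp

theorem exi (F : ℂ → ℂ) (C A : ℝ) (hd : DifferentiableOn ℂ F {z | 0 < z.im})
    (hp : ∀ z : ℂ, 0 < z.im → F (z + 1) = F z)
    (hb : ∀ z : ℂ, 0 < z.im → A ≤ z.im → ‖F z‖ ≤ C) : ∃ x, Ex F x := by
  classical
  set G : ℂ → ℂ := fun z => if 0 < z.im then F z else 0 with hG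
  have op : IsOpen {z : ℂ | 0 < z.im} := isOpen_lt continuous_const continuous_im
  have pG : Periodic G ((1 : ℝ) : ℂ) := fun z => by
    by_cases h : 0 < z.im
    · simp [hG, h, hp z h]
    · simp [hG, h]
  have dG : ∀ z : ℂ, 0 < z.im → DifferentiableAt ℂ G z := fun z hz => by
    refine (hd.differentiableAt (op.mem_nhds hz)).congr_of_eventuallyEq ?_
    filter_upwards [op.mem_nhds hz] with w hw
    exact if_pos hw
  have ev1 : ∀ B : ℝ, ∀ᶠ z in comap im atTop, B < z.im := fun B =>
    (tendsto_comap (f := im) (x := atTop)).eventually (eventually_gt_atTop B)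
  have d0 : DifferentiableAt ℂ (cuspFunction 1 G) 0 := by
    refine differentiableAt_cuspFunction_zero one_pos pG ((ev1 0).mono dG) ?_
    refine Asymptotics.IsBigO.of_bound C ?_
    filter_upwards [ev1 0, ev1 A] with z h0 h1
    simpa [hG, h0] using hb z h0 h1.le
  have dd : DifferentiableOn ℂ (cuspFunction 1 G) (Metric.ball 0 1) := fun q hq => by
    refine DifferentiableAt.differentiableWithinAt ?_
    by_cases h : q = 0
    · exact h ▸ d0
    · obtain ⟨z, hz, rfl⟩ := onto h (mem_ball_zero_iff.1 hq)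
      rw [qq_eq]
      exact differentiableAt_cuspFunction one_ne_zero pG (dG z hz)
  obtain ⟨f, hf, he⟩ := hol.ofFun 1 _ dd
  refine ⟨fun n => PowerSeries.coeff n f, by rw [mk_coeff]; exact hf, fun z hz => ?_⟩
  rw [Ser, mk_coeff, he _ (qq_lt hz), qq_eq, eq_cuspFunction one_ne_zero pG z]
  exact (if_pos hz).symm

theorem lin {F F' : ℂ → ℂ} {x y : ℕ → ℂ} (a : ℂ) (hx : Ex F x) (hy : Ex F' y) :
    Ex (fun z => F z + a * F' z) fun n => x n + a * y n := by
  have e : PowerSeries.mk (fun n => x n + a * y n) =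
      PowerSeries.mk x + PowerSeries.C a * PowerSeries.mk y := by
    ext n; simp
  have m := hol.mul 1 _ _ (hol.const 1 a).1 hy.1
  have s := hol.add 1 _ _ hx.1 m.1
  refine ⟨e ▸ s.1, fun z hz => ?_⟩
  simp only [Ser]
  rw [e, s.2 _ (qq_lt hz), m.2 _ (qq_lt hz), (hol.const 1 a).2, hx.2 z hz, hy.2 z hz, Ser, Ser]

theorem zer {F : ℂ → ℂ} {x : ℕ → ℂ} (hx : Ex F x) (h : ∀ z : ℂ, 0 < z.im → F z = 0) : x = 0 := by
  have a : ∀ q : ℂ, q ≠ 0 → ‖q‖ < 1 → ev (PowerSeries.mk x) q = 0 := fun q h0 h1 => by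
    obtain ⟨z, hz, rfl⟩ := onto h0 h1
    exact (hx.2 z hz).symm.trans (h z hz)
  have c : ContinuousAt (ev (PowerSeries.mk x)) 0 :=
    ((hol.diff 1 _ hx.1).2 0 (by simp)).continuousAt
  have b : ev (PowerSeries.mk x) 0 = 0 := by
    refine tendsto_nhds_unique (c.tendsto.mono_left (nhdsWithin_le_nhds (s := {0}ᶜ))) ?_
    refine tendsto_const_nhds.congr' ?_
    filter_upwards [self_mem_nhdsWithin,
      mem_nhdsWithin_of_mem_nhds (Metric.ball_mem_nhds (0 : ℂ) one_pos)] with q h0 h1
    exact (a q h0 (mem_ball_zero_iff.1 h1)).symm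
  have z := hol.inj 1 _ one_pos hx.1 fun q hq => by
    by_cases h0 : q = 0
    · exact h0 ▸ b
    · exact a q h0 hq
  funext n
  simpa using congrArg (PowerSeries.coeff n) z

end Qex

open Qex in
theorem qex : QEX := by
  refine ⟨exi, fun F F' x y hx hy e => ?_, fun _ _ _ _ a hx hy => lin a hx hy, fun k => ?_⟩
  · have z := zer (lin (-1) hx hy) fun z hz => by simp only [e z hz]; ring
    funext n
    have := congrFun z n
    simp only [Pi.zero_apply] at this
    linear_combination this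
  · have e : PowerSeries.mk (fun n => if n = 0 then k else 0) = PowerSeries.C k := by
      ext n; simp [PowerSeries.coeff_C]
    exact ⟨e ▸ (B.Hol.hol.const 1 k).1, fun z _ => by rw [Ser, e, (B.Hol.hol.const 1 k).2]⟩

end Vale.Agent.P027M.B3
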