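import Vale.Agent.P027M.B3.Bas

/-! # P027, route M, block B3 : the conjugate form (row REFL) -/

set_option linter.all false

open scoped MatrixGroups ComplexConjugate
open Complex

noncomputable section

namespace Vale.Agent.P027M.B3

namespace Refl

/-- conjugation by `diag (1, -1)` -/
def J (γ : SL(2, ℤ)) : SL(2, ℤ) :=
  ⟨!![γ 0 0, -γ 0 1; -γ 1 0, γ 1 1], by
    rw [Matrix.det_fin_two_of, neg_mul_neg]
    exact sl_det γ⟩

theorem J10 (γ : SL(2, ℤ)) : J γ 1 0 = -γ 1 0 := rfl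
theorem J11 (γ : SL(2, ℤ)) : J γ 1 1 = γ 1 1 := rfl

theorem mob_J (γ : SL(2, ℤ)) (z : ℂ) : mob (J γ) (-conj z) = -conj (mob γ z) := by
  show ((γ 0 0 : ℤ) * (-conj z) + (-γ 0 1 : ℤ)) / ((-γ 1 0 : ℤ) * (-conj z) + (γ 1 1 : ℤ)) = _
  rw [mob, map_div₀, ← neg_div]
  simp only [map_add, map_mul, map_intCast]
  push_cast
  congr 1 <;> ring

theorem im_r {z : ℂ} : (-conj z).im = z.im := by simp

/-- the reflected function -/
def rf (F : ℂ → ℂ) (z : ℂ) : ℂ := conj (F (-conj z))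

theorem rf_mob (F : ℂ → ℂ) (γ : SL(2, ℤ)) (z : ℂ) :
    rf F (mob γ z) = conj (F (mob (J γ) (-conj z))) := by rw [mob_J, rf]

theorem pd_rf (F : ℂ → ℂ) (γ : SL(2, ℤ)) : pd (rf F) γ = conj (pd F (J γ)) := by
  rw [pd, pd, rf_mob, rf, conj_I, neg_neg, map_sub]

theorem cp {Γ : Subgroup SL(2, ℤ)} (hJ : ∀ γ ∈ Γ, J γ ∈ Γ) {F : ℂ → ℂ} (h : CP Γ F) :
    CP Γ (rf F) := by
  refine ⟨fun z hz => ?_, fun γ hγ z hz => ?_, fun σ => ?_⟩
  · have h1 : DifferentiableAt ℂ F (-conj z) :=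
      h.hol.differentiableAt ((isOpen_lt continuous_const continuous_im).mem_nhds
        (show 0 < (-conj z).im by rw [im_r]; exact hz))
    have h2 : DifferentiableAt ℂ (fun w => F (-w)) (conj z) :=
      h1.comp (conj z) differentiableAt_id.neg
    have h3 := h2.conj_conj
    rw [conj_conj] at h3
    exact h3.differentiableWithinAt
  · rw [rf_mob, h.per _ (hJ γ hγ) _ (by rwa [im_r]), pd_rf, map_add, rf]
  · obtain ⟨C, A, hC⟩ := h.bdd (J σ)
    refine ⟨C, A, fun z h1 h2 => ?_⟩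
    rw [rf_mob, norm_conj]
    exact hC _ (by rwa [im_r]) (by rwa [im_r])

theorem cf_conj (c : ℕ → ℂ) (s : Bool) (n : ℕ) :
    cf (fun n => conj (c n)) s n = conj (cf c s n) := by
  unfold cf
  split_ifs <;> simp

theorem qq_r (z : ℂ) : B.qq (-conj z) = conj (B.qq z) := by
  rw [B.qq, B.qq, ← exp_conj]
  congr 1
  simp only [map_mul, map_ofNat, conj_ofReal, conj_I]
  ring

theorem GG_conj (c : ℕ → ℂ) (s : Bool) : GG (fun n => conj (c n)) s = rf (GG c s) := by
  funext z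
  rw [rf, GG, GG, Ser, Ser, B.ev, B.ev, conj_tsum, qq_r]
  refine tsum_congr fun n => ?_
  rw [PowerSeries.coeff_mk, PowerSeries.coeff_mk, map_mul, map_pow, conj_conj, cf_conj]

end Refl

open Refl in
theorem refl : REFL := by
  intro M Γ ε b c hL h
  have hJ : ∀ γ ∈ Γ, J γ ∈ Γ := fun γ hγ => by
    rw [hL.mem] at hγ ⊢
    rw [J10, J11]
    exact ⟨hγ.1.neg_right, hγ.2⟩
  refine ⟨by rw [h.one, map_one], fun p hp k m => by rw [h.bad p hp k, map_zero],
    fun p hp k m => ?_, fun p hp k => by rw [norm_conj]; exact h.eps p hp k,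
    fun s ρ h0 h1 => ?_, fun s => by rw [GG_conj]; exact cp hJ (h.cp s),
    fun p hp k δ h1 h2 s => ?_⟩
  · have h1 := congrArg conj (h.hec p hp k m)
    rw [map_add, map_mul, map_mul, map_mul, map_mul, map_natCast, apply_ite conj, apply_ite conj,
      map_zero, map_one, map_ofNat] at h1
    exact h1
  · refine (h.conv s ρ h0 h1).congr fun n => ?_
    rw [PowerSeries.coeff_mk, PowerSeries.coeff_mk, cf_conj, norm_conj]
  · obtain ⟨x, hx⟩ := h.dia p hp k (J δ) (by rw [J10]; exact h1.neg_right) h2 s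
    refine ⟨conj x, fun z hz => ?_⟩
    rw [GG_conj, rf_mob, hx _ (by rwa [im_r]), map_add, map_mul, rf]

end Vale.Agent.P027M.B3
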