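import Vale.Agent.P027M.B3.Bas

/-! # P027, route M, block B3 : short representatives, small generators -/

set_option linter.all false

open scoped MatrixGroups

noncomputable section

namespace Vale.Agent.P027M.B3

namespace Rep

open ModularGroup

/-- the letters -/
def Gn (s : SL(2, ℤ)) : Prop := s = S ∨ s = S⁻¹ ∨ s = T ∨ s = T⁻¹

theorem Gn.inv {s : SL(2, ℤ)} (h : Gn s) : Gn s⁻¹ := by
  rcases h with rfl | rfl | rfl | rfl <;> simp [Gn]

theorem Gn.ht {s : SL(2, ℤ)} (h : Gn s) : Ht s ≤ 3 := by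
  have h1 : Ht (S : SL(2, ℤ)) ≤ 3 := by simp [Ht, ModularGroup.coe_S]
  have h2 : Ht (T : SL(2, ℤ)) ≤ 3 := by simp [Ht, ModularGroup.coe_T]
  rcases h with rfl | rfl | rfl | rfl
  · exact h1
  · rwa [Ht_inv]
  · exact h2
  · rwa [Ht_inv]

theorem wd_one (k : ℕ) : Wd k 1 := ⟨[], by simp, by simp, rfl⟩

theorem wd_gn {s : SL(2, ℤ)} (h : Gn s) : Wd 1 s :=
  ⟨[s], fun t ht => by rw [List.mem_singleton.1 ht]; exact h, le_rfl, by simp⟩

theorem wd_mul {k k' : ℕ} {g g' : SL(2, ℤ)} (h : Wd k g) (h' : Wd k' g') : Wd (k + k') (g * g') := by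
  obtain ⟨l, a, b, rfl⟩ := h
  obtain ⟨l', a', b', rfl⟩ := h'
  exact ⟨l ++ l', fun s hs => (List.mem_append.1 hs).elim (a s) (a' s),
    by rw [List.length_append]; omega, List.prod_append⟩

theorem wd_inv {k : ℕ} {g : SL(2, ℤ)} (h : Wd k g) : Wd k g⁻¹ := by
  obtain ⟨l, a, b, rfl⟩ := h
  refine ⟨(l.map fun x => x⁻¹).reverse, fun s hs => ?_, by simpa using b,
    (List.prod_inv_reverse l).symm⟩
  obtain ⟨t, ht, rfl⟩ := List.mem_map.1 (List.mem_reverse.1 hs)
  exact Gn.inv (a t ht)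

theorem wd_all (g : SL(2, ℤ)) : ∃ k, Wd k g := by
  have h : g ∈ Subgroup.closure {S, T} := by
    rw [SpecialLinearGroup.SL2Z_generators]
    trivial
  induction h using Subgroup.closure_induction with
  | mem x hx => exact ⟨1, wd_gn (by rcases hx with rfl | rfl <;> simp [Gn])⟩
  | one => exact ⟨0, wd_one 0⟩
  | mul x y _ _ hx hy => exact ⟨_, wd_mul hx.choose_spec hy.choose_spec⟩
  | inv x _ hx => exact ⟨_, wd_inv hx.choose_spec⟩

theorem ht_list (l : List SL(2, ℤ)) (h : ∀ s ∈ l, Gn s) :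
    Ht (l.prod : SL(2, ℤ)) ≤ 2 * 3 ^ l.length := by
  induction l with
  | nil => simp [Ht]
  | cons s l ih =>
    rw [List.prod_cons, List.length_cons]
    refine (Ht_sl_mul _ _).trans ((Nat.mul_le_mul (h s List.mem_cons_self).ht
      (ih fun t ht => h t (List.mem_cons_of_mem _ ht))).trans (le_of_eq ?_))
    ring

theorem wd_ht {k : ℕ} {w : SL(2, ℤ)} (h : Wd k w) : Ht w ≤ 2 * 3 ^ k := by
  obtain ⟨l, a, b, rfl⟩ := h
  exact (ht_list l a).trans (Nat.mul_le_mul_left _ (Nat.pow_le_pow_right (by norm_num) b))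

theorem wd_fin (k : ℕ) : {w | Wd k w}.Finite := by
  induction k with
  | zero =>
    refine (Set.finite_singleton 1).subset ?_
    rintro _ ⟨l, -, b, rfl⟩
    rw [List.length_eq_zero_iff.1 (Nat.le_zero.1 b)]
    rfl
  | succ k ih =>
    refine ((Set.finite_singleton 1).union
      ((Set.toFinite {S, S⁻¹, T, T⁻¹}).image2 (· * ·) ih)).subset ?_
    rintro _ ⟨l, a, b, rfl⟩
    cases l with
    | nil => exact Or.inl rfl
    | cons s l =>
      exact Or.inr ⟨s, a s List.mem_cons_self, l.prod,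
        ⟨l, fun t ht => a t (List.mem_cons_of_mem _ ht), by simpa using b, rfl⟩, List.prod_cons.symm⟩

theorem short (Γ : Subgroup SL(2, ℤ)) [Γ.FiniteIndex] (n : ℕ) : ∀ l : List SL(2, ℤ),
    l.length = n → (∀ s ∈ l, Gn s) → ∃ γ ∈ Γ, ∃ w, Wd Γ.index w ∧ l.prod = γ * w := by
  induction n using Nat.strong_induction_on with
  | _ n ih =>
    intro l hl a
    by_cases hn : n ≤ Γ.index
    · exact ⟨1, Γ.one_mem, l.prod, ⟨l, a, hl ▸ hn, rfl⟩, (one_mul _).symm⟩
    have key : ∀ i j : ℕ, i < j → j ≤ Γ.index → (l.take j).prod * (l.take i).prod⁻¹ ∈ Γ →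
        ∃ γ ∈ Γ, ∃ w, Wd Γ.index w ∧ l.prod = γ * w := by
      intro i j hij hj hm
      obtain ⟨γ, hγ, w, hw, e⟩ := ih _ (by
        rw [List.length_append, List.length_take, List.length_drop]
        omega) (l.take i ++ l.drop j) rfl fun s hs => (List.mem_append.1 hs).elim
          (fun h => a s (List.mem_of_mem_take h)) fun h => a s (List.mem_of_mem_drop h)
      refine ⟨_, Γ.mul_mem hm hγ, w, hw, ?_⟩
      rw [mul_assoc, ← e, List.prod_append, mul_assoc, inv_mul_cancel_left,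
        List.prod_take_mul_prod_drop]
    haveI := Fintype.ofFinite (SL(2, ℤ) ⧸ Γ)
    obtain ⟨i, j, hij, e⟩ := Fintype.exists_ne_map_eq_of_card_lt
      (fun i : Fin (Γ.index + 1) => (QuotientGroup.mk (l.take i).prod⁻¹ : SL(2, ℤ) ⧸ Γ))
      (by rw [Fintype.card_fin, Subgroup.index, Nat.card_eq_fintype_card]; omega)
    rcases lt_or_gt_of_ne hij with h | h
    · exact key i j h (Nat.le_of_lt_succ j.2) (by simpa using QuotientGroup.eq.1 e.symm)
    · exact key j i h (Nat.le_of_lt_succ i.2) (by simpa using QuotientGroup.eq.1 e)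

theorem short' (Γ : Subgroup SL(2, ℤ)) [Γ.FiniteIndex] (g : SL(2, ℤ)) :
    ∃ γ ∈ Γ, ∃ w, Wd Γ.index w ∧ g = γ * w := by
  obtain ⟨k, l, a, -, rfl⟩ := wd_all g
  exact short Γ _ l rfl a

end Rep

open Rep in
theorem rep : REP := by
  intro Γ _
  refine ⟨short' Γ, fun k w => wd_ht, wd_fin, fun P hP γ hγ => ?_⟩
  have h1 : ∀ q : SL(2, ℤ) ⧸ Γ, ∃ w, Wd Γ.index w ∧ ∀ g : SL(2, ℤ),
      QuotientGroup.mk g⁻¹ = q → g * w⁻¹ ∈ Γ := by
    intro q
    obtain ⟨δ, hδ, w, hw, e⟩ := short' Γ q.out⁻¹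
    refine ⟨w, hw, fun g hg => ?_⟩
    have h2 := QuotientGroup.eq.1 (hg.trans q.out_eq.symm)
    have h3 : g * w⁻¹ = g⁻¹⁻¹ * q.out * δ := by
      rw [← inv_inv q.out, e]
      group
    rw [h3]
    exact Γ.mul_mem h2 hδ
  choose r hr1 hr2 using h1
  have h4 : ∀ δ ∈ Γ, Wd (2 * Γ.index + 1) δ → δ ∈ P := fun δ hδ h => hP δ hδ (wd_ht h)
  have h0 : (r (QuotientGroup.mk 1⁻¹))⁻¹ ∈ P := by
    refine h4 _ (by simpa using hr2 _ 1 rfl) ?_
    have := wd_mul (wd_inv (hr1 (QuotientGroup.mk 1⁻¹))) (wd_one (Γ.index + 1))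
    rwa [mul_one, ← add_assoc, ← two_mul] at this
  have h5 : ∀ l : List SL(2, ℤ), (∀ s ∈ l, Gn s) →
      l.prod * (r (QuotientGroup.mk l.prod⁻¹))⁻¹ ∈ P := by
    intro l
    induction l using List.reverseRecOn with
    | nil => exact fun _ => by simpa using h0
    | append_singleton l s ih =>
      intro a
      rw [List.prod_append, List.prod_singleton]
      have h6 := ih fun t ht => a t (List.mem_append_left _ ht)
      have h7 := Γ.mul_mem (Γ.inv_mem (hr2 _ l.prod rfl)) (hr2 _ (l.prod * s) rfl)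
      have h8 := wd_mul (wd_mul (hr1 (QuotientGroup.mk l.prod⁻¹)) (wd_gn (a s (by simp))))
        (wd_inv (hr1 (QuotientGroup.mk (l.prod * s)⁻¹)))
      rw [add_right_comm, ← two_mul] at h8
      have h9 := P.mul_mem h6 (h4 _ (by simpa [mul_assoc] using h7) h8)
      simpa [mul_assoc] using h9
  obtain ⟨k, l, a, -, rfl⟩ := wd_all γ
  have h10 := h5 l a
  have h11 : (QuotientGroup.mk l.prod⁻¹ : SL(2, ℤ) ⧸ Γ) = QuotientGroup.mk 1⁻¹ :=
    QuotientGroup.eq.2 (by simpa using hγ)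
  rw [h11] at h10
  simpa using P.mul_mem h10 (P.inv_mem h0)

end Vale.Agent.P027M.B3
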