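import Vale.Agent.P027M.B3.Defs

/-! # P027, route M, block B3 : small solutions of a linear system (row B3.SMALL) -/

set_option linter.all false

open Matrix

noncomputable section

namespace Vale.Agent.P027M.B3

theorem small : SMALL := by
  intro R ι ρ _ L k v H hH hL hv hk
  classical
  obtain ⟨s, hs, sp, li⟩ := exists_linearIndependent ℂ (Set.range L)
  obtain ⟨b, hb, sb, tb, lb⟩ := exists_linearIndepOn_id_extension (K := ℂ) (s := s)
    (t := s ∪ Set.range (Pi.basisFun ℂ ι)) li Set.subset_union_left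
  have top : ⊤ ≤ Submodule.span ℂ (Set.range ((↑) : b → ι → ℂ)) := by
    rw [Subtype.range_coe, ← (Pi.basisFun ℂ ι).span_eq, Submodule.span_le]
    exact Set.subset_union_right.trans tb
  let e : ι ≃ b := (Pi.basisFun ℂ ι).indexEquiv (Module.Basis.mk lb top)
  obtain ⟨B, hB⟩ : ∃ B : Matrix ι ι ℂ, ∀ i, B i = (e i).1 := ⟨fun i => (e i).1, fun _ => rfl⟩
  have one : ∀ i j : ι, (Pi.single i 1 : ι → ℂ) j ∈ R ∧ ‖(Pi.single i 1 : ι → ℂ) j‖ ≤ H := by
    intro i j
    rw [Pi.single_apply]
    split_ifs
    · exact ⟨R.one_mem, by rwa [norm_one]⟩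
    · exact ⟨R.zero_mem, by rw [norm_zero]; linarith⟩
  have ent : ∀ i j, B i j ∈ R ∧ ‖B i j‖ ≤ H := by
    intro i j
    rw [hB]
    rcases hb (e i).2 with h | ⟨l, h⟩
    · obtain ⟨r, hr⟩ := hs h
      rw [← hr]
      exact hL r j
    · rw [← h, Pi.basisFun_apply]
      exact one l j
  have d0 : B.det ≠ 0 := by
    have h : LinearIndependent ℂ B.row := by
      have : B.row = ((↑) : b → ι → ℂ) ∘ e := funext hB
      rw [this]
      exact LinearIndependent.comp lb e e.injective
    exact ((isUnit_iff_isUnit_det B).1 (linearIndependent_rows_iff_isUnit.1 h)).ne_zero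
  have kill : ∀ w : ι → ℂ, (∀ x ∈ s, x ⬝ᵥ w = 0) → ∀ r, L r ⬝ᵥ w = 0 := by
    intro w hw r
    have hr : L r ∈ Submodule.span ℂ s := sp ▸ Submodule.subset_span ⟨r, rfl⟩
    generalize L r = x at hr
    induction hr using Submodule.span_induction with
    | mem x hx => exact hw x hx
    | zero => exact zero_dotProduct w
    | add x y _ _ hx hy => rw [add_dotProduct, hx, hy, add_zero]
    | smul a x _ hx => rw [smul_dotProduct, hx, smul_zero]
  obtain ⟨j, hj, hkj⟩ : ∃ j, B j ∉ s ∧ (k ᵥ* B.adjugate) j ≠ 0 := by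
    by_contra h
    push Not at h
    have h1 : k ⬝ᵥ (B.adjugate *ᵥ (B *ᵥ v)) = 0 := by
      rw [dotProduct_mulVec]
      refine Finset.sum_eq_zero fun j _ => ?_
      by_cases hj : B j ∈ s
      · obtain ⟨r, hr⟩ := hs hj
        have : (B *ᵥ v) j = 0 := by
          change B j ⬝ᵥ v = 0
          rw [← hr]
          exact hv r
        rw [this, mul_zero]
      · rw [h j hj, zero_mul]
    rw [mulVec_mulVec, adjugate_mul, smul_mulVec, one_mulVec, dotProduct_smul, smul_eq_mul] at h1
    exact mul_ne_zero d0 hk h1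
  refine ⟨fun i => B.adjugate i j, fun i => ?_, kill _ fun x hx => ?_, hkj⟩
  · have en : ∀ a c, (B.updateRow j (Pi.single i 1)) a c ∈ R ∧
        ‖(B.updateRow j (Pi.single i 1)) a c‖ ≤ H := by
      intro a c
      rw [updateRow_apply]
      split_ifs
      · exact one i c
      · exact ent a c
    simp only [adjugate_apply]
    refine ⟨?_, ?_⟩
    · rw [det_apply']
      exact R.sum_mem fun σ _ => R.mul_mem (intCast_mem R _) (R.prod_mem fun a _ => (en _ _).1)
    · have h := det_le (A := B.updateRow j (Pi.single i 1)) (abv := NormedField.toAbsoluteValue ℂ)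
        (x := H) fun a c => (en a c).2
      refine le_trans h ?_
      rw [nsmul_eq_mul, mul_pow]
      refine mul_le_mul_of_nonneg_right ?_ (pow_nonneg (by linarith) _)
      exact_mod_cast Nat.factorial_le_pow _
  · obtain ⟨i, hi⟩ := e.surjective ⟨x, sb hx⟩
    have hx' : B i = x := by rw [hB, hi]
    have ne : i ≠ j := by
      rintro rfl
      exact hj (hx' ▸ hx)
    have h := congrFun (congrFun (mul_adjugate B) i) j
    rw [Matrix.smul_apply, one_apply_ne ne, smul_zero] at h
    rw [← hx']
    exact h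

end Vale.Agent.P027M.B3
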