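import Vale.Agent.P027M.B3.Defs

/-! # P027, route M, block B3, row SOLV : the eigenform solves the standard system -/

set_option linter.all false

open scoped MatrixGroups
open Complex

noncomputable section

namespace Vale.Agent.P027M.B3

namespace Solv

theorem eq_of {F F' : ℂ → ℂ} {x y : ℕ → ℂ} (h : Ex F x) (h' : Ex F' y) (e : ∀ n, x n = y n)
    (z : ℂ) (hz : 0 < z.im) : F z = F' z := by
  rw [h.2 z hz, h'.2 z hz, funext e]

theorem smul (hQ : QEX) {F : ℂ → ℂ} {x : ℕ → ℂ} (h : Ex F x) (a : ℂ) :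
    Ex (fun z => a * F z) fun n => a * x n := by
  simpa only [ite_self, zero_add] using hQ.2.2.1 _ _ _ _ a (hQ.2.2.2 0) h

theorem coef_r (c : ℕ → ℂ) (s : Bool) (n : ℕ) :
    I ^ n * cf c s n = (if s then I else -I) * cf c s n := by
  unfold cf
  by_cases h : n % 4 = if s then 1 else 3
  · rw [Complex.I_pow_eq_pow_mod, h]
    cases s <;> simp
  · rw [if_neg h, mul_zero, mul_zero]

theorem coef_t {c : ℕ → ℂ} {e b : ℂ} {p : ℕ} (hp : p % 4 = 1 ∨ p % 4 = 3) (s : Bool) (m : ℕ)
    (h : c (p * m) + e * p * (if p ∣ m then c (m / p) else 0) =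
      (if p % 4 = 3 ∧ m % 4 = 3 then 3 else 1) * b * c m) :
    p * cf c s (p * m) + e * (if p ∣ m then cf c s (m / p) else 0) =
      (if p % 4 = 3 ∧ s = true then 3 else 1) * b * cf c (if p % 4 = 1 then s else !s) m := by
  have p0 : (p : ℂ) ≠ 0 := Nat.cast_ne_zero.2 (by omega)
  have e1 : ∀ n, ((p * n) % 4 = if s then 1 else 3) ↔
      n % 4 = if (if p % 4 = 1 then s else !s) then 1 else 3 := by
    intro n
    rw [Nat.mul_mod]
    rcases hp with hp | hp <;> cases s <;> simp [hp] <;> omega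
  have e2 : ∀ n, (n % 4 = if s then 1 else 3) ↔
      (p * n) % 4 = if (if p % 4 = 1 then s else !s) then 1 else 3 := by
    intro n
    rw [Nat.mul_mod]
    rcases hp with hp | hp <;> cases s <;> simp [hp] <;> omega
  unfold cf
  by_cases hc : m % 4 = if (if p % 4 = 1 then s else !s) then 1 else 3
  · have e3 : (p % 4 = 3 ∧ m % 4 = 3) ↔ (p % 4 = 3 ∧ s = true) := by
      rw [hc]
      rcases hp with hp | hp <;> cases s <;> simp [hp]
    have m0 : (m : ℂ) ≠ 0 := Nat.cast_ne_zero.2 (by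
      rintro rfl
      split_ifs at hc <;> omega)
    rw [if_pos ((e1 m).2 hc), if_pos hc, ← if_congr e3 rfl rfl, ← mul_div_assoc _ (c m), ← h]
    by_cases hd : p ∣ m
    · obtain ⟨n, rfl⟩ := hd
      rw [if_pos (dvd_mul_right p n), if_pos (dvd_mul_right p n),
        Nat.mul_div_cancel_left n (by omega : 0 < p), if_pos ((e2 n).2 hc)]
      have n0 : (n : ℂ) ≠ 0 := fun k => m0 (by rw [Nat.cast_mul, k, mul_zero])
      push_cast
      field_simp
    · rw [if_neg hd, if_neg hd, mul_zero, mul_zero, add_zero, add_zero]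
      push_cast
      field_simp
  · rw [if_neg (fun k => hc ((e1 m).1 k)), if_neg hc, mul_zero, mul_zero, zero_add]
    by_cases hd : p ∣ m
    · obtain ⟨n, rfl⟩ := hd
      rw [if_pos (dvd_mul_right p n), Nat.mul_div_cancel_left n (by omega : 0 < p),
        if_neg (fun k => hc ((e2 n).1 k)), mul_zero]
    · rw [if_neg hd, mul_zero]

end Solv

open Solv in
/-- **SOLV** -/
theorem solv (hQ : QEX) (hH : HCO) : SOLV := by
  intro M P Γ δ ε b c hL hE hδ
  have E : ∀ s, Ex (GG c s) (cf c s) := fun s => ⟨hE.conv s, fun _ _ => rfl⟩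
  refine ⟨fun s => ⟨0, fun z hz => ?_⟩, fun p hp _ hd s => ⟨0, fun z hz => ?_⟩,
    fun p hp _ hd s => hE.dia p hp hd _ (hδ p hp hd).1 (hδ p hp hd).2 s, fun p hp _ hd s => ?_⟩
  · rw [add_zero]
    exact eq_of (hH _ _ (E s)).1 (smul hQ (E s) _) (coef_r c s) z hz
  · refine eq_of ((hH _ _ (E s)).2 p hp.pos).1 (hQ.2.2.2 0) (fun n => ?_) z hz
    simp [cf, hE.bad p hp hd n]
  · obtain ⟨k, hk⟩ := hE.dia p hp hd _ (hδ p hp hd).1 (hδ p hp hd).2 s
    have h2 : p % 4 = 1 ∨ p % 4 = 3 := by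
      have h3 := hp.eq_two_or_odd.resolve_left (by
        rintro rfl
        exact hd (Dvd.dvd.trans (by norm_num) hL.four))
      omega
    refine ⟨k, fun z hz => ?_⟩
    have h4 := (hH _ _ (E s)).2 p hp.pos
    have h5 := eq_of (hQ.2.2.1 _ _ _ _ (ε p) h4.1 h4.2) (smul hQ (E _) _)
      (fun m => coef_t h2 s m (hE.hec p hp hd m)) z hz
    have h6 : 0 < ((p : ℂ) * z).im := by
      rw [← Complex.ofReal_natCast, Complex.im_ofReal_mul]
      exact mul_pos (by exact_mod_cast hp.pos) hz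
    rw [hk _ h6, ← h5]
    ring

end Vale.Agent.P027M.B3
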