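import Vale.Agent.P027M.B3.Bas
import Vale.Agent.P027M.B.Hol
import Vale.Agent.P027M.B.Gain
import Vale.Agent.P022.H29.L3.Sturm

/-! # P027, route M, block B3 : the Sturm bound for primitives -/

set_option linter.all false

open scoped MatrixGroups ModularForm PowerSeries
open Complex

noncomputable section

namespace Vale.Agent.P027M.B3

open Vale.Agent.P022.H218.L3

namespace Stu

theorem isOpen_U : IsOpen {z : ℂ | 0 < z.im} := isOpen_lt continuous_const continuous_im

/-- the derivative as a function on the upper half plane -/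
def dv (F : ℂ → ℂ) (τ : UpperHalfPlane) : ℂ := deriv F τ

variable {F : ℂ → ℂ} {Γ : Subgroup SL(2, ℤ)}

theorem dv_hol (hF : DifferentiableOn ℂ F {z | 0 < z.im}) : dv F ∈ Hol := by
  rw [mem_Hol, UpperHalfPlane.mdifferentiable_iff]
  refine (hF.deriv isOpen_U).congr fun z hz => ?_
  simp only [Function.comp, dv, UpperHalfPlane.ofComplex_apply_of_im_pos hz]

theorem dv_slash (hF : DifferentiableOn ℂ F {z | 0 < z.im}) (σ : SL(2, ℤ)) (τ : UpperHalfPlane) :
    (dv F ∣[(2 : ℤ)] σ) τ = deriv (fun z => F (mob σ z)) τ := by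
  have h1 := (hF.differentiableAt (isOpen_U.mem_nhds (mob_sl_im σ τ.2))).hasDerivAt
  have h2 := (h1.comp (τ : ℂ) (mob_deriv (sl_pos σ) τ.2)).deriv
  rw [show (fun z => F (mob σ z)) = F ∘ mob σ from rfl, h2, ModularForm.SL_slash_apply, dv,
    ← mob_smul, ModularGroup.denom_apply, σ.det_coe, Int.cast_one, one_div, zpow_neg, zpow_ofNat]

theorem dv_isMF (h : MP Γ F) : IsMF Γ 2 (dv F) := by
  refine ⟨dv_hol h.hol, fun γ hγ => funext fun τ => ?_, fun σ => ?_⟩
  · rw [dv_slash h.hol, dv, ← deriv_add_const (f := F) (pd F γ)]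
    refine Filter.EventuallyEq.deriv_eq ?_
    filter_upwards [isOpen_U.mem_nhds τ.2] with z hz using h.per γ hγ z hz
  · obtain ⟨c, C, A, hC⟩ := h.gro σ
    rw [UpperHalfPlane.isBoundedAtImInfty_iff]
    refine ⟨C / 1 + ‖c‖, max A 0 + 2, fun τ hτ => ?_⟩
    have hG : DifferentiableOn ℂ (fun z => F (mob σ z) - c * z) {z | 0 < z.im} :=
      (hol_comp h.hol (sl_pos σ)).sub (by fun_prop)
    have hb : ∀ z ∈ Metric.closedBall (τ : ℂ) 1, max A 0 + 1 ≤ z.im := fun z hz => by
      have k := (abs_im_le_norm (z - τ)).trans (mem_closedBall_iff_norm.1 hz)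
      rw [sub_im, UpperHalfPlane.coe_im] at k
      linarith [(abs_le.1 k).1]
    have hp : ∀ z ∈ Metric.closedBall (τ : ℂ) 1, 0 < z.im := fun z hz => by
      linarith [hb z hz, le_max_right A 0]
    have k := norm_deriv_le_of_forall_mem_sphere_norm_le (c := (τ : ℂ)) one_pos
      (hG.diffContOnCl_ball hp) (C := C) fun z hz =>
        hC z (hp z (Metric.sphere_subset_closedBall hz))
          (by linarith [hb z (Metric.sphere_subset_closedBall hz), le_max_left A 0])
    have d1 := ((hol_comp h.hol (sl_pos σ)).differentiableAt (isOpen_U.mem_nhds τ.2)).hasDerivAt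
    have d2 : HasDerivAt (fun z => F (mob σ z) - c * z)
        (deriv (fun z => F (mob σ z)) τ - c * 1) τ := d1.sub ((hasDerivAt_id _).const_mul c)
    rw [d2.deriv, mul_one] at k
    rw [dv_slash h.hol, ← sub_add_cancel (deriv _ _) c]
    exact (norm_add_le _ _).trans (by linarith)

theorem qq_lt {z : ℂ} (hz : 0 < z.im) : ‖B.qq z‖ < 1 := by
  rw [B.Gain.norm_qq, Real.exp_lt_one_iff]
  nlinarith [Real.pi_pos]

theorem qq_eq (z : ℂ) : Function.Periodic.qParam 1 z = B.qq z := by
  simp [Function.Periodic.qParam, B.qq]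

theorem deriv_ex {x : ℕ → ℂ} (h : Ex F x) {z : ℂ} (hz : 0 < z.im) :
    deriv F z = B.ev (PowerSeries.derivative ℂ (PowerSeries.mk x)) (B.qq z) *
      (B.qq z * (2 * Real.pi * I)) := by
  have d1 : HasDerivAt B.qq (B.qq z * (2 * Real.pi * I)) z := by
    have := ((hasDerivAt_id z).const_mul (2 * Real.pi * I)).cexp
    rw [mul_one] at this
    exact this
  rw [← (((B.Hol.hol.diff 1 _ h.1).2 _ (qq_lt hz)).comp z d1).deriv]
  refine Filter.EventuallyEq.deriv_eq ?_
  filter_upwards [isOpen_U.mem_nhds hz] with w hw using h.2 w hw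

theorem hasSum_ev {f : ℂ⟦X⟧} (h : B.Conv 1 f) {q : ℂ} (hq : ‖q‖ < 1) :
    HasSum (fun n => PowerSeries.coeff n f * q ^ n) (B.ev f q) := by
  refine Summable.hasSum (Summable.of_norm ?_)
  simpa using h _ (norm_nonneg q) hq

end Stu

open Stu

theorem stu : STU := by
  intro Γ _ F x h hx h0 z hz
  have hD := (B.Hol.hol.diff 1 _ hx.1).1
  have hs : ∀ τ : UpperHalfPlane, HasSum (fun n : ℕ => (2 * Real.pi * I * n * x n) *
      Function.Periodic.qParam 1 τ ^ n) (dv F τ) := fun τ => by
    rw [← hasSum_nat_add_iff' 1, qq_eq, dv, deriv_ex hx τ.2]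
    simp only [Finset.sum_range_one, Nat.cast_zero, mul_zero, zero_mul, sub_zero]
    refine ((hasSum_ev hD (qq_lt τ.2)).mul_right _).congr_fun fun n => ?_
    rw [PowerSeries.coeff_derivative, PowerSeries.coeff_mk]
    push_cast
    ring
  have h1 : dv F = 0 := Vale.Agent.P022.H29.L3.sturm (dv_isMF h) hs (m := Γ.index + 1)
    (fun n hn => by
      rcases Nat.eq_zero_or_pos n with rfl | k
      · simp
      · rw [h0 n k (by omega), mul_zero]) (by push_cast; omega)
  have h2 : PowerSeries.X * PowerSeries.derivative ℂ (PowerSeries.mk x) = 0 := by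
    have k := B.Hol.hol.mul 1 _ _ (B.Hol.hol.X 1).1 hD
    refine B.Hol.hol.inj 1 _ one_pos k.1 fun q hq => ?_
    rw [k.2 q hq, (B.Hol.hol.X 1).2]
    rcases eq_or_ne q 0 with rfl | q0
    · rw [zero_mul]
    have hi := Function.Periodic.im_invQParam_pos_of_norm_lt_one one_pos hq q0
    have e := deriv_ex hx hi
    rw [← qq_eq, Function.Periodic.qParam_right_inv one_ne_zero q0] at e
    have e' : deriv F (Function.Periodic.invQParam 1 q) = 0 := congrFun h1 ⟨_, hi⟩
    rw [e'] at e
    rw [(mul_eq_zero.1 e.symm).resolve_right (mul_ne_zero q0 two_pi_I_ne_zero), mul_zero]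
  have h3 : ∀ n, n ≠ 0 → x n = 0 := fun n hn => by
    obtain ⟨m, rfl⟩ := Nat.exists_eq_succ_of_ne_zero hn
    have k := congrArg (PowerSeries.coeff m)
      ((mul_eq_zero.1 h2).resolve_left PowerSeries.X_ne_zero)
    rw [PowerSeries.coeff_derivative, PowerSeries.coeff_mk, map_zero] at k
    exact (mul_eq_zero.1 k).resolve_right (Nat.cast_add_one_ne_zero m)
  rw [hx.2 z hz, Ser, B.ev, tsum_eq_single 0 fun n hn => by
    rw [PowerSeries.coeff_mk, h3 n hn, zero_mul]]
  simp

end Vale.Agent.P027M.B3
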