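import Vale.Agent.P027M.B3.Bas

/-! # P027, route M, block B3 : row TRA -/

set_option linter.all false

open scoped MatrixGroups ComplexConjugate
open Complex

noncomputable section

namespace Vale.Agent.P027M.B3

namespace Tra

theorem tri {B : M2} (hB : 0 < B.det) : ∃ (σ : SL(2, ℤ)) (a b d : ℤ), 0 < a ∧ 0 < d ∧
    B = (σ : M2) * !![a, b; 0, d] := by
  rw [Matrix.det_fin_two] at hB
  have g0 : 0 < Int.gcd (B 0 0) (B 1 0) := by
    rw [Int.gcd_pos_iff]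
    by_contra h
    push Not at h
    rw [h.1, h.2] at hB
    simp at hB
  obtain ⟨p, q, hc, hp, hq⟩ := Int.exists_gcd_one g0
  obtain ⟨x, y, e⟩ := Int.isCoprime_iff_gcd_eq_one.2 hc
  generalize (Int.gcd (B 0 0) (B 1 0) : ℕ) = g at g0 hp hq
  have g1 : (0 : ℤ) < g := by exact_mod_cast g0
  refine ⟨⟨!![p, -y; q, x], by rw [Matrix.det_fin_two_of]; linarith⟩, g,
    x * B 0 1 + y * B 1 1, p * B 1 1 - q * B 0 1, g1, ?_, ?_⟩
  · rw [hp, hq] at hB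
    refine pos_of_mul_pos_left (a := (p * B 1 1 - q * B 0 1)) (b := (g : ℤ)) ?_ g1.le
    linarith
  · ext i j
    fin_cases i <;> fin_cases j <;> simp [Matrix.mul_apply, Fin.sum_univ_two]
    · exact hp
    · linear_combination (-B 0 1) * e
    · exact hq
    · linear_combination (-B 1 1) * e

theorem comp {A : M2} (hA : 0 < A.det) (σ : SL(2, ℤ)) : ∃ (σ' : SL(2, ℤ)) (a b : ℂ) (d : ℝ),
    0 < d ∧ ∀ z : ℂ, 0 < z.im → mob A (mob σ z) = mob σ' (a * z + b) ∧ z.im ≤ d * (a * z + b).im := by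
  obtain ⟨σ', a, b, d, ha, hd, e⟩ := tri (B := A * (σ : M2))
    (by rw [Matrix.det_mul, σ.det_coe, mul_one]; exact hA)
  have hd' : (0 : ℝ) < d := by exact_mod_cast hd
  have ha' : (1 : ℝ) ≤ a := by exact_mod_cast ha
  refine ⟨σ', ((a / d : ℝ) : ℂ), ((b / d : ℝ) : ℂ), d, hd', fun z hz => ⟨?_, ?_⟩⟩
  · rw [← mob_mul A (sl_pos σ) hz, e, mob_mul _ (by
      rw [Matrix.det_fin_two_of, mul_zero, sub_zero]
      exact mul_pos ha hd) hz]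
    congr 1
    simp [mob]
    ring
  · rw [add_im, im_ofReal_mul, ofReal_im, add_zero, ← mul_assoc, mul_div_cancel₀ _ hd'.ne']
    exact le_mul_of_one_le_left hz.le ha'

theorem one {Γ : Subgroup SL(2, ℤ)} {F : ℂ → ℂ} {A : M2} (hA : 0 < A.det) (σ : SL(2, ℤ))
    (P : ℂ → Prop) (hP : ∀ c a, P c → P (c * a))
    (h : ∀ σ : SL(2, ℤ), ∃ (c : ℂ) (C A : ℝ), P c ∧ ∀ z : ℂ, 0 < z.im → A ≤ z.im →
      ‖F (mob σ z) - c * z‖ ≤ C) :
    ∃ (c : ℂ) (C B : ℝ), P c ∧ ∀ z : ℂ, 0 < z.im → B ≤ z.im →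
      ‖F (mob A (mob σ z)) - c * z‖ ≤ C := by
  obtain ⟨σ', a, b, d, hd, e⟩ := comp hA σ
  obtain ⟨c, C, B, hc, x⟩ := h σ'
  refine ⟨c * a, C + ‖c * b‖, d * B, hP _ _ hc, fun z hz hB => ?_⟩
  obtain ⟨e1, e2⟩ := e z hz
  rw [e1, show F (mob σ' (a * z + b)) - c * a * z =
    F (mob σ' (a * z + b)) - c * (a * z + b) + c * b by ring]
  exact (norm_add_le _ _).trans (add_le_add (x _ (pos_of_mul_pos_right (hz.trans_le e2) hd.le)
    (le_of_mul_le_mul_left (hB.trans e2) hd)) le_rfl)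

theorem all {Γ : Subgroup SL(2, ℤ)} {F : ℂ → ℂ} {k : ℕ} {α : Fin k → M2} (hA : ∀ i, 0 < (α i).det)
    (σ : SL(2, ℤ)) (P : ℂ → Prop) (hP : ∀ c a, P c → P (c * a))
    (h : ∀ σ : SL(2, ℤ), ∃ (c : ℂ) (C A : ℝ), P c ∧ ∀ z : ℂ, 0 < z.im → A ≤ z.im →
      ‖F (mob σ z) - c * z‖ ≤ C) :
    ∃ (c : Fin k → ℂ) (C B : ℝ), (∀ i, P (c i)) ∧ ∀ z : ℂ, 0 < z.im → B ≤ z.im →
      ‖∑ i, F (mob (α i) (mob σ z)) - (∑ i, c i) * z‖ ≤ C := by
  choose c C B hc x using fun i => one (Γ := Γ) (hA i) σ P hP h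
  refine ⟨c, ∑ i, C i, ∑ i, |B i|, hc, fun z hz hB => ?_⟩
  rw [Finset.sum_mul, ← Finset.sum_sub_distrib]
  refine (norm_sum_le _ _).trans (Finset.sum_le_sum fun i _ => x i z hz ?_)
  exact ((le_abs_self _).trans (Finset.single_le_sum (f := fun i => |B i|)
    (fun _ _ => abs_nonneg _) (Finset.mem_univ i))).trans hB

theorem key {Γ : Subgroup SL(2, ℤ)} {F : ℂ → ℂ} {k : ℕ} {α : Fin k → M2} (hA : ∀ i, 0 < (α i).det)
    (h : MP Γ F) {γ : SL(2, ℤ)} {π : Equiv.Perm (Fin k)} {g : Fin k → SL(2, ℤ)}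
    (e : ∀ i, g i ∈ Γ ∧ α i * (γ : M2) = (g i : M2) * α (π i)) {z : ℂ} (hz : 0 < z.im) :
    ∑ i, F (mob (α i) (mob γ z)) = ∑ i, F (mob (α i) z) + ∑ i, pd F (g i) := by
  rw [← Equiv.sum_comp π fun i => F (mob (α i) z), ← Finset.sum_add_distrib]
  refine Finset.sum_congr rfl fun i _ => ?_
  rw [← mob_mul _ (sl_pos γ) hz, (e i).2, mob_mul _ (hA _) hz,
    h.per _ (e i).1 _ (mob_im (hA _) hz)]

end Tra

theorem tra : TRA := by
  intro Γ k α F hc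
  have p : MP Γ F → ∀ (γ : SL(2, ℤ)) (π : Equiv.Perm (Fin k)) (g : Fin k → SL(2, ℤ)),
      (∀ i, g i ∈ Γ ∧ α i * (γ : M2) = (g i : M2) * α (π i)) →
      pd (fun z => ∑ i, F (mob (α i) z)) γ = ∑ i, pd F (g i) := fun h γ π g e => by
    rw [pd, Tra.key hc.1 h e (by simp), add_sub_cancel_left]
  have m : MP Γ F → MP Γ fun z => ∑ i, F (mob (α i) z) := fun h => by
    refine ⟨DifferentiableOn.fun_sum fun i _ => hol_comp h.hol (hc.1 i), fun γ hγ z hz => ?_,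
      fun σ => ?_⟩
    · obtain ⟨π, g, e⟩ := hc.2 γ hγ
      rw [p h γ π g e, Tra.key hc.1 h e hz]
    · obtain ⟨c, C, B, -, x⟩ := Tra.all (Γ := Γ) hc.1 σ (fun _ => True) (fun _ _ _ => trivial)
        fun σ => let ⟨c, C, A, x⟩ := h.gro σ; ⟨c, C, A, trivial, x⟩
      exact ⟨_, C, B, x⟩
  refine ⟨m, fun h => ⟨(m h.mp).hol, (m h.mp).per, fun σ => ?_⟩, p⟩
  obtain ⟨c, C, B, c0, x⟩ := Tra.all (Γ := Γ) (F := F) hc.1 σ (fun c => c = 0)
    (fun _ _ h => by rw [h, zero_mul])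
    fun σ => let ⟨C, A, x⟩ := h.bdd σ; ⟨0, C, A, rfl, by simpa using x⟩
  refine ⟨C, B, fun z hz hB => ?_⟩
  have := x z hz hB
  rwa [Finset.sum_eq_zero fun i _ => c0 i, zero_mul, sub_zero] at this

end Vale.Agent.P027M.B3
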