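import Vale.Agent.P027M.B3.Defs

/-! # P027, route M, block B3, row WORD: the length of a word in the free generators -/

set_option linter.all false

open scoped MatrixGroups

noncomputable section

namespace Vale.Agent.P027M.B3

namespace Word

theorem mul_ent (g h : SL(2, ℤ)) (i j : Fin 2) : (g * h) i j = g i 0 * h 0 j + g i 1 * h 1 j := by
  simp [Matrix.mul_apply, Fin.sum_univ_two]

theorem det (g : SL(2, ℤ)) : g 0 0 * g 1 1 - g 0 1 * g 1 0 = 1 := by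
  have := g.det_coe
  rwa [Matrix.det_fin_two] at this

theorem T_ent : ModularGroup.T 0 0 = 1 ∧ ModularGroup.T 0 1 = 1 ∧ ModularGroup.T 1 0 = 0 ∧
    ModularGroup.T 1 1 = 1 := ⟨rfl, rfl, rfl, rfl⟩

theorem V_ent : V4 0 0 = 1 ∧ V4 0 1 = 0 ∧ V4 1 0 = 4 ∧ V4 1 1 = 1 := ⟨rfl, rfl, rfl, rfl⟩

theorem Ti_ent : ModularGroup.T⁻¹ 0 0 = 1 ∧ ModularGroup.T⁻¹ 0 1 = -1 ∧ ModularGroup.T⁻¹ 1 0 = 0 ∧
    ModularGroup.T⁻¹ 1 1 = 1 := by
  simp [Matrix.SpecialLinearGroup.coe_inv, Matrix.adjugate_fin_two, T_ent]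

theorem Vi_ent : V4⁻¹ 0 0 = 1 ∧ V4⁻¹ 0 1 = 0 ∧ V4⁻¹ 1 0 = -4 ∧ V4⁻¹ 1 1 = 1 := by
  simp [Matrix.SpecialLinearGroup.coe_inv, Matrix.adjugate_fin_two, V_ent]

/-- the letters -/
def Le (s : SL(2, ℤ)) : Prop := s = V4 ∨ s = V4⁻¹ ∨ s = ModularGroup.T ∨ s = ModularGroup.T⁻¹

/-- a word of length at most `n` -/
def W (n : ℕ) (g : SL(2, ℤ)) : Prop :=
  ∃ l : List SL(2, ℤ), (∀ s ∈ l, Le s) ∧ l.length ≤ n ∧ (l.prod = g ∨ l.prod = -g)

theorem W.step {n m : ℕ} {g u : SL(2, ℤ)} (h : W n (g * u)) (hu : Le u⁻¹) (e : n + 1 ≤ m) :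
    W m g := by
  obtain ⟨l, h1, h2, h3⟩ := h
  refine ⟨l ++ [u⁻¹], fun s hs => ?_, by rw [List.length_append, List.length_singleton]; omega, ?_⟩
  · rcases List.mem_append.1 hs with h | h
    · exact h1 s h
    · rwa [List.mem_singleton.1 h]
  · rw [List.prod_append, List.prod_singleton]
    refine h3.imp (fun h => ?_) fun h => ?_
    · rw [h, mul_inv_cancel_right]
    · rw [h, neg_mul, mul_inv_cancel_right]

theorem tpow (b : ℤ) : ∃ l : List SL(2, ℤ), (∀ s ∈ l, Le s) ∧ l.length = b.natAbs ∧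
    l.prod = ModularGroup.T ^ b := by
  obtain ⟨n, rfl | rfl⟩ := b.eq_nat_or_neg
  · refine ⟨List.replicate n ModularGroup.T, fun s hs => ?_, by simp, by simp⟩
    exact Or.inr (Or.inr (Or.inl (List.eq_of_mem_replicate hs)))
  · refine ⟨List.replicate n ModularGroup.T⁻¹, fun s hs => ?_, by simp, by simp⟩
    exact Or.inr (Or.inr (Or.inr (List.eq_of_mem_replicate hs)))

theorem bnd {b b' d d' e : ℤ} {k : ℕ} (he : e.natAbs = 1) (h : b' * d = e + b * d') (hd : d ≠ 0)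
    (hd' : d' ≠ 0) (hb : b.natAbs ≤ k * d.natAbs) : b'.natAbs ≤ (k + 1) * d'.natAbs := by
  have h1 : b'.natAbs * d.natAbs ≤ 1 + b.natAbs * d'.natAbs := by
    rw [← Int.natAbs_mul, ← Int.natAbs_mul, h, ← he]
    exact Int.natAbs_add_le _ _
  have h2 := Int.natAbs_pos.2 hd
  have h3 := Int.natAbs_pos.2 hd'
  have h4 := Nat.mul_le_mul_right d'.natAbs hb
  refine Nat.le_of_mul_le_mul_right ?_ h2
  nlinarith [Nat.mul_le_mul h2 h3]

theorem odd (g : SL(2, ℤ)) (h : (4 : ℤ) ∣ g 1 0) : g 1 1 % 2 = 1 := by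
  obtain ⟨k, hk⟩ := h
  have d := det g
  rcases Int.emod_two_eq_zero_or_one (g 1 1) with e | e
  · obtain ⟨l, hl⟩ := Int.dvd_of_emod_eq_zero e
    have : 2 * (g 0 0 * l - 2 * (g 0 1 * k)) = 1 := by
      rw [hk, hl] at d
      linear_combination d
    omega
  · exact e

theorem gen (g : SL(2, ℤ)) (h : (4 : ℤ) ∣ g 1 0) (k : ℕ)
    (hb : (g 0 1).natAbs ≤ k * (g 1 1).natAbs) :
    W (k + 2 * ((g 1 0).natAbs + (g 1 1).natAbs)) g := by
  induction hn : (g 1 0).natAbs + (g 1 1).natAbs using Nat.strong_induction_on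
    generalizing g k with
  | _ n ih =>
  have st : ∀ u, Le u⁻¹ → (4 : ℤ) ∣ (g * u) 1 0 →
      ((g * u) 1 0).natAbs + ((g * u) 1 1).natAbs < n →
      ((g * u) 0 1).natAbs ≤ (k + 1) * ((g * u) 1 1).natAbs → W (k + 2 * n) g :=
    fun u hu a b c => (ih _ b (g * u) a (k + 1) c rfl).step hu (by omega)
  have d := det g
  by_cases c0 : g 1 0 = 0
  · have z : ∀ u : SL(2, ℤ), u 1 0 = 0 → u 0 0 = 1 → u 1 1 = 1 → ModularGroup.T ^ u 0 1 = u :=
      fun u a b c => by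
        refine Matrix.SpecialLinearGroup.ext _ _ fun i j => ?_
        rw [ModularGroup.coe_T_zpow]
        fin_cases i <;> fin_cases j <;> simp [a, b, c]
    rw [c0, mul_zero, sub_zero] at d
    rcases Int.eq_one_or_neg_one_of_mul_eq_one' d with e | e
    · obtain ⟨l, h1, h2, h3⟩ := tpow (g 0 1)
      rw [e.2] at hb
      exact ⟨l, h1, by rw [h2]; simp at hb; omega, Or.inl (h3.trans (z g c0 e.1 e.2))⟩
    · obtain ⟨l, h1, h2, h3⟩ := tpow ((-g) 0 1)
      rw [e.2] at hb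
      exact ⟨l, h1, by rw [h2]; simp at hb ⊢; omega,
        Or.inr (h3.trans (z _ (by simp [c0]) (by simp [e.1]) (by simp [e.2])))⟩
  have od := odd g h
  have hb' : (g 0 1).natAbs ≤ (k + 1) * (g 1 1).natAbs :=
    hb.trans (Nat.mul_le_mul_right _ (Nat.le_succ k))
  obtain ⟨m, hm⟩ := h
  by_cases a : (g 1 0 + g 1 1).natAbs < (g 1 1).natAbs
  · refine st ModularGroup.T (Or.inr (Or.inr (Or.inr rfl))) ?_ ?_ ?_ <;>
      simp only [mul_ent, T_ent]
    · omega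
    · omega
    · exact bnd (e := 1) rfl (by linear_combination d) (by omega) (by omega) hb
  by_cases b : (g 1 1 - g 1 0).natAbs < (g 1 1).natAbs
  · refine st ModularGroup.T⁻¹ (Or.inr (Or.inr (Or.inl (inv_inv _)))) ?_ ?_ ?_ <;>
      simp only [mul_ent, Ti_ent]
    · omega
    · omega
    · exact bnd (e := -1) rfl (by linear_combination -d) (by omega) (by omega) hb
  by_cases c : (g 1 0 + 4 * g 1 1).natAbs < (g 1 0).natAbs
  · refine st V4 (Or.inr (Or.inl rfl)) ?_ ?_ ?_ <;> simp only [mul_ent, V_ent]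
    · omega
    · omega
    · simpa using hb'
  · refine st V4⁻¹ (Or.inl (inv_inv _)) ?_ ?_ ?_ <;> simp only [mul_ent, Vi_ent]
    · omega
    · omega
    · simpa using hb'

end Word

theorem word : WORD := by
  intro g h
  have od := Word.odd g h
  obtain ⟨l, h1, h2, h3⟩ := Word.gen g h (g 0 1).natAbs
    (Nat.le_mul_of_pos_right _ (Int.natAbs_pos.2 (by omega)))
  refine ⟨l, h1, h2.trans ?_, h3⟩
  unfold Ht
  show _ ≤ 2 * ((g 0 0).natAbs + (g 0 1).natAbs + (g 1 0).natAbs + (g 1 1).natAbs)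
  omega

end Vale.Agent.P027M.B3
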