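import Vale.Agent.P027M.B3.Bnd
import Vale.Agent.P027M.B3.Cls
import Vale.Agent.P027M.B3.Coc
import Vale.Agent.P027M.B3.Coef
import Vale.Agent.P027M.B3.Esu
import Vale.Agent.P027M.B3.Grow
import Vale.Agent.P027M.B3.Har
import Vale.Agent.P027M.B3.Hco
import Vale.Agent.P027M.B3.Hkt
import Vale.Agent.P027M.B3.Idx
import Vale.Agent.P027M.B3.Lat
import Vale.Agent.P027M.B3.Qex
import Vale.Agent.P027M.B3.Refl
import Vale.Agent.P027M.B3.Rep
import Vale.Agent.P027M.B3.Small
import Vale.Agent.P027M.B3.Solv
import Vale.Agent.P027M.B3.Span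
import Vale.Agent.P027M.B3.Stu
import Vale.Agent.P027M.B3.Tra
import Vale.Agent.P027M.B3.Word

/-! # P027, route M, block B3 : the rows without hypotheses -/

namespace Vale.Agent.P027M.B3

theorem lat0 : LAT := lat rep (coc word) small tra (esu har)

theorem solv0 : SOLV := solv qex hco

theorem cls0 : CLS := cls qex hco stu solv0

theorem bnd0 : BND := bnd (grow coef) idx

theorem span0 : SPAN := span refl idx har coef qex

theorem rst0 : RST := rst refl hku solv0

end Vale.Agent.P027M.B3
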