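import Vale.Agent.P027M.B3.Defs

/-! # P027, route M, block B3 : row BC -/

set_option linter.all false

open Complex Metric

noncomputable section

namespace Vale.Agent.P027M.B3

theorem Bc.step {G : ℂ → ℂ} {m : ℝ} (hG : DifferentiableOn ℂ G {z | 0 < z.im})
    (hm : ∀ z : ℂ, 1 / 10 ≤ z.im → z.im ≤ 2 → |z.re| ≤ 2 → (G z).re ≤ m) {c w : ℂ}
    (h1 : |c.re| ≤ 1 / 2) (h2 : 6 / 7 ≤ c.im) (h3 : c.im ≤ 1) (hw : ‖w‖ ≤ 3 / 5) :
    ‖G (c + w) - G c‖ ≤ 9 * (m - (G c).re) := by
  have hb : ∀ u ∈ ball (0 : ℂ) (3 / 4), 1 / 10 ≤ (c + u).im ∧ (c + u).im ≤ 2 ∧ |(c + u).re| ≤ 2 := by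
    intro u hu
    have hu' := mem_ball_zero_iff.1 hu
    have a1 := abs_le.1 ((abs_im_le_norm u).trans hu'.le)
    have a2 := abs_le.1 ((abs_re_le_norm u).trans hu'.le)
    have a3 := abs_le.1 h1
    rw [add_im, add_re, abs_le]
    refine ⟨?_, ?_, ?_, ?_⟩ <;> linarith [a1.1, a1.2, a2.1, a2.2, a3.1, a3.2]
  have h0 : 0 ≤ m - (G c).re :=
    sub_nonneg.2 (hm c (by linarith) (by linarith) (h1.trans (by norm_num)))
  have hd : DifferentiableOn ℂ (fun u => G (c + u) - G c) (ball 0 (3 / 4)) := by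
    refine DifferentiableOn.sub_const (hG.comp (f := fun u => c + u) (by fun_prop) ?_) _
    intro u hu
    have := (hb u hu).1
    show 0 < (c + u).im
    linarith
  refine le_of_forall_pos_le_add fun ε hε => ?_
  have key := borelCaratheodory_zero (M := m - (G c).re + ε / 8) (by positivity) hd
    (fun u hu => by
      have := hm _ (hb u hu).1 (hb u hu).2.1 (hb u hu).2.2
      show (G (c + u) - G c).re ≤ _
      rw [sub_re]
      linarith) (by norm_num) (z := w) (mem_ball_zero_iff.2 (by linarith)) (by simp)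
  refine key.trans ?_
  rw [div_le_iff₀ (by linarith)]
  nlinarith [norm_nonneg w]

theorem bc : BC := by
  intro G m hG hm z h1 h2 h3
  have hz : ‖z - I‖ ≤ 3 / 5 := by
    rw [← abs_of_nonneg (norm_nonneg (z - I)), ← abs_of_nonneg (by norm_num : (0 : ℝ) ≤ 3 / 5),
      ← sq_le_sq, Complex.sq_norm, normSq_apply]
    have := abs_le.1 h1
    simp only [sub_re, I_re, sub_zero, sub_im, I_im]
    nlinarith [this.1, this.2]
  constructor
  · have := Bc.step hG hm (c := I) (w := z - I) (by simp) (by norm_num) (by simp) hz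
    rwa [add_sub_cancel] at this
  · have := Bc.step hG hm (c := z) (w := I - z) h1 h2 h3 (by rwa [norm_sub_rev])
    rwa [add_sub_cancel, norm_sub_rev] at this

end Vale.Agent.P027M.B3
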