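import Vale.Agent.P027M.B3.Defs

/-! # P027, route M, block B3 : the bound for the eigenvalues (row B3.BND) -/

set_option linter.all false

open scoped MatrixGroups ComplexConjugate ModularForm
open Complex

noncomputable section

namespace Vale.Agent.P027M.B3

namespace BndAux

/-- the odd coefficients grow at most quadratically -/
theorem odd_le (hG : GROW) (hI : IDX) {M : ℕ} {Γ : Subgroup SL(2, ℤ)} {ε b c : ℕ → ℂ}
    (hL : Lvl M Γ) (h : Eig M Γ ε b c) :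
    ∃ C : ℝ, ∀ n : ℕ, n % 2 = 1 → ‖c n‖ ≤ C * (n : ℝ) ^ 2 := by
  haveI : Γ.FiniteIndex := (hI M Γ hL).1
  obtain ⟨C₁, h₁⟩ := hG Γ (GG c true) (cf c true) (h.cp true) ⟨h.conv true, fun _ _ => rfl⟩
  obtain ⟨C₂, h₂⟩ := hG Γ (GG c false) (cf c false) (h.cp false) ⟨h.conv false, fun _ _ => rfl⟩
  refine ⟨max C₁ C₂, fun n hn => ?_⟩
  have hn1 : 1 ≤ n := by omega
  have hnp : (0 : ℝ) < n := by exact_mod_cast hn1
  have key : ∀ C : ℝ, ‖c n / (n : ℂ)‖ ≤ C * n → C ≤ max C₁ C₂ →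
      ‖c n‖ ≤ max C₁ C₂ * (n : ℝ) ^ 2 := by
    intro C hC hle
    rw [norm_div, Complex.norm_natCast, div_le_iff₀ hnp] at hC
    have : C * n * n ≤ max C₁ C₂ * (n : ℝ) ^ 2 := by
      rw [mul_assoc, ← sq]
      exact mul_le_mul_of_nonneg_right hle (by positivity)
    linarith
  rcases (by omega : n % 4 = 1 ∨ n % 4 = 3) with h4 | h4
  · have := h₁ n hn1
    have e : cf c true n = c n / n := by simp [cf, h4]
    rw [e] at this
    exact key C₁ this (le_max_left _ _)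
  · have := h₂ n hn1
    have e : cf c false n = c n / n := by simp [cf, h4]
    rw [e] at this
    exact key C₂ this (le_max_right _ _)

/-- a large eigenvalue forces fast growth along the powers of `p` -/
theorem step {M : ℕ} {Γ : Subgroup SL(2, ℤ)} {ε b c : ℕ → ℂ} (h : Eig M Γ ε b c) {p : ℕ}
    (hp : p.Prime) (hM : ¬ p ∣ M) (hb : 3 * (p : ℝ) ^ 2 < ‖b p‖) (k : ℕ) :
    2 * (p : ℝ) ^ 2 * ‖c (p ^ k)‖ ≤ ‖c (p ^ (k + 1))‖ := by
  have hp1 : (1 : ℝ) ≤ p := by exact_mod_cast hp.one_lt.le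
  induction k with
  | zero =>
    have e := h.hec p hp hM 1
    have hnd : ¬ p ∣ 1 := by
      intro hd
      exact hp.one_lt.ne' (Nat.dvd_one.mp hd)
    have h13 : ¬ (p % 4 = 3 ∧ 1 % 4 = 3) := by omega
    rw [if_neg hnd, if_neg h13, h.one] at e
    have e' : c p = b p := by simpa using e
    rw [pow_zero, zero_add, pow_one, h.one, e', norm_one]
    nlinarith [sq_nonneg (p : ℝ)]
  | succ k ih =>
    have e := h.hec p hp hM (p ^ (k + 1))
    have hd : p ∣ p ^ (k + 1) := dvd_pow_self p (Nat.succ_ne_zero k)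
    have hq : p ^ (k + 1) / p = p ^ k := by
      rw [pow_succ]
      exact Nat.mul_div_cancel _ hp.pos
    have hm : p * p ^ (k + 1) = p ^ (k + 1 + 1) := by ring
    rw [if_pos hd, hq, hm] at e
    have ht : (1 : ℝ) ≤ ‖(if p % 4 = 3 ∧ p ^ (k + 1) % 4 = 3 then 3 else 1 : ℂ)‖ := by
      split_ifs
      · simp
      · simp
    have hA : 0 ≤ ‖c (p ^ (k + 1))‖ := norm_nonneg _
    have hB : 0 ≤ ‖c (p ^ k)‖ := norm_nonneg _
    have h1 : 3 * (p : ℝ) ^ 2 * ‖c (p ^ (k + 1))‖ ≤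
        ‖(if p % 4 = 3 ∧ p ^ (k + 1) % 4 = 3 then 3 else 1 : ℂ) * b p * c (p ^ (k + 1))‖ := by
      rw [norm_mul, norm_mul]
      refine mul_le_mul_of_nonneg_right ?_ hA
      nlinarith [norm_nonneg (b p)]
    have h2 : ‖ε p * p * c (p ^ k)‖ ≤ p * ‖c (p ^ k)‖ := by
      rw [norm_mul, norm_mul, Complex.norm_natCast]
      refine mul_le_mul_of_nonneg_right ?_ hB
      nlinarith [h.eps p hp hM, norm_nonneg (ε p)]
    have h3 := norm_add_le (c (p ^ (k + 1 + 1))) (ε p * p * c (p ^ k))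
    rw [e] at h3
    have h4 : (p : ℝ) * ‖c (p ^ k)‖ ≤ 2 * (p : ℝ) ^ 2 * ‖c (p ^ k)‖ := by
      refine mul_le_mul_of_nonneg_right ?_ hB
      nlinarith
    have h5 : ‖c (p ^ (k + 1))‖ ≤ (p : ℝ) ^ 2 * ‖c (p ^ (k + 1))‖ := by
      have : (1 : ℝ) ≤ (p : ℝ) ^ 2 := by nlinarith
      nlinarith
    linarith

end BndAux

/-- **BND** -/
theorem bnd (hG : GROW) (hI : IDX) : BND := by
  intro M Γ ε b c hL h p hp hM
  by_contra hb
  rw [not_le] at hb
  obtain ⟨C, hC⟩ := BndAux.odd_le hG hI hL h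
  have hp2 : p % 2 = 1 := by
    rcases hp.eq_two_or_odd with h2 | h2
    · exact absurd (h2 ▸ (Dvd.dvd.trans (by norm_num) hL.four : 2 ∣ M)) hM
    · exact h2
  have hpp : (0 : ℝ) < p := by exact_mod_cast hp.pos
  have hlow : ∀ k : ℕ, (2 * (p : ℝ) ^ 2) ^ k ≤ ‖c (p ^ k)‖ := by
    intro k
    induction k with
    | zero => rw [pow_zero, pow_zero, h.one, norm_one]
    | succ k ih =>
      have := BndAux.step h hp hM hb k
      calc (2 * (p : ℝ) ^ 2) ^ (k + 1) = 2 * (p : ℝ) ^ 2 * (2 * (p : ℝ) ^ 2) ^ k := by ring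
        _ ≤ 2 * (p : ℝ) ^ 2 * ‖c (p ^ k)‖ := mul_le_mul_of_nonneg_left ih (by positivity)
        _ ≤ _ := this
  have htwo : ∀ k : ℕ, (2 : ℝ) ^ k ≤ C := by
    intro k
    have hodd : p ^ k % 2 = 1 := Nat.odd_iff.mp ((Nat.odd_iff.mpr hp2).pow)
    have h1 := (hlow k).trans (hC (p ^ k) hodd)
    have e : (2 * (p : ℝ) ^ 2) ^ k = 2 ^ k * ((p ^ k : ℕ) : ℝ) ^ 2 := by
      push_cast
      ring
    rw [e] at h1
    have hpos : (0 : ℝ) < ((p ^ k : ℕ) : ℝ) ^ 2 := by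
      push_cast
      positivity
    exact le_of_mul_le_mul_right h1 hpos
  obtain ⟨k, hk⟩ := pow_unbounded_of_one_lt C (by norm_num : (1 : ℝ) < 2)
  exact absurd (htwo k) (not_le.mpr hk)

end Vale.Agent.P027M.B3
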