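import Vale.Agent.P027M.B3.Defs
import Vale.Agent.P027M.B.Hol

/-! # P027, route M, row B3.SERD : the primitive of a `q`-series -/

set_option linter.all false

open Complex Filter Topology

noncomputable section

namespace Vale.Agent.P027M.B3

namespace Serd

theorem qq_eq (z : ℂ) : B.qq z = Function.Periodic.qParam 1 z := by
  simp [B.qq, Function.Periodic.qParam]

theorem qq_lt {z : ℂ} (hz : 0 < z.im) : ‖B.qq z‖ < 1 := by
  rw [qq_eq]
  exact Function.Periodic.norm_qParam_lt_one one_pos hz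

theorem qq_surj {q : ℂ} (h0 : q ≠ 0) (h1 : ‖q‖ < 1) : ∃ τ : UpperHalfPlane, B.qq τ = q :=
  ⟨⟨_, Function.Periodic.im_invQParam_pos_of_norm_lt_one one_pos h1 h0⟩, by
    rw [qq_eq]; exact Function.Periodic.qParam_right_inv one_ne_zero h0⟩

theorem qq_deriv (z : ℂ) : HasDerivAt B.qq (B.qq z * (2 * Real.pi * I)) z := by
  simpa only [id_eq, mul_one] using! ((hasDerivAt_id z).const_mul (2 * Real.pi * I : ℂ)).cexp

theorem conv {f : UpperHalfPlane → ℂ} {a : ℕ → ℂ}
    (h : ∀ τ : UpperHalfPlane, HasSum (fun n => a n * B.qq τ ^ n) (f τ)) :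
    B.Conv 1 (PowerSeries.mk a) := by
  refine B.Hol.conv_of fun q hq => ?_
  by_cases h0 : q = 0
  · subst h0
    exact (summable_nat_add_iff 1).1 (by simpa using summable_zero)
  · obtain ⟨τ, rfl⟩ := qq_surj h0 hq
    simpa using (h τ).summable

end Serd

theorem serd : SERD := by
  intro f a h0 h
  have hc : B.Conv 1 (PowerSeries.mk fun n => a n / n) := fun ρ r0 r1 => by
    refine (Serd.conv h ρ r0 r1).of_nonneg_of_le (fun n => by positivity) fun n => ?_
    rw [PowerSeries.coeff_mk, PowerSeries.coeff_mk, norm_div, Complex.norm_natCast]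
    refine mul_le_mul_of_nonneg_right ?_ (by positivity)
    rcases n.eq_zero_or_pos with rfl | hn
    · simp
    · exact div_le_self (norm_nonneg _) (by exact_mod_cast hn)
  refine ⟨hc, fun τ => ?_⟩
  have hq := Serd.qq_lt τ.2
  obtain ⟨h1, h2⟩ := B.Hol.diff_aux hc hq
  have h3 := h1.hasDerivAt.comp (τ : ℂ) (Serd.qq_deriv τ)
  have h4 := (hasSum_nat_add_iff' 1).2 (h τ)
  have h5 := (h2.mul_right (B.qq τ)).unique (h4.congr_fun fun n => by
    have : ((n + 1 : ℕ) : ℂ) ≠ 0 := Nat.cast_ne_zero.2 n.succ_ne_zero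
    rw [PowerSeries.coeff_derivative, PowerSeries.coeff_mk, ← Nat.cast_succ,
      div_mul_cancel₀ _ this, pow_succ, mul_assoc])
  refine h3.congr_deriv ?_
  rw [← mul_assoc, h5]
  simp [h0, mul_comm]

end Vale.Agent.P027M.B3
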