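import Vale.Agent.P027M.B3.Prim
import Vale.Agent.P027M.B3.Serd
import Vale.Agent.P027M.B3.Idx
import Vale.Agent.P027M.B3.Bas
import Vale.Agent.P027M.ES.Defs
import Vale.Agent.P027M.Fo.Defs

/-! # P027, route M, block B3 : the inputs from the blocks ESC and FORM -/

set_option linter.all false

open scoped MatrixGroups ComplexConjugate ModularForm
open Complex UpperHalfPlane

noncomputable section

namespace Vale.Agent.P027M.B3

open Vale.Agent.P022.H218.L3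

/-- the group of level `4 M` -/
def GL4 (M : ℕ) : Subgroup SL(2, ℤ) where
  carrier := {γ | (4 * M : ℤ) ∣ γ 1 0 ∧ ((M : ℤ) ∣ γ 1 1 - 1 ∨ (M : ℤ) ∣ γ 1 1 + 1)}
  one_mem' := ⟨by simp, Or.inl (by simp)⟩
  mul_mem' := by
    rintro γ δ ⟨⟨k, h1⟩, h2⟩ ⟨⟨l, h3⟩, h4⟩
    have e : ∀ j, (γ * δ) 1 j = γ 1 0 * δ 0 j + γ 1 1 * δ 1 j := fun j => mul_ent (γ : M2) δ 1 j
    refine ⟨⟨k * δ 0 0 + γ 1 1 * l, by rw [e, h1, h3]; ring⟩, ?_⟩
    rw [e, h1]
    rcases h2 with ⟨a, h2⟩ | ⟨a, h2⟩ <;> rcases h4 with ⟨b, h4⟩ | ⟨b, h4⟩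
    · exact Or.inl ⟨4 * k * δ 0 1 + a * δ 1 1 + b, by linear_combination δ 1 1 * h2 + h4⟩
    · exact Or.inr ⟨4 * k * δ 0 1 + a * δ 1 1 + b, by linear_combination δ 1 1 * h2 + h4⟩
    · exact Or.inr ⟨4 * k * δ 0 1 + a * δ 1 1 - b, by linear_combination δ 1 1 * h2 - h4⟩
    · exact Or.inl ⟨4 * k * δ 0 1 + a * δ 1 1 - b, by linear_combination δ 1 1 * h2 - h4⟩
  inv_mem' := by
    rintro γ ⟨⟨k, h1⟩, h2⟩
    have e1 : (γ⁻¹) 1 0 = -γ 1 0 := by
      simp [Matrix.SpecialLinearGroup.coe_inv, Matrix.adjugate_fin_two]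
    have e2 : (γ⁻¹) 1 1 = γ 0 0 := by
      simp [Matrix.SpecialLinearGroup.coe_inv, Matrix.adjugate_fin_two]
    have d := sl_det γ
    refine ⟨⟨-k, by rw [e1, h1]; ring⟩, ?_⟩
    rw [e2]
    rcases h2 with ⟨a, h2⟩ | ⟨a, h2⟩
    · exact Or.inl ⟨4 * k * γ 0 1 - a * γ 0 0, by
        linear_combination d + γ 0 1 * h1 - γ 0 0 * h2⟩
    · exact Or.inr ⟨a * γ 0 0 - 4 * k * γ 0 1, by
        linear_combination -d - γ 0 1 * h1 + γ 0 0 * h2⟩

theorem lvl_GL4 {M : ℕ} (h : P027M.M.Lv M) : Lvl M (GL4 M) := ⟨h.pos, h.four, fun _ => Iff.rfl⟩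

variable {M : ℕ} {Γ : Subgroup SL(2, ℤ)}

theorem Lvl.mid (h : Lvl M Γ) : P027M.M.Mid (4 * M) Γ := by
  refine ⟨⟨by have := h.pos; omega, dvd_mul_right _ _⟩, fun γ hγ => (h.mem γ).2 ?_, fun γ hγ => ?_⟩
  · obtain ⟨a, -, b⟩ := hγ
    push_cast at a b
    exact ⟨a, b.imp (Dvd.dvd.trans (dvd_mul_left _ _)) (Dvd.dvd.trans (dvd_mul_left _ _))⟩
  · rw [CongruenceSubgroup.Gamma0_mem]
    exact (ZMod.intCast_zmod_eq_zero_iff_dvd _ 4).2
      ((dvd_mul_right _ _).trans ((h.mem γ).1 hγ).1)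

theorem pd_ofComplex (F : ℍ → ℂ) (γ : SL(2, ℤ)) :
    pd (F ∘ ofComplex) γ = F (γ • UpperHalfPlane.I) - F UpperHalfPlane.I := by
  have := mob_smul γ UpperHalfPlane.I
  rw [coe_I] at this
  rw [pd, this, ← coe_I, Function.comp_apply, Function.comp_apply, ofComplex_apply,
    ofComplex_apply]

theorem escp (h : ES.ONTO) (hL : Lvl M Γ) : ESCP Γ := by
  intro φ hφ
  haveI := (idx M Γ hL).1
  obtain ⟨f, g, F, G, h1, h2, h3, h4, h5⟩ := h _ Γ hL.mid φ hφ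
  refine ⟨_, _, (prim Γ f _ _ h1 h3).1, (prim Γ g _ _ h2.1 h4).2 h2.2, fun γ hγ => ?_⟩
  rw [h5 γ hγ UpperHalfPlane.I, pd_ofComplex, pd_ofComplex, ES.per]

theorem qq_eq (τ : ℍ) : Function.Periodic.qParam 1 τ = B.qq τ := by
  simp [Function.Periodic.qParam, B.qq]

/-- the primitive of a cusp form with character -/
theorem of_sq {e : ℤ → ℂ} {a : ℕ → ℂ} (hL : Lvl M Γ) (h : Fo.Sq M e a) (a0 : a 0 = 0)
    (he : ∀ d : ℤ, (M : ℤ) ∣ d - 1 ∨ (M : ℤ) ∣ d + 1 → e d = 1) :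
    B.Conv 1 (PowerSeries.mk fun n => a n / n) ∧ CP Γ (Ser fun n => a n / n) ∧
      ∀ δ : SL(2, ℤ), (M : ℤ) ∣ δ 1 0 → ∃ k, ∀ z : ℂ, 0 < z.im →
        Ser (fun n => a n / n) (mob δ z) = e (δ 1 1) * Ser (fun n => a n / n) z + k := by
  obtain ⟨f, hf, hx⟩ := h
  haveI := (idx M Γ hL).1
  obtain ⟨c1, c2⟩ := serd f a a0 fun τ => by simpa only [qq_eq] using hx τ
  have m : IsMF Γ 2 f := ⟨hf.hol, fun γ hγ => by
    rw [hf.law γ ((dvd_mul_left _ _).trans ((hL.mem γ).1 hγ).1), he _ ((hL.mem γ).1 hγ).2,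
      one_smul], fun γ => (hf.zer γ).isBoundedAtImInfty⟩
  refine ⟨c1, (prim Γ f _ _ m c2).2 hf.zer, fun δ hδ => ?_⟩
  generalize Ser (fun n => a n / n) = G at c2
  have d : ∀ z : ℂ, 0 < z.im → HasDerivAt (fun z => G (mob δ z) - e (δ 1 1) * G z) 0 z := by
    intro z hz
    have a1 := (Prim.der c2 δ ⟨z, hz⟩).sub ((c2 ⟨z, hz⟩).const_mul (e (δ 1 1)))
    refine a1.congr_deriv ?_
    rw [hf.law δ hδ]
    simp only [Pi.smul_apply, smul_eq_mul]
    ring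
  refine ⟨G (mob δ Complex.I) - e (δ 1 1) * G Complex.I, fun z hz => ?_⟩
  have := (convex_halfSpace_im_gt 0).is_const_of_fderivWithin_eq_zero (𝕜 := ℂ)
    (f := fun z => G (mob δ z) - e (δ 1 1) * G z)
    (fun z hz => (d z hz).differentiableAt.differentiableWithinAt)
    (fun z hz => by
      rw [fderivWithin_of_isOpen (isOpen_lt continuous_const Complex.continuous_im) hz,
        (d z hz).hasFDerivAt.fderiv]
      simp) hz (show (0 : ℝ) < Complex.I.im by simp)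
  rw [← this]
  ring

theorem eig_of {e : ℤ → GaussianInt} {c : ℕ → GaussianInt} (hL : Lvl M Γ) (he : Fo.Chr M e)
    (h : Fo.FormS M e c) :
    Eig M Γ (fun n => ((fun n : ℕ => e n) n : ℂ)) (fun n => c n) fun n => c n := by
  have e1 : ∀ d : ℤ, (M : ℤ) ∣ d - 1 ∨ (M : ℤ) ∣ d + 1 → (e d : ℂ) = 1 := fun d hd => by
    rcases hd with a | a
    · rw [he.per d 1 a, he.one, map_one]
    · rw [he.per d (-1) (by rwa [sub_neg_eq_add]), he.neg, map_one]
  have k : ∀ s, B.Conv 1 (PowerSeries.mk (cf (fun n => c n) s)) ∧ CP Γ (GG (fun n => c n) s) ∧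
      ∀ δ : SL(2, ℤ), (M : ℤ) ∣ δ 1 0 → ∃ k, ∀ z : ℂ, 0 < z.im →
        GG (fun n => c n) s (mob δ z) = e (δ 1 1) * GG (fun n => c n) s z + k := fun s => by
    have q : cf (fun n => c n) s =
        fun n => (if n % 4 = (if s then 1 else 3) then (c n : ℂ) else 0) / n := by
      funext n
      rw [cf, ite_div, zero_div]
    rw [GG, q]
    cases s
    · exact of_sq hL h.g3 rfl e1
    · exact of_sq hL h.g1 rfl e1
  refine ⟨by simp [h.one], fun p hp hd m => ?_, fun p hp hd m => ?_, fun p hp hd => ?_,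
    fun s => (k s).1, fun s => (k s).2.1, fun p hp hd δ h1 h2 s => ?_⟩
  · rw [h.dep _ fun a => hp.one_lt.ne' (Nat.eq_one_of_dvd_coprimes a (dvd_mul_right p m) hd),
      map_zero]
  · have := congrArg GaussianInt.toComplex (h.hec p hp hd m)
    rw [mul_comm m p] at this
    split_ifs at this ⊢ <;> simpa [map_ofNat] using this
  · have := congrArg (fun x : GaussianInt => ‖(x : ℂ)‖) (he.four p
      (Nat.isCoprime_iff_coprime.2 ((Nat.Prime.coprime_iff_not_dvd hp).2 hd)))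
    simp only [map_pow, map_one, norm_pow, norm_one] at this
    exact (pow_eq_one_iff_of_nonneg (norm_nonneg _) (by norm_num)).1 this |>.le
  · simpa only [h2] using (k s).2.2 δ ((dvd_mul_left _ _).trans h1)

end Vale.Agent.P027M.B3
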