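import Mathlib

/-! # P027 route M, block B3: a chain of Harnack inequalities (abstract form) -/

set_option autoImplicit false

open Complex Metric Set

noncomputable section

namespace Vale.Agent.P027M.B3.Har

/-- the upper half plane -/
def Hp : Set ℂ := {z | 0 < z.im}

theorem hp_open : IsOpen Hp := isOpen_lt continuous_const continuous_im

/-- one step of Borel and Caratheodory -/
theorem bc0 {G : ℂ → ℂ} {M R r C : ℝ} (hG : DifferentiableOn ℂ G Hp)
    (hM : ∀ z : ℂ, 7 / 25 ≤ z.im → |z.re| ≤ 2 → (G z).re < M) {w z : ℂ} (h1 : 7 / 25 + R ≤ w.im)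
    (h2 : |w.re| + R ≤ 2) (h3 : ‖z - w‖ ≤ r) (h4 : r < R) (h5 : 2 * r ≤ C * (R - r)) :
    ‖G z - G w‖ ≤ C * (M - (G w).re) := by
  have n0 := norm_nonneg (z - w)
  have v0 : 0 < M - (G w).re := sub_pos.2 (hM w (by linarith) (by linarith))
  have mem : ∀ y ∈ ball (0 : ℂ) R, 7 / 25 ≤ (w + y).im ∧ |(w + y).re| ≤ 2 := fun y hy => by
    have a := mem_ball_zero_iff.1 hy
    have b := abs_le.1 ((abs_im_le_norm y).trans a.le)
    have c := abs_le.1 ((abs_re_le_norm y).trans a.le)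
    have d := abs_le.1 (le_sub_iff_add_le.2 h2)
    rw [add_im, add_re, abs_le]
    refine ⟨by linarith, by linarith, by linarith⟩
  have hd : DifferentiableOn ℂ (fun y => G (w + y) - G w) (ball 0 R) :=
    (hG.comp (by fun_prop) fun y hy => lt_of_lt_of_le (by norm_num) (mem y hy).1).sub_const _
  have k := borelCaratheodory_zero (z := z - w) v0 hd
    (fun y hy => by
      have := hM _ (mem y hy).1 (mem y hy).2
      show (G (w + y) - G w).re ≤ _
      rw [sub_re]; linarith) (by linarith) (mem_ball_zero_iff.2 (by linarith)) (by simp)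
  rw [add_sub_cancel] at k
  refine k.trans ?_
  rw [div_le_iff₀ (by linarith)]
  have C0 : 0 ≤ C := by
    by_contra c
    nlinarith
  have : 2 * ‖z - w‖ ≤ C * (R - ‖z - w‖) := by nlinarith
  nlinarith

theorem bc {G : ℂ → ℂ} {M : ℝ} (hG : DifferentiableOn ℂ G Hp)
    (hM : ∀ z : ℂ, 7 / 25 ≤ z.im → |z.re| ≤ 2 → (G z).re < M) {w z : ℂ} (h1 : 17 / 20 ≤ w.im)
    (h2 : |w.re| ≤ 1) (h3 : ‖z - w‖ ≤ 11 / 20) : ‖G z - G w‖ ≤ 55 * (M - (G w).re) :=
  bc0 (R := 57 / 100) hG hM (by linarith) (by linarith) h3 (by norm_num) (by norm_num)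

theorem bc1 {G : ℂ → ℂ} {M : ℝ} (hG : DifferentiableOn ℂ G Hp)
    (hM : ∀ z : ℂ, 7 / 25 ≤ z.im → |z.re| ≤ 2 → (G z).re < M) {s t : ℝ} (h1 : |s| ≤ 1)
    (h2 : |t - s| ≤ 1 / 2) : ‖G (t + I) - G (s + I)‖ ≤ 5 * (M - (G (s + I)).re) :=
  bc0 (R := 18 / 25) (r := 1 / 2) hG hM (by norm_num) (by simp; linarith)
    (by rwa [add_sub_add_right_eq_sub, ← ofReal_sub, norm_real, Real.norm_eq_abs]) (by norm_num)
    (by norm_num)

theorem harn {G : ℂ → ℂ} {M : ℝ} (hG : DifferentiableOn ℂ G Hp)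
    (hM : ∀ z : ℂ, 7 / 25 ≤ z.im → |z.re| ≤ 2 → (G z).re < M) {w z : ℂ} (h1 : 17 / 20 ≤ w.im)
    (h2 : |w.re| ≤ 1) (h3 : ‖z - w‖ ≤ 11 / 20) : M - (G z).re ≤ 56 * (M - (G w).re) := by
  have a := abs_le.1 ((abs_re_le_norm _).trans (bc hG hM h1 h2 h3))
  rw [sub_re] at a
  linarith [a.1]

theorem der {G : ℂ → ℂ} {M : ℝ} (hG : DifferentiableOn ℂ G Hp)
    (hM : ∀ z : ℂ, 7 / 25 ≤ z.im → |z.re| ≤ 2 → (G z).re < M) {w : ℂ} (h1 : 17 / 20 ≤ w.im)
    (h2 : |w.re| ≤ 1) : ‖deriv G w‖ ≤ 110 * (M - (G w).re) := by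
  have sub : closedBall w (1 / 2) ⊆ Hp := fun y hy => by
    have b := abs_le.1 ((abs_im_le_norm _).trans (mem_closedBall_iff_norm.1 hy))
    rw [sub_im] at b
    show 0 < y.im
    linarith [b.1]
  have k := norm_deriv_le_of_forall_mem_sphere_norm_le (c := w) (R := 1 / 2)
    (C := 55 * (M - (G w).re)) (f := fun y => G y - G w) (by norm_num)
    ((hG.sub_const _).diffContOnCl_ball sub) fun y hy =>
      bc hG hM h1 h2 (by rw [mem_sphere_iff_norm.1 hy]; norm_num)
  rw [deriv_sub_const] at k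
  linarith

theorem zper {G : ℂ → ℂ} {h : ℕ} (hp : ∀ z ∈ Hp, G (z + h) = G z) (k : ℤ) :
    ∀ z ∈ Hp, G (z + k * h) = G z := by
  induction k using Int.induction_on with
  | zero => simp
  | succ k ih =>
    intro z hz
    rw [← ih z hz, ← hp (z + (k : ℤ) * h) (by simpa [Hp] using hz)]
    congr 1; push_cast; ring
  | pred k ih =>
    intro z hz
    rw [← ih z hz, ← hp (z + ((-(k : ℤ) - 1 : ℤ) : ℂ) * h) (by simpa [Hp] using hz)]
    congr 1; push_cast; ring

/-- periodic functions are bounded on closed strips -/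
theorem strip {G : ℂ → ℂ} (hG : DifferentiableOn ℂ G Hp) {h : ℕ} (h0 : 1 ≤ h)
    (hp : ∀ z ∈ Hp, G (z + h) = G z) {a b : ℝ} (ha : 0 < a) :
    ∃ B, ∀ z : ℂ, a ≤ z.im → z.im ≤ b → ‖G z‖ ≤ B := by
  have per := zper hp
  have cp : IsCompact (Icc (0 : ℝ) h ×ℂ Icc a b) := isCompact_Icc.reProdIm isCompact_Icc
  obtain ⟨B, hB⟩ := cp.exists_bound_of_continuousOn
    (hG.continuousOn.mono fun z hz => lt_of_lt_of_le ha hz.2.1)
  refine ⟨B, fun z h1 h2 => ?_⟩
  have hh : (0 : ℝ) < h := by exact_mod_cast h0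
  rw [← per (-⌊z.re / h⌋) z (lt_of_lt_of_le ha h1)]
  refine hB _ ⟨?_, by simpa using ⟨h1, h2⟩⟩
  have e1 := Int.floor_le (z.re / h)
  have e2 := Int.lt_floor_add_one (z.re / h)
  rw [le_div_iff₀ hh] at e1
  rw [div_lt_iff₀ hh] at e2
  have e : (z + ((-⌊z.re / h⌋ : ℤ) : ℂ) * h).re = z.re - ⌊z.re / h⌋ * h := by simp; ring
  show _ ∈ Icc (0 : ℝ) h
  rw [e]
  constructor <;> linarith

/-- the maximum principle at the cusp -/
theorem cusp {G : ℂ → ℂ} (hG : DifferentiableOn ℂ G Hp) {h : ℕ} (h0 : 1 ≤ h)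
    (hp : ∀ z ∈ Hp, G (z + h) = G z) (hb : ∃ B Y : ℝ, ∀ z : ℂ, Y ≤ z.im → (G z).re ≤ B) {a M : ℝ}
    (ha : 0 < a) (hM : ∀ z : ℂ, z.im = a → (G z).re ≤ M) {z : ℂ} (hz : a ≤ z.im) :
    (G z).re ≤ M := by
  obtain ⟨B, Y, hB⟩ := hb
  have z0 : 0 < z.im := ha.trans_le hz
  refine le_of_forall_pos_le_add fun η hη => ?_
  set ε := η / z.im with hε
  have ε0 : 0 < ε := div_pos hη z0
  set b := max (max Y (z.im + 1)) ((B - M) / ε) with hb
  have b1 : Y ≤ b := (le_max_left _ _).trans (le_max_left _ _)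
  have b2 : z.im + 1 ≤ b := (le_max_right _ _).trans (le_max_left _ _)
  have b3 : B - M ≤ b * ε := (div_le_iff₀ ε0).1 (le_max_right _ _)
  obtain ⟨C, hC⟩ := strip hG h0 hp (b := b) ha
  have nf : ∀ y : ℂ, ‖exp (G y + I * ε * y)‖ = Real.exp ((G y).re - ε * y.im) := fun y => by
    rw [norm_exp]; congr 1; simp; ring
  have k := PhragmenLindelof.horizontal_strip (f := fun y => exp (G y + I * ε * y)) (a := a)
    (b := b) (C := Real.exp M) (z := z) ?_ ⟨0, ?_, 0, ?_⟩ ?_ ?_ hz (by linarith)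
  · rw [nf, Real.exp_le_exp, hε, div_mul_cancel₀ _ z0.ne'] at k
    linarith
  · refine DifferentiableOn.diffContOnCl ?_
    rw [closure_preimage_im, closure_Ioo (by linarith)]
    exact ((hG.mono fun y hy => lt_of_lt_of_le ha hy.1).add (by fun_prop)).cexp
  · exact div_pos Real.pi_pos (by linarith)
  · refine Asymptotics.IsBigO.of_bound (Real.exp C) ?_
    refine Filter.mem_inf_of_right fun y hy => ?_
    have := (re_le_norm _).trans (hC y hy.1.le hy.2.le)
    have := mul_pos ε0 (ha.trans hy.1)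
    simp only [mem_ofPred_eq, nf, zero_mul, Real.exp_zero, norm_one, mul_one, Real.exp_le_exp]
    linarith
  · intro y hy
    rw [nf, Real.exp_le_exp]
    have := hM y hy
    have := mul_pos ε0 (hy ▸ ha : 0 < y.im)
    linarith
  · intro y hy
    rw [nf, Real.exp_le_exp, hy]
    have := hB y (hy ▸ b1)
    linarith

/-- the data: a family of functions linked by the two generators -/
structure Lnk {ι : Type} (G : ι → ℂ → ℂ) (nS nT : ι → ι) (h : ℕ) (U : ℝ) : Prop where
  hol : ∀ c, DifferentiableOn ℂ (G c) Hp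
  jS : ∀ c, ∀ z ∈ Hp, |(G c (-1 / z)).re - (G (nS c) z).re| ≤ U
  jT : ∀ c, ∀ z ∈ Hp, |(G c (z + 1)).re - (G (nT c) z).re| ≤ U
  sur : Function.Surjective nT
  per : ∀ c, ∃ k : ℕ, 1 ≤ k ∧ k ≤ h ∧ ∀ z ∈ Hp, G c (z + k) = G c z
  bdd : ∀ c, ∃ B Y : ℝ, ∀ z : ℂ, Y ≤ z.im → (G c z).re ≤ B
  con : ∀ A : Set ι, A.Nonempty → (∀ c ∈ A, nS c ∈ A ∧ nT c ∈ A) → A = univ

variable {ι : Type} {G : ι → ℂ → ℂ} {nS nT : ι → ι} {h : ℕ} {U : ℝ}

theorem Lnk.shift (L : Lnk G nS nT h U) {B : ℝ} {z : ℂ} (hz : z ∈ Hp) (hB : ∀ c, (G c z).re ≤ B)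
    (k : ℕ) : (∀ c, (G c (z + k)).re ≤ B + k * U) ∧ ∀ c, (G c (z - k)).re ≤ B + k * U := by
  induction k with
  | zero => simpa using hB
  | succ k ih =>
    refine ⟨fun c => ?_, fun c => ?_⟩
    · have a := abs_le.1 (L.jT c (z + k) (by simpa [Hp] using hz))
      have := ih.1 (nT c)
      push_cast
      rw [← add_assoc]
      linarith [a.2]
    · obtain ⟨c, rfl⟩ := L.sur c
      have a := abs_le.1 (L.jT c (z - (k + 1)) (by simpa [Hp] using hz))
      have := ih.2 c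
      rw [show z - ((k : ℂ) + 1) + 1 = z - k by ring] at a
      push_cast
      linarith [a.1]

theorem Lnk.upper (L : Lnk G nS nT h U) (U0 : 0 ≤ U) {M : ℝ}
    (hM : ∀ c (z : ℂ), z.im = 17 / 20 → |z.re| ≤ 1 / 2 → (G c z).re ≤ M) (c : ι) (z : ℂ)
    (h1 : 7 / 25 ≤ z.im) (h2 : |z.re| ≤ 2) : (G c z).re ≤ M + h * U + 3 * U := by
  have hU : 0 ≤ h * U := by positivity
  have line : ∀ c (y : ℂ), y.im = 17 / 20 → (G c y).re ≤ M + h * U := fun c y hy => by
    obtain ⟨w, w1, w2, hp⟩ := L.per c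
    have hh : (0 : ℤ) < w := by exact_mod_cast w1
    obtain ⟨j, hj⟩ := Int.eq_ofNat_of_zero_le (Int.emod_nonneg (round y.re) hh.ne')
    have jl : (j : ℝ) ≤ h := by
      have := Int.emod_lt_of_pos (round y.re) hh
      rw [hj] at this
      exact_mod_cast (by omega : j ≤ h)
    have y0 : y - round y.re ∈ Hp := by simp [Hp, hy]
    have s := (L.shift y0 (fun c => hM c _ (by simpa using hy)
      (by simpa using abs_sub_round y.re)) j).1 c
    have e : y = y - round y.re + j + (round y.re / w : ℤ) * w := by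
      have := Int.emod_add_ediv_mul (round y.re) w
      rw [hj] at this
      have := congrArg (Int.cast : ℤ → ℂ) this
      push_cast at this
      linear_combination -this
    rw [e, zper hp _ _ (by simpa [Hp] using y0)]
    nlinarith
  have half : ∀ c (y : ℂ), 17 / 20 ≤ y.im → (G c y).re ≤ M + h * U := fun c y hy =>
    let ⟨_, w1, _, hp⟩ := L.per c
    cusp (L.hol c) w1 hp (L.bdd c) (by norm_num) (line c) hy
  by_cases a : 17 / 20 ≤ z.im
  · linarith [half c z a]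
  have low : ∀ y : ℂ, y.im = z.im → |y.re| ≤ 1 / 2 → ∀ c, (G c y).re ≤ M + h * U + U :=
    fun y hy hr c => by
      have y0 : y ≠ 0 := fun e => by rw [e, zero_im] at hy; linarith
      have n0 := normSq_pos.2 y0
      have im : 17 / 20 ≤ (-1 / y).im := by
        have e : (-1 / y).im = y.im / normSq y := by simp [div_im]; ring
        rw [e, le_div_iff₀ n0, normSq_apply, hy]
        have := abs_le.1 hr
        nlinarith
      have j := abs_le.1 (L.jS c (-1 / y) (lt_of_lt_of_le (by norm_num) im))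
      rw [show -1 / (-1 / y) = y by field_simp] at j
      linarith [half (nS c) _ im, j.2]
  have r := abs_le.1 (abs_sub_round z.re)
  have r2 := abs_le.1 h2
  have y0 : z - round z.re ∈ Hp := by simp only [Hp, mem_ofPred_eq, sub_im, intCast_im]; linarith
  have s := L.shift y0 (low _ (by simp) (by simpa using abs_sub_round z.re))
  have r3 : round z.re < 3 := by exact_mod_cast (by linarith : ((round z.re : ℤ) : ℝ) < 3)
  have r4 : -3 < round z.re := by exact_mod_cast (by linarith : (-3 : ℝ) < (round z.re : ℤ))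
  obtain ⟨k, e | e⟩ := Int.eq_nat_or_neg (round z.re)
  · have := (s k).1 c
    have k2 : (k : ℝ) ≤ 2 := by exact_mod_cast (by omega : k ≤ 2)
    rw [e, Int.cast_natCast, sub_add_cancel] at this
    nlinarith
  · have := (s k).2 c
    have k2 : (k : ℝ) ≤ 2 := by exact_mod_cast (by omega : k ≤ 2)
    rw [e, Int.cast_neg, Int.cast_natCast, sub_neg_eq_add, add_sub_cancel_right] at this
    nlinarith

/-- a bound which spreads along the links -/
theorem spread [Fintype ι] (con : ∀ A : Set ι, A.Nonempty → (∀ c ∈ A, nS c ∈ A ∧ nT c ∈ A) →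
    A = univ) {a : ι → ℝ} {K : ℝ} (K1 : 1 ≤ K) (a0 : ∀ c, 0 ≤ a c)
    (st : ∀ c, a (nS c) ≤ K * a c ∧ a (nT c) ≤ K * a c) (c₀ c : ι) :
    a c ≤ K ^ Fintype.card ι * a c₀ := by
  classical
  let A : ℕ → Finset ι := fun k => Finset.univ.filter fun c => a c ≤ K ^ k * a c₀
  have mem : ∀ k c, c ∈ A k ↔ a c ≤ K ^ k * a c₀ := fun k c => by simp [A]
  have up : ∀ k x, x ≤ K ^ k * a c₀ → K * x ≤ K ^ (k + 1) * a c₀ := fun k x e => by
    rw [pow_succ', mul_assoc]
    exact mul_le_mul_of_nonneg_left e (by linarith)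
  have mono : ∀ k, A k ⊆ A (k + 1) := fun k c e =>
    (mem _ _).2 ((le_mul_of_one_le_left (a0 c) K1).trans (up k _ ((mem _ _).1 e)))
  have key : ∀ k, A k = Finset.univ ∨ k + 1 ≤ (A k).card := fun k => by
    induction k with
    | zero => exact Or.inr (Finset.card_pos.2 ⟨c₀, (mem _ _).2 (by simp)⟩)
    | succ k ih =>
      rcases ih with e | e
      · exact Or.inl (Finset.univ_subset_iff.1 (e ▸ mono k))
      by_cases q : A k = A (k + 1)
      · left
        rw [← q, ← Finset.coe_inj, Finset.coe_univ]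
        refine con _ (Finset.card_pos.1 (by omega)) fun c hc => ?_
        have := up k _ ((mem _ _).1 hc)
        rw [q]
        exact ⟨(mem _ _).2 ((st c).1.trans this), (mem _ _).2 ((st c).2.trans this)⟩
      · exact Or.inr (by have := Finset.card_lt_card ((mono k).ssubset_of_ne q); omega)
  rcases key (Fintype.card ι) with e | e
  · exact (mem _ _).1 (e ▸ Finset.mem_univ c)
  · exact absurd ((A (Fintype.card ι)).card_le_univ) (by omega)

theorem Lnk.core [Fintype ι] (L : Lnk G nS nT h U) (U0 : 0 < U) (c : ι) : ∃ M : ℝ,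
    (∀ z : ℂ, 7 / 25 ≤ z.im → |z.re| ≤ 2 → (G c z).re < M) ∧
      M - (G c I).re ≤ 40 ^ Fintype.card ι * ((56 * (h + 4) + 1) * U) := by
  have cp : IsCompact (Icc (-(1 / 2) : ℝ) (1 / 2) ×ℂ Icc (17 / 20 : ℝ) (17 / 20)) :=
    isCompact_Icc.reProdIm isCompact_Icc
  have ex : ∀ c, ∃ w : ℂ, (w.im = 17 / 20 ∧ |w.re| ≤ 1 / 2) ∧ ∀ z : ℂ, z.im = 17 / 20 →
      |z.re| ≤ 1 / 2 → (G c z).re ≤ (G c w).re := fun c => by
    obtain ⟨w, w1, w2⟩ := cp.exists_isMaxOn (f := fun z => (G c z).re)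
      ⟨⟨0, 17 / 20⟩, by constructor <;> constructor <;> norm_num⟩
      (continuous_re.comp_continuousOn ((L.hol c).continuousOn.mono fun z hz =>
        lt_of_lt_of_le (by norm_num) hz.2.1))
    exact ⟨w, ⟨le_antisymm w1.2.2 w1.2.1, abs_le.2 w1.1⟩, fun z a b =>
      w2 ⟨abs_le.1 b, a.ge, a.le⟩⟩
  choose w w1 w2 using ex
  obtain ⟨c₀, -, hc⟩ := Finset.exists_max_image Finset.univ (fun c => (G c (w c)).re)
    ⟨c, Finset.mem_univ c⟩
  set M := (G c₀ (w c₀)).re + h * U + 4 * U with hM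
  have up : ∀ c (z : ℂ), 7 / 25 ≤ z.im → |z.re| ≤ 2 → (G c z).re < M := fun c z a b => by
    have := L.upper U0.le (fun c z a b => (w2 c z a b).trans (hc c (Finset.mem_univ c))) c z a b
    linarith
  have pos : ∀ c, 0 < M - (G c I).re := fun c => sub_pos.2 (up c I (by norm_num) (by norm_num))
  have hz : ∀ c (s t : ℝ), |s| ≤ 1 → |t - s| ≤ 1 / 2 →
      M - (G c (t + I)).re ≤ 6 * (M - (G c (s + I)).re) := fun c s t a b => by
    have a := abs_le.1 ((abs_re_le_norm _).trans (bc1 (L.hol c) (up c) a b))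
    rw [sub_re] at a
    linarith [a.1]
  have start : M - (G c₀ I).re ≤ 56 * (h * U + 4 * U) := by
    refine (harn (L.hol c₀) (up c₀) (w1 c₀).1.ge (by linarith [(w1 c₀).2]) ?_).trans (by linarith)
    refine le_of_sq_le_sq (by
      rw [Complex.sq_norm, normSq_apply, sub_re, sub_im, (w1 c₀).1, I_re, I_im]
      have := abs_le.1 (w1 c₀).2
      nlinarith) (by norm_num)
  have sp := spread L.con (a := fun c => M - (G c I).re + U) (K := 40) (by norm_num)
    (fun c => by linarith [pos c]) (fun c => ⟨?_, ?_⟩) c₀ c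
  · have p : (0 : ℝ) ≤ 40 ^ Fintype.card ι := by positivity
    have e := mul_le_mul_of_nonneg_left
      (show M - (G c₀ I).re + U ≤ (56 * (h + 4) + 1) * U by linarith) p
    exact ⟨M, up c, by linarith⟩
  · have j := abs_le.1 (L.jS c I (by simp [Hp]))
    rw [show -1 / I = I by rw [div_eq_iff I_ne_zero, I_mul_I]] at j
    linarith [pos c, j.2]
  · have j := abs_le.1 (L.jT c ((-(1 / 2) : ℝ) + I) (by simp [Hp]))
    rw [show ((-(1 / 2) : ℝ) : ℂ) + I + 1 = (1 / 2 : ℝ) + I by push_cast; ring] at j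
    have a := hz c 0 (1 / 2) (by simp) (by rw [sub_zero, abs_of_pos (by norm_num)])
    have b := hz (nT c) (-(1 / 2)) 0 (by rw [abs_neg, abs_of_pos] <;> norm_num)
      (by rw [zero_sub, neg_neg, abs_of_pos (by norm_num)])
    rw [ofReal_zero, zero_add] at a b
    linarith [pos c, j.2]

theorem Lnk.lim (L : Lnk G nS nT h U) (c : ι) {a p : ℝ} (hp : 0 < p)
    (H : ∀ U', 0 < U' → Lnk G nS nT h U' → a ≤ p * U') : a ≤ p * U := by
  have U0 : 0 ≤ U := (abs_nonneg _).trans (L.jS c I (by simp [Hp]))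
  refine le_of_forall_pos_le_add fun η hη => ?_
  have q := div_pos hη hp
  have := H (U + η / p) (by linarith) ⟨L.hol, fun c z a => (L.jS c z a).trans (by linarith),
    fun c z a => (L.jT c z a).trans (by linarith), L.sur, L.per, L.bdd, L.con⟩
  rwa [mul_add, mul_div_cancel₀ _ hp.ne'] at this

/-- **HAR**, abstract form: the oscillation -/
theorem Lnk.osc [Fintype ι] (L : Lnk G nS nT h U) (c : ι) (x : ℝ) (hx : |x| ≤ 1 / 2) :
    ‖G c (x + I) - G c I‖ ≤ 5 * (40 ^ Fintype.card ι * (56 * (h + 4) + 1)) * U := by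
  refine L.lim c (by positivity) fun U U0 L => ?_
  obtain ⟨M, up, b⟩ := L.core U0 c
  have := bc1 (L.hol c) up (s := 0) (t := x) (by simp) (by simpa using hx)
  rw [ofReal_zero, zero_add] at this
  rw [mul_assoc, mul_assoc]
  linarith

/-- **HAR**, abstract form: the derivative -/
theorem Lnk.har [Fintype ι] (L : Lnk G nS nT h U) (c : ι) (x : ℝ) (hx : |x| ≤ 1) :
    ‖deriv (G c) (x + I)‖ ≤ 4000 * (40 ^ Fintype.card ι * (56 * (h + 4) + 1)) * U := by
  refine L.lim c (by positivity) fun U U0 L => ?_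
  obtain ⟨M, up, e⟩ := L.core U0 c
  have a := abs_le.1 ((abs_re_le_norm _).trans (bc1 (L.hol c) up (s := 0) (t := x / 2) (by simp)
    (by rw [sub_zero, abs_div, abs_two]; linarith)))
  have b := abs_le.1 ((abs_re_le_norm _).trans (bc1 (L.hol c) up (s := x / 2) (t := x)
    (by rw [abs_div, abs_two]; linarith)
    (by rw [show x - x / 2 = x / 2 by ring, abs_div, abs_two]; linarith)))
  have d := der (L.hol c) up (w := x + I) (by norm_num) (by simpa using hx)
  have := up I (by norm_num) (by norm_num)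
  rw [sub_re] at a b
  rw [ofReal_zero, zero_add] at a
  rw [mul_assoc, mul_assoc]
  linarith [a.1, b.1]

end Vale.Agent.P027M.B3.Har
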