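import Vale.Agent.P027M.B3.Har0
import Vale.Agent.P022.H218.L3.Amb

/-! # P027 route M, block B3: the chain of Harnack inequalities for a subgroup of finite index -/

set_option autoImplicit false

open UpperHalfPlane ModularGroup
open scoped MatrixGroups Manifold ModularForm Real

noncomputable section

namespace Vale.Agent.P027M.B3.Har

open Vale.Agent.P022.H218.L3

/-- all entries are at most `B` -/
def Sm (B : ℕ) (g : SL(2, ℤ)) : Prop := ∀ i j, |g i j| ≤ B

theorem ent (g h : SL(2, ℤ)) (i j : Fin 2) : (g * h) i j = g i 0 * h 0 j + g i 1 * h 1 j := by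
  simp [Matrix.mul_apply, Fin.sum_univ_two]

theorem Sm.mono {B B' : ℕ} {g : SL(2, ℤ)} (h : Sm B g) (e : B ≤ B') : Sm B' g :=
  fun i j => (h i j).trans (by exact_mod_cast e)

theorem Sm.mul {B B' : ℕ} {g g' : SL(2, ℤ)} (h : Sm B g) (h' : Sm B' g') :
    Sm (2 * B * B') (g * g') := fun i j => by
  rw [ent]
  refine (abs_add_le _ _).trans ?_
  rw [abs_mul, abs_mul]
  have a := mul_le_mul (h i 0) (h' 0 j) (abs_nonneg _) (Nat.cast_nonneg _)
  have b := mul_le_mul (h i 1) (h' 1 j) (abs_nonneg _) (Nat.cast_nonneg _)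
  push_cast
  linarith

theorem Sm.inv {B : ℕ} {g : SL(2, ℤ)} (h : Sm B g) : Sm B g⁻¹ := fun i j => by
  fin_cases i <;> fin_cases j <;>
    simp [Matrix.SpecialLinearGroup.coe_inv, Matrix.adjugate_fin_two, h _ _]

theorem sm_one : Sm 1 1 := fun i j => by fin_cases i <;> fin_cases j <;> simp

theorem sm_S : Sm 1 S := fun i j => by fin_cases i <;> fin_cases j <;> simp [S]

theorem sm_T : Sm 1 T := fun i j => by fin_cases i <;> fin_cases j <;> simp [T]

theorem exists_sm (g : SL(2, ℤ)) : ∃ B, Sm B g :=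
  ⟨∑ i, ∑ j, (g i j).natAbs, fun i j => by
    rw [← Int.natCast_natAbs, Nat.cast_le]
    exact (Finset.single_le_sum (f := fun j => (g i j).natAbs) (fun _ _ => Nat.zero_le _)
      (Finset.mem_univ j)).trans (Finset.single_le_sum (f := fun i => ∑ j, (g i j).natAbs)
        (fun _ _ => Nat.zero_le _) (Finset.mem_univ i))⟩

/-- the cosets are connected by the two generators -/
theorem conn (Γ : Subgroup SL(2, ℤ)) [Γ.FiniteIndex] (A : Set (SL(2, ℤ) ⧸ Γ)) (h0 : A.Nonempty)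
    (h : ∀ c ∈ A, S⁻¹ • c ∈ A ∧ T⁻¹ • c ∈ A) : A = Set.univ := by
  have back : ∀ g : SL(2, ℤ), (∀ c ∈ A, g • c ∈ A) → ∀ c ∈ A, g⁻¹ • c ∈ A := fun g hg c hc => by
    obtain ⟨c', h1, rfl⟩ := ((Set.toFinite A).injOn_iff_bijOn_of_mapsTo (f := fun c => g • c)
      hg).1 (MulAction.injective g).injOn |>.surjOn hc
    simpa using h1
  let H : Subgroup SL(2, ℤ) :=
    { carrier := {g | ∀ c ∈ A, g • c ∈ A}
      one_mem' := fun c hc => by simpa using hc
      mul_mem' := fun ha hb c hc => by rw [mul_smul]; exact ha _ (hb c hc)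
      inv_mem' := fun ha => back _ ha }
  have top : ⊤ ≤ H := by
    rw [← SpecialLinearGroup.SL2Z_generators, Subgroup.closure_le]
    rintro _ (rfl | rfl)
    · exact H.inv_mem_iff.1 fun c hc => (h c hc).1
    · exact H.inv_mem_iff.1 fun c hc => (h c hc).2
  obtain ⟨c, hc⟩ := h0
  refine Set.eq_univ_of_forall fun c' => ?_
  obtain ⟨g, rfl⟩ := MulAction.exists_smul_eq SL(2, ℤ) c c'
  exact top (Subgroup.mem_top g) c hc

/-- small representatives of the right cosets -/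
theorem reps (Γ : Subgroup SL(2, ℤ)) [Γ.FiniteIndex] : ∃ r : SL(2, ℤ) ⧸ Γ → SL(2, ℤ),
    (∀ c, ((r c)⁻¹ : SL(2, ℤ)) = c) ∧ (∀ c, Sm (2 ^ Γ.index) (r c)) ∧ r (1 : SL(2, ℤ)) = 1 := by
  classical
  let : Fintype (SL(2, ℤ) ⧸ Γ) := Fintype.ofFinite _
  have ex : ∀ c : SL(2, ℤ) ⧸ Γ, ∃ B, ∃ g : SL(2, ℤ), (g⁻¹ : SL(2, ℤ)) = c ∧ Sm B g := fun c =>
    (exists_sm c.out⁻¹).imp fun B h => ⟨_, by simp, h⟩
  have st : ∀ s, Sm 1 s → ∀ c, (Nat.find (ex (s⁻¹ • c)) : ℝ) ≤ 2 * Nat.find (ex c) :=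
    fun s hs c => by
      obtain ⟨g, e, h⟩ := Nat.find_spec (ex c)
      have := Nat.find_min' (ex (s⁻¹ • c)) ⟨g * s, by rw [← e, mul_inv_rev]; rfl, h.mul hs⟩
      exact_mod_cast this.trans (by omega)
  have bd : ∀ c, Nat.find (ex c) ≤ 2 ^ Γ.index := fun c => by
    have := spread (conn Γ) (a := fun c => (Nat.find (ex c) : ℝ)) (K := 2) (by norm_num)
      (fun _ => Nat.cast_nonneg _) (fun c => ⟨st S sm_S c, st T sm_T c⟩) (1 : SL(2, ℤ)) c
    have o : (Nat.find (ex (1 : SL(2, ℤ))) : ℝ) ≤ 1 := by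
      exact_mod_cast Nat.find_min' (ex (1 : SL(2, ℤ))) ⟨1, by simp, sm_one⟩
    rw [← Nat.card_eq_fintype_card, ← Subgroup.index_eq_card] at this
    have p : (0 : ℝ) ≤ 2 ^ Γ.index := by positivity
    exact_mod_cast this.trans (mul_le_of_le_one_right p o)
  choose g g1 g2 using fun c => Nat.find_spec (ex c)
  refine ⟨fun c => if c = (1 : SL(2, ℤ)) then 1 else g c, fun c => ?_, fun c => ?_, by simp⟩
  · beta_reduce
    split_ifs with e
    · simp [e]
    · exact g1 c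
  · beta_reduce
    split_ifs with e
    · exact sm_one.mono Nat.one_le_two_pow
    · exact (g2 c).mono (bd c)

theorem of_S {z : ℂ} (hz : z ∈ Hp) : ofComplex (-1 / z) = S • ofComplex z := by
  rw [ofComplex_apply_of_im_pos hz, modular_S_smul, ← ofComplex_apply (UpperHalfPlane.mk _ _)]
  congr 1
  simp [neg_div, inv_neg]

theorem of_T (n : ℕ) {z : ℂ} (hz : z ∈ Hp) : ofComplex (z + n) = T ^ n • ofComplex z := by
  rw [ofComplex_apply_of_im_pos hz, ← zpow_natCast, modular_T_zpow_smul,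
    ← ofComplex_apply (_ +ᵥ _)]
  congr 1
  simp [add_comm]

/-- **HAR** for one function -/
theorem har1 (Γ : Subgroup SL(2, ℤ)) [Γ.FiniteIndex] {N : ℕ} (hN : 0 < N) {F : ℍ → ℂ}
    (hF : F ∈ Hol) (per : ∀ (γ : SL(2, ℤ)) (τ : ℍ), F (γ • (T ^ N • τ)) = F (γ • τ))
    (bdd : ∀ γ : SL(2, ℤ), IsBoundedAtImInfty fun τ => F (γ • τ)) {U : ℝ}
    (hU : ∀ γ ∈ Γ, Sm (4 * 4 ^ Γ.index) γ → ∀ τ : ℍ, |(F (γ • τ) - F τ).re| ≤ U) (x : ℝ)
    (hx : |x| ≤ 1) :
    ‖deriv (F ∘ ofComplex) (x + Complex.I)‖ ≤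
      4000 * (40 ^ Γ.index * (56 * (N + 4) + 1)) * U := by
  classical
  let : Fintype (SL(2, ℤ) ⧸ Γ) := Fintype.ofFinite _
  obtain ⟨r, r1, r2, r3⟩ := reps Γ
  have jump : ∀ s, Sm 1 s → ∀ c (τ : ℍ),
      |(F (r c • s • τ)).re - (F (r (s⁻¹ • c) • τ)).re| ≤ U := fun s hs c τ => by
    have m : r c * s * (r (s⁻¹ • c))⁻¹ ∈ Γ := by
      have := QuotientGroup.eq.1 ((show (((r c * s)⁻¹ : SL(2, ℤ)) : SL(2, ℤ) ⧸ Γ) = s⁻¹ • c by
        conv_rhs => rw [← r1 c]
        rw [mul_inv_rev]; rfl).trans (r1 _).symm)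
      rwa [inv_inv] at this
    have := hU _ m ((((r2 c).mul hs).mul (r2 _).inv).mono (le_of_eq (by
      rw [show (4 : ℕ) ^ Γ.index = 2 ^ Γ.index * 2 ^ Γ.index by rw [← mul_pow]; norm_num]; ring)))
      (r (s⁻¹ • c) • τ)
    rwa [mul_smul, inv_smul_smul, mul_smul, Complex.sub_re] at this
  have L : Lnk (fun c => (fun τ => F (r c • τ)) ∘ ofComplex) (fun c => S⁻¹ • c)
      (fun c => T⁻¹ • c) N U := by
    refine ⟨fun c => mdifferentiable_iff.1 (comp_mem _ hF), fun c z hz => ?_, fun c z hz => ?_,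
      MulAction.surjective _, fun c => ⟨N, hN, le_rfl, fun z hz => ?_⟩, fun c => ?_, conn Γ⟩
    · simp only [Function.comp_apply, of_S hz]
      exact jump S sm_S c _
    · have := of_T 1 hz
      rw [Nat.cast_one, pow_one] at this
      simp only [Function.comp_apply, this]
      exact jump T sm_T c _
    · simp only [Function.comp_apply, of_T N hz, per]
    · obtain ⟨B, Y, h⟩ := isBoundedAtImInfty_iff.1 (bdd (r c))
      refine ⟨B, max Y 1, fun z hz => (Complex.re_le_norm _).trans (h _ ?_)⟩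
      have z0 : 0 < z.im := lt_of_lt_of_le one_pos ((le_max_right _ _).trans hz)
      rw [ofComplex_apply_of_im_pos z0]
      exact (le_max_left _ _).trans hz
  have := L.har (1 : SL(2, ℤ)) x hx
  rw [← Nat.card_eq_fintype_card, ← Subgroup.index_eq_card, r3] at this
  simpa only [one_smul] using this

/-- Fourier coefficients from a bound on the line `im = 1` -/
theorem coeff_le {f : ℍ → ℂ} (hf : f ∈ Hol) (hp : Function.Periodic (f ∘ ofComplex) (1 : ℝ))
    (hb : IsBoundedAtImInfty f) {W : ℝ}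
    (hW : ∀ x : ℝ, |x| ≤ 1 → ‖f (ofComplex (x + Complex.I))‖ ≤ W) (n : ℕ) :
    ‖(qExpansion 1 f).coeff n‖ ≤ Real.exp (2 * π * n) * W := by
  rw [qExpansion_coeff_eq_intervalIntegral one_pos hp hf hb n one_pos]
  simp only [Complex.ofReal_one, div_one, one_mul]
  refine (intervalIntegral.norm_integral_le_of_norm_le_const (C := Real.exp (2 * π * n) * W)
    fun u hu => ?_).trans (by simp)
  rw [Set.uIoc_of_le zero_le_one] at hu
  have e := hW u (abs_le.2 ⟨by linarith [hu.1], hu.2⟩)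
  rw [ofComplex_apply_of_im_pos (by simp)] at e
  rw [norm_mul, norm_div, norm_one, norm_pow, Function.Periodic.norm_qParam, ← Real.exp_nat_mul,
    one_div, ← Real.exp_neg]
  refine mul_le_mul (le_of_eq ?_) e (norm_nonneg _) (Real.exp_nonneg _)
  congr 1
  simp
  ring

end Vale.Agent.P027M.B3.Har
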