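import Vale.Agent.P027M.B3.Bas
import Vale.Agent.P022.H227.EichC

/-! # P027, route M, block B3 : primitives of forms (row PRIM) -/

set_option linter.all false

open scoped MatrixGroups ComplexConjugate ModularForm Manifold
open Complex

noncomputable section

namespace Vale.Agent.P027M.B3

open Vale.Agent.P022.H218.L3

namespace Prim

/-- the mean value inequality on a half plane -/
theorem mvt {u : ℂ → ℂ} {g : UpperHalfPlane → ℂ}
    (hu : ∀ τ : UpperHalfPlane, HasDerivAt u (g τ) (τ : ℂ)) {M A : ℝ}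
    (hg : ∀ τ : UpperHalfPlane, A ≤ τ.im → ‖g τ‖ ≤ M) {z w : ℂ} (hz : 0 < z.im) (hz' : A ≤ z.im)
    (hw : 0 < w.im) (hw' : A ≤ w.im) : ‖u z - u w‖ ≤ M * ‖z - w‖ := by
  have hS : Convex ℝ ({z : ℂ | 0 < z.im} ∩ {z : ℂ | A ≤ z.im}) :=
    (convex_halfSpace_im_gt 0).inter (convex_halfSpace_im_ge A)
  refine hS.norm_image_sub_le_of_norm_hasDerivWithin_le
    (f' := fun z => g (UpperHalfPlane.ofComplex z)) (fun x hx => ?_) (fun x hx => ?_)
    ⟨hw, hw'⟩ ⟨hz, hz'⟩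
  · rw [UpperHalfPlane.ofComplex_apply_of_im_pos hx.1]
    exact (hu ⟨x, hx.1⟩).hasDerivWithinAt
  · rw [UpperHalfPlane.ofComplex_apply_of_im_pos hx.1]
    exact hg ⟨x, hx.1⟩ hx.2

theorem der {f : UpperHalfPlane → ℂ} {F : ℂ → ℂ} {k : ℂ}
    (hF : ∀ τ : UpperHalfPlane, HasDerivAt F (k * f τ) (τ : ℂ)) (σ : SL(2, ℤ))
    (τ : UpperHalfPlane) :
    HasDerivAt (fun z => F (mob σ z)) (k * (f ∣[(2 : ℤ)] σ) τ) (τ : ℂ) := by
  have h1 := hF (σ • τ)
  rw [← mob_smul] at h1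
  refine (h1.comp (τ : ℂ) (mob_deriv (sl_pos σ) τ.im_pos)).congr_deriv ?_
  rw [ModularForm.SL_slash_apply, ModularGroup.denom_apply, σ.det_coe, zpow_neg, mul_assoc]
  congr 2
  rw [Int.cast_one, one_div]
  rfl

/-- a function with constant period and bounded derivative -/
theorem gro {u : ℂ → ℂ} {g : UpperHalfPlane → ℂ}
    (hu : ∀ τ : UpperHalfPlane, HasDerivAt u (g τ) (τ : ℂ))
    (hg : UpperHalfPlane.IsBoundedAtImInfty g) {h : ℕ} (h0 : 0 < h) {a : ℂ}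
    (hp : ∀ z : ℂ, 0 < z.im → u (z + h) = u z + a) :
    ∃ C A : ℝ, ∀ z : ℂ, 0 < z.im → A ≤ z.im → ‖u z - a / h * z‖ ≤ C := by
  obtain ⟨M, A1, hM⟩ := UpperHalfPlane.isBoundedAtImInfty_iff.1 hg
  have hh : (h : ℂ) ≠ 0 := by exact_mod_cast h0.ne'
  set A := max A1 1 with hA
  have A0 : 0 < A := lt_max_of_lt_right one_pos
  let v : ℂ → ℂ := fun z => u z - a / h * z
  have hv : ∀ τ : UpperHalfPlane, HasDerivAt v (g τ - a / h) (τ : ℂ) := fun τ =>
    ((hu τ).sub ((hasDerivAt_id (τ : ℂ)).const_mul (a / h))).congr_deriv (by rw [mul_one])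
  have hb : ∀ τ : UpperHalfPlane, A ≤ τ.im → ‖g τ - a / h‖ ≤ |M| + ‖a / h‖ := fun τ hτ =>
    (norm_sub_le _ _).trans
      (add_le_add ((hM τ ((le_max_left _ _).trans hτ)).trans (le_abs_self M)) le_rfl)
  set K := |M| + ‖a / h‖ with hK
  have K0 : 0 ≤ K := by positivity
  have i0 : ((A : ℂ) * I).im = A := by simp
  have n0 : ‖(A : ℂ) * I‖ = A := by simp [abs_of_pos A0]
  have B := Vale.Agent.P022.H227.bdd_of_growth (F := fun τ : UpperHalfPlane => v τ) (h := h)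
    (C := ‖v (A * I)‖ + K * (1 + A)) (A0 := A) ?_ (by exact_mod_cast h0) ?_ 1 (by positivity) A0 ?_
  · obtain ⟨C, A2, hC⟩ := UpperHalfPlane.isBoundedAtImInfty_iff.1 B
    exact ⟨C, A2, fun z hz hz' => hC ⟨z, hz⟩ hz'⟩
  · rw [UpperHalfPlane.mdifferentiable_iff]
    refine DifferentiableOn.congr (f := v)
      (fun z hz => (hv ⟨z, hz⟩).differentiableAt.differentiableWithinAt) fun z hz => ?_
    rw [UpperHalfPlane.comp_ofComplex_of_im_pos _ z hz]
  · intro z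
    by_cases hz : 0 < z.im
    · have hz' : 0 < (z + ((h : ℝ) : ℂ)).im := by simpa using hz
      rw [UpperHalfPlane.comp_ofComplex_of_im_pos _ z hz,
        UpperHalfPlane.comp_ofComplex_of_im_pos _ _ hz']
      show u (z + ((h : ℝ) : ℂ)) - a / h * (z + ((h : ℝ) : ℂ)) = u z - a / h * z
      rw [ofReal_natCast, hp z hz, mul_add, div_mul_cancel₀ _ hh]
      ring
    · exact UpperHalfPlane.comp_ofComplex_of_im_le_zero _ _ _ (by simpa using hz) (not_lt.1 hz)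
  · intro τ hτ
    have h1 := mvt hv hb (z := τ) (w := A * I) τ.im_pos hτ (by rwa [i0]) (by rw [i0])
    have h2 : ‖(τ : ℂ) - A * I‖ ≤ ‖(τ : ℂ)‖ + A := by
      have := norm_sub_le (τ : ℂ) (A * I)
      rwa [n0] at this
    have h3 : ‖v τ‖ ≤ ‖v (A * I)‖ + ‖v τ - v (A * I)‖ := by
      have := norm_add_le (v (A * I)) (v τ - v (A * I))
      rwa [add_sub_cancel] at this
    have h4 := mul_le_mul_of_nonneg_left h2 K0
    have h5 := norm_nonneg (τ : ℂ)
    have h6 := norm_nonneg (v (A * I))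
    rw [pow_one]
    nlinarith [mul_nonneg h5 h6, mul_nonneg (mul_nonneg K0 A0.le) h5]

/-- the period vanishes if the derivative tends to zero -/
theorem per0 {u : ℂ → ℂ} {g : UpperHalfPlane → ℂ}
    (hu : ∀ τ : UpperHalfPlane, HasDerivAt u (g τ) (τ : ℂ))
    (hg : UpperHalfPlane.IsZeroAtImInfty g) {h : ℕ} (h0 : 0 < h) {a : ℂ}
    (hp : ∀ z : ℂ, 0 < z.im → u (z + h) = u z + a) : a = 0 := by
  have hh : (0 : ℝ) < h := by exact_mod_cast h0
  refine norm_le_zero_iff.1 (le_of_forall_pos_le_add fun ε hε => ?_)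
  obtain ⟨A1, hA⟩ := UpperHalfPlane.isZeroAtImInfty_iff.1 hg (ε / h) (div_pos hε hh)
  have i0 : (((max A1 1 : ℝ) : ℂ) * I).im = max A1 1 := by simp
  have i1 : (((max A1 1 : ℝ) : ℂ) * I + h).im = max A1 1 := by simp
  have A0 : (0 : ℝ) < max A1 1 := lt_max_of_lt_right one_pos
  have h1 := mvt hu hA (z := ((max A1 1 : ℝ) : ℂ) * I + h) (w := ((max A1 1 : ℝ) : ℂ) * I)
    (by rwa [i1]) (by rw [i1]; exact le_max_left _ _) (by rwa [i0])
    (by rw [i0]; exact le_max_left _ _)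
  rw [hp _ (by rwa [i0]), add_sub_cancel_left, add_sub_cancel_left, Complex.norm_natCast,
    div_mul_cancel₀ _ hh.ne'] at h1
  rwa [zero_add]

end Prim

theorem prim : PRIM := by
  intro Γ _ f F k hf hF
  have hol : DifferentiableOn ℂ F {z | 0 < z.im} := fun z hz =>
    (hF ⟨z, hz⟩).differentiableAt.differentiableWithinAt
  have per : ∀ γ ∈ Γ, ∀ z : ℂ, 0 < z.im → F (mob γ z) = F z + pd F γ := by
    intro γ hγ z hz
    have h1 := Prim.mvt (u := fun z => F (mob γ z) - F z) (g := fun _ => 0) (M := 0) (A := 0)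
      (fun τ => ((Prim.der hF γ τ).sub (hF τ)).congr_deriv (by rw [hf.slash γ hγ, sub_self]))
      (fun _ _ => by rw [norm_zero]) (z := z) (w := I) hz hz.le (by simp) (by simp)
    rw [zero_mul, norm_le_zero_iff, sub_eq_zero] at h1
    rw [pd, ← h1, add_sub_cancel]
  have sh : ∀ σ : SL(2, ℤ), ∃ (h : ℕ) (a : ℂ), 0 < h ∧
      ∀ z : ℂ, 0 < z.im → F (mob σ (z + h)) = F (mob σ z) + a := by
    intro σ
    obtain ⟨h, h0, -, hj⟩ := exists_width (Γ := Γ) σ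
    refine ⟨h, pd F (σ * ModularGroup.T ^ (h : ℤ) * σ⁻¹), h0, fun z hz => ?_⟩
    rw [← per _ hj _ (mob_sl_im σ hz), ← mob_sl_mul _ _ hz, inv_mul_cancel_right,
      mob_sl_mul _ _ hz, mob_T_zpow, Int.cast_natCast]
  have bd : ∀ σ : SL(2, ℤ),
      UpperHalfPlane.IsBoundedAtImInfty fun τ => k * (f ∣[(2 : ℤ)] σ) τ := fun σ =>
    (Filter.const_boundedAtFilter _ k).mul (hf.bdd σ)
  refine ⟨⟨hol, per, fun σ => ?_⟩, fun hz => ⟨hol, per, fun σ => ?_⟩⟩
  · obtain ⟨h, a, h0, hp⟩ := sh σ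
    exact ⟨_, Prim.gro (Prim.der hF σ) (bd σ) h0 hp⟩
  · obtain ⟨h, a, h0, hp⟩ := sh σ
    have z0 : UpperHalfPlane.IsZeroAtImInfty fun τ => k * (f ∣[(2 : ℤ)] σ) τ := by
      have := (hz σ).const_mul k
      rwa [mul_zero] at this
    obtain ⟨C, A, hC⟩ := Prim.gro (Prim.der hF σ) (bd σ) h0 hp
    refine ⟨C, A, fun z h1 h2 => ?_⟩
    have := hC z h1 h2
    rwa [Prim.per0 (Prim.der hF σ) z0 h0 hp, zero_div, zero_mul, sub_zero] at this

end Vale.Agent.P027M.B3
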