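import Vale.Agent.P027M.B3.Bas

/-! # P027, route M, block B3 : row REDF -/

set_option linter.all false

open scoped MatrixGroups ComplexConjugate
open Complex

noncomputable section

namespace Vale.Agent.P027M.B3

namespace Redf

theorem bound (a b c d : ℤ) (x y s t : ℝ) (hdet : a * d - b * c = 1) (y0 : 1 / 10 ≤ y) (y1 : y ≤ 2)
    (hx : |x| ≤ 2) (hs : |s| ≤ 1 / 2) (ht : 6 / 7 ≤ t)
    (h1 : a * x + b = s * (c * x + d) - t * (c * y)) (h2 : a * y = s * (c * y) + t * (c * x + d)) :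
    a.natAbs + b.natAbs + c.natAbs + d.natAbs ≤ 2000 := by
  have hd : (a : ℝ) * d - b * c = 1 := by exact_mod_cast hdet
  have hn : t * ((c * x + d) ^ 2 + (c * y) ^ 2) = y := by
    linear_combination (c * y) * h1 - (c * x + d) * h2 + y * hd
  have hn1 : (c * x + d) ^ 2 + (c * y) ^ 2 ≤ 7 / 6 * y := by
    nlinarith [sq_nonneg (c * x + d), sq_nonneg (c * y)]
  have e1 : |c * x + d| ≤ 2 := abs_le_of_sq_le_sq' (by nlinarith [sq_nonneg (c * y)]) (by norm_num)
    |> abs_le.2
  have e2 : |c * y| ≤ 2 := abs_le_of_sq_le_sq' (by nlinarith [sq_nonneg (c * x + d)]) (by norm_num)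
    |> abs_le.2
  have e3 : |(c : ℝ)| ≤ 20 := by
    rw [abs_mul, abs_of_pos (by linarith : 0 < y)] at e2
    nlinarith [abs_nonneg (c : ℝ)]
  have e4 : |(d : ℝ)| ≤ 42 := by
    have h3 : |(d : ℝ)| ≤ |c * x + d| + |c * x| := by
      simpa using abs_sub (c * x + d) (c * x)
    rw [abs_mul] at h3
    nlinarith [abs_nonneg (c : ℝ), abs_nonneg x]
  have e5 : t ≤ 10 := by
    by_cases hc : c = 0
    · subst hc
      have h3 : d * d = 1 := by
        have h4 : a * d = 1 := by simpa using hdet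
        rcases Int.eq_one_or_neg_one_of_mul_eq_one' h4 with ⟨-, rfl⟩ | ⟨-, rfl⟩ <;> rfl
      have h5 : (d : ℝ) * d = 1 := by exact_mod_cast h3
      have h6 : t = y := by
        push_cast at hn
        linear_combination hn - t * h5
      linarith
    · have h3 : (1 : ℝ) ≤ (c : ℝ) ^ 2 := by
        have h4 : 1 ≤ c ^ 2 := by
          have := pow_pos (abs_pos.2 hc) 2
          rw [sq_abs] at this
          omega
        exact_mod_cast h4
      have h5 : y ^ 2 ≤ (c * x + d) ^ 2 + (c * y) ^ 2 := by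
        nlinarith [sq_nonneg (c * x + d), sq_nonneg y]
      have h6 : t * y ^ 2 ≤ y := by nlinarith
      have h7 : t * y ≤ 1 := by nlinarith
      nlinarith
  have t0 : |t| ≤ 10 := abs_le.2 ⟨by linarith, e5⟩
  have m : ∀ u v U V : ℝ, |u| ≤ U → |v| ≤ V → |u * v| ≤ U * V := fun u v U V hu hv => by
    rw [abs_mul]
    exact mul_le_mul hu hv (abs_nonneg _) ((abs_nonneg _).trans hu)
  have e6 : |(a : ℝ)| ≤ 210 := by
    have h3 : |a * y| ≤ 21 := by
      rw [h2]
      refine (abs_add_le _ _).trans ?_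
      linarith [m _ _ _ _ hs e2, m _ _ _ _ t0 e1]
    rw [abs_mul, abs_of_pos (by linarith : 0 < y)] at h3
    linarith [mul_le_mul_of_nonneg_left y0 (abs_nonneg (a : ℝ))]
  have e7 : |(b : ℝ)| ≤ 441 := by
    have h3 : |a * x + b| ≤ 21 := by
      rw [h1]
      refine (abs_sub _ _).trans ?_
      linarith [m _ _ _ _ hs e1, m _ _ _ _ t0 e2]
    have h4 : |(b : ℝ)| ≤ |a * x + b| + |a * x| := by
      simpa using abs_sub (a * x + b) (a * x)
    linarith [m _ _ _ _ e6 hx]
  have f1 : |a| ≤ 210 := by exact_mod_cast e6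
  have f2 : |b| ≤ 441 := by exact_mod_cast e7
  have f3 : |c| ≤ 20 := by exact_mod_cast e3
  have f4 : |d| ≤ 42 := by exact_mod_cast e4
  rw [abs_le] at f1 f2 f3 f4
  omega

end Redf

theorem redf : REDF := by
  intro z y0 y1 hx
  have hz : 0 < z.im := by linarith
  obtain ⟨g, hg⟩ := ModularGroup.exists_smul_mem_fd (⟨z, hz⟩ : UpperHalfPlane)
  have hu : mob g z = ((g • (⟨z, hz⟩ : UpperHalfPlane) : UpperHalfPlane) : ℂ) :=
    mob_smul g ⟨z, hz⟩
  have h1 : |(mob g z).re| ≤ 1 / 2 := by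
    rw [hu]
    exact hg.2
  have h0 : 0 < (mob g z).im := mob_sl_im g hz
  have h2 : 6 / 7 ≤ (mob g z).im := by
    have h3 := ModularGroup.three_le_four_mul_im_sq_of_mem_fd hg
    rw [← UpperHalfPlane.coe_im, ← hu] at h3
    nlinarith
  refine ⟨g⁻¹, mob g z, ?_, h1, h2, ?_⟩
  · rw [Ht_inv]
    have h3 : (g 0 0 : ℂ) * z + g 0 1 = mob g z * (g 1 0 * z + g 1 1) := by
      rw [mob, div_mul_cancel₀ _ (den_ne (sl_pos g) hz)]
    have h4 := congrArg re h3
    have h5 := congrArg im h3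
    simp only [add_im, mul_im, intCast_re, intCast_im, zero_mul, add_zero, add_re, mul_re,
      sub_zero] at h4 h5
    exact Redf.bound _ _ _ _ z.re z.im _ _ (sl_det g) y0 y1 hx h1 h2 h4 h5
  · rw [← mob_sl_mul _ _ hz, inv_mul_cancel, mob_one]

end Vale.Agent.P027M.B3
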