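import Vale.Agent.P027M.B3.Bas

/-! # P027, route M, block B3 : the periods span, and are stable under a rotation -/

set_option linter.all false

open scoped MatrixGroups ComplexConjugate
open Complex

noncomputable section

namespace Vale.Agent.P027M.B3

namespace Span

theorem fun_eq (f : (ℂ × ℂ) →ₗ[ℝ] ℝ) (x y : ℂ) :
    f (x, y) = ((f (1, 0) - I * f (I, 0)) * x + (f (0, 1) - I * f (0, I)) * y).re := by
  have e : ((x, y) : ℂ × ℂ) = x.re • ((1, 0) : ℂ × ℂ) + x.im • ((I, 0) : ℂ × ℂ) +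
      y.re • ((0, 1) : ℂ × ℂ) + y.im • ((0, I) : ℂ × ℂ) := by
    ext <;> simp
  conv_lhs => rw [e]
  simp only [map_add, map_smul, smul_eq_mul]
  simp
  ring

theorem mob_aR (z : ℂ) : mob (aR 0) z = z + 1 / 4 := by
  simp [mob, aR]
  ring

theorem pd_R {Γ : Subgroup SL(2, ℤ)} {G : ℂ → ℂ} (h : CP Γ G) {e k : ℂ}
    (hr : ∀ z : ℂ, 0 < z.im → G (z + 1 / 4) = e * G z + k) {γ g : SL(2, ℤ)} (hg : g ∈ Γ)
    (hA : 0 < (aR 0).det) (hc : aR 0 * (γ : M2) = (g : M2) * aR 0) : pd G g = e * pd G γ := by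
  have hI : 0 < I.im := by simp
  have h1 : mob (aR 0 * (γ : M2)) I = mob γ I + 1 / 4 := by
    rw [mob_mul _ (sl_pos γ) hI, mob_aR]
  have h2 : mob ((g : M2) * aR 0) I = mob g (I + 1 / 4) := by
    rw [mob_mul _ hA hI, mob_aR]
  have h3 := h.per g hg (I + 1 / 4) (by simp)
  rw [← h2, ← hc, h1, hr _ (mob_sl_im γ hI), hr _ hI] at h3
  rw [pd.eq_1 G γ]
  linear_combination -h3

end Span

open Span

theorem span (h1 : REFL) (h2 : IDX) (h3 : HAR) (h4 : COEF) (h5 : QEX) : SPAN := by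
  intro M Γ ε b c hL hE h11
  have hE' := h1 M Γ ε b c hL hE
  haveI := (h2 M Γ hL).1
  by_contra hne
  obtain ⟨f, f0, hf⟩ := Submodule.exists_le_ker_of_lt_top _ (lt_top_iff_ne_top.2 hne)
  set α : ℂ := f (1, 0) - I * f (I, 0) with hα
  set β : ℂ := f (0, 1) - I * f (0, I) with hβ
  have cp : CP Γ fun z => (0 + α * GG c true z) + β * GG (fun n => conj (c n)) false z :=
    ((CP.const 0).lin (hE.cp true) α).lin (hE'.cp false) β
  have ex := h5.2.2.1 _ _ _ _ β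
    (h5.2.2.1 _ _ _ _ α (h5.2.2.2 0) (show Ex (GG c true) _ from ⟨hE.conv true, fun _ _ => rfl⟩))
    (show Ex (GG (fun n => conj (c n)) false) _ from ⟨hE'.conv false, fun _ _ => rfl⟩)
  have har := h3 Γ _ 0 cp fun γ hγ _ => by
    have := hf (Submodule.subset_span ⟨γ, hγ, rfl⟩)
    rw [LinearMap.mem_ker, fun_eq, ← hα, ← hβ] at this
    rw [pd_lin, pd_lin, pd_const, zero_add, this, abs_zero]
  have co := h4 _ _ (0 + α * GG c true I + β * GG (fun n => conj (c n)) false I) 1 0 ex one_pos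
    fun t ht => by simpa using har t ht
  have a0 : α = 0 := by
    have := co 1 le_rfl
    simpa [cf, hE.one] using this
  have b0 : β = 0 := by
    have := co 11 (by norm_num)
    rw [zero_mul, norm_le_zero_iff] at this
    simpa [cf, h11] using this
  apply f0
  refine LinearMap.ext fun p => ?_
  obtain ⟨x, y⟩ := p
  rw [fun_eq, ← hα, ← hβ, a0, b0]
  simp

theorem rst (h1 : REFL) (h2 : HKU) (h3 : SOLV) : RST := by
  intro M Γ ε b c hL hE γ hγ
  have hE' := h1 M Γ ε b c hL hE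
  obtain ⟨⟨hA, hc⟩, -, -, hd⟩ := h2 M Γ hL
  have : ∀ p : ℕ, ∃ δ : SL(2, ℤ), p.Prime → ¬ p ∣ M → (4 * M : ℤ) ∣ δ 1 0 ∧ δ 1 1 = p := by
    intro p
    by_cases h : p.Prime ∧ ¬ p ∣ M
    · obtain ⟨δ, d1, d2, -⟩ := hd p h.1 h.2
      exact ⟨δ, fun _ _ => ⟨d1, d2⟩⟩
    · exact ⟨1, fun a b => absurd ⟨a, b⟩ h⟩
  choose δ hδ using this
  obtain ⟨k, hk⟩ := (h3 M 0 Γ δ ε b c hL hE hδ).r true
  obtain ⟨k', hk'⟩ := (h3 M 0 Γ δ _ _ _ hL hE' hδ).r false
  obtain ⟨π, g, hg⟩ := hc γ hγ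
  exact ⟨g 0, (hg 0).1, pd_R (hE.cp true) hk (hg 0).1 (hA 0) (hg 0).2,
    pd_R (hE'.cp false) hk' (hg 0).1 (hA 0) (hg 0).2⟩

end Vale.Agent.P027M.B3
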